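import Mathlib

/-!
Standard Gaussian measure on a finite product, polynomially bounded integrands, integration by
parts and the law of a linear form.
-/

open MeasureTheory ProbabilityTheory Filter
open scoped Topology

noncomputable section

namespace Vale.Agent.P166.Pattern

variable {κ κ' : Type*} [Fintype κ] [Fintype κ']

/-- standard Gaussian measure on `κ → ℝ` -/
def gauss (κ : Type*) [Fintype κ] : Measure (κ → ℝ) := Measure.pi fun _ : κ => gaussianReal 0 1

instance : IsProbabilityMeasure (gauss κ) := by unfold gauss; infer_instance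

/-- polynomial growth -/
def Poly {E : Type*} [Norm E] (F : E → ℝ) : Prop := ∃ C : ℝ, ∃ n : ℕ, ∀ x, |F x| ≤ C * (1 + ‖x‖) ^ n

namespace Poly

variable {E : Type*} [SeminormedAddCommGroup E] {F G : E → ℝ}

lemma of_bound (C : ℝ) (h : ∀ x, |F x| ≤ C) : Poly F := ⟨C, 0, fun x => by simpa using h x⟩

lemma const (c : ℝ) : Poly (fun _ : E => c) := of_bound |c| fun _ => le_rfl

lemma pos (h : Poly F) : ∃ C : ℝ, ∃ n : ℕ, 0 ≤ C ∧ ∀ x, |F x| ≤ C * (1 + ‖x‖) ^ n := by
  obtain ⟨C, n, h⟩ := h
  exact ⟨max C 0, n, le_max_right _ _, fun x =>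
    (h x).trans (mul_le_mul_of_nonneg_right (le_max_left _ _) (by positivity))⟩

lemma add (hF : Poly F) (hG : Poly G) : Poly fun x => F x + G x := by
  obtain ⟨C, n, hC, h⟩ := hF.pos
  obtain ⟨D, m, hD, k⟩ := hG.pos
  refine ⟨C + D, n + m, fun x => (abs_add_le _ _).trans ?_⟩
  have h1 : (1:ℝ) ≤ 1 + ‖x‖ := by simp
  rw [add_mul]
  exact add_le_add ((h x).trans (mul_le_mul_of_nonneg_left (pow_le_pow_right₀ h1 (by omega)) hC))
    ((k x).trans (mul_le_mul_of_nonneg_left (pow_le_pow_right₀ h1 (by omega)) hD))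

lemma mul (hF : Poly F) (hG : Poly G) : Poly fun x => F x * G x := by
  obtain ⟨C, n, hC, h⟩ := hF.pos
  obtain ⟨D, m, hD, k⟩ := hG.pos
  refine ⟨C * D, n + m, fun x => ?_⟩
  rw [abs_mul, pow_add, mul_mul_mul_comm]
  exact mul_le_mul (h x) (k x) (abs_nonneg _) (by positivity)

lemma neg (hF : Poly F) : Poly fun x => -F x := by
  obtain ⟨C, n, h⟩ := hF
  exact ⟨C, n, fun x => by rw [abs_neg]; exact h x⟩

lemma sub (hF : Poly F) (hG : Poly G) : Poly fun x => F x - G x := by
  simpa [sub_eq_add_neg] using hF.add hG.neg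

lemma const_mul (hF : Poly F) (c : ℝ) : Poly fun x => c * F x := (const c).mul hF

lemma pow (hF : Poly F) : ∀ k : ℕ, Poly fun x => F x ^ k
  | 0 => by simpa using const (1 : ℝ)
  | k + 1 => by simpa [pow_succ] using (pow hF k).mul hF

lemma sum {ι : Type*} (s : Finset ι) {F : ι → E → ℝ} (h : ∀ i ∈ s, Poly (F i)) :
    Poly fun x => ∑ i ∈ s, F i x := by
  classical
  induction s using Finset.induction_on with
  | empty => simpa using const (0 : ℝ)
  | insert a s ha ih =>
    simp only [Finset.sum_insert ha]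
    exact (h a (Finset.mem_insert_self a s)).add (ih fun i hi => h i (Finset.mem_insert_of_mem hi))

lemma mono (hG : Poly G) (h : ∀ x, |F x| ≤ |G x|) : Poly F := by
  obtain ⟨C, n, k⟩ := hG
  exact ⟨C, n, fun x => (h x).trans (k x)⟩

lemma abs (hF : Poly F) : Poly fun x => |F x| := hF.mono fun x => le_of_eq (abs_abs _)

lemma comp {E' : Type*} [SeminormedAddCommGroup E'] {F : E' → ℝ} (hF : Poly F) {L : E → E'} (K : ℝ)
    (hL : ∀ x, ‖L x‖ ≤ K * (1 + ‖x‖)) : Poly fun x => F (L x) := by
  obtain ⟨C, n, hC, h⟩ := hF.pos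
  refine ⟨C * (1 + K) ^ n, n, fun x => (h _).trans ?_⟩
  rw [mul_assoc, ← mul_pow]
  refine mul_le_mul_of_nonneg_left (pow_le_pow_left₀ (by positivity) ?_ n) hC
  nlinarith [hL x, norm_nonneg x, norm_nonneg (L x)]

end Poly

lemma poly_coord (i : κ) : Poly fun x : κ → ℝ => x i :=
  ⟨1, 1, fun x => by
    rw [one_mul, pow_one]
    linarith [norm_le_pi_norm x i, Real.norm_eq_abs (x i)]⟩

lemma pow_le_exp (n : ℕ) {t : ℝ} (ht : 0 ≤ t) :
    (1 + t) ^ n ≤ (n.factorial : ℝ) * Real.exp 1 * Real.exp t := by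
  have h := Real.pow_div_factorial_le_exp (1 + t) (by linarith) n
  rw [div_le_iff₀ (by positivity), Real.exp_add] at h
  linarith

lemma integrable_poly1 {F : ℝ → ℝ} (hc : Continuous F) (hF : Poly F) : Integrable F (gaussianReal 0 1) := by
  obtain ⟨C, n, hC, h⟩ := hF.pos
  refine Integrable.mono' ((((integrable_exp_mul_gaussianReal 1).add
    (integrable_exp_mul_gaussianReal (-1))).const_mul (C * ((n.factorial : ℝ) * Real.exp 1))))
    hc.aestronglyMeasurable (.of_forall fun x => ?_)
  rw [Real.norm_eq_abs]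
  refine (h x).trans ?_
  rw [mul_assoc]
  refine mul_le_mul_of_nonneg_left ((pow_le_exp n (norm_nonneg x)).trans ?_) hC
  refine mul_le_mul_of_nonneg_left ?_ (by positivity)
  simp only [Pi.add_apply, one_mul, neg_mul, Real.norm_eq_abs]
  rcases abs_cases x with ⟨e, _⟩ | ⟨e, _⟩ <;> rw [e] <;> linarith [Real.exp_pos x, Real.exp_pos (-x)]

lemma integrable_poly {F : (κ → ℝ) → ℝ} (hc : Continuous F) (hF : Poly F) : Integrable F (gauss κ) := by
  classical
  obtain ⟨C, n, hC, h⟩ := hF.pos
  have hi : Integrable (fun x : κ → ℝ => ∏ i, (Real.exp (1 * x i) + Real.exp (-1 * x i))) (gauss κ) :=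
    Integrable.fintype_prod (f := fun _ (t : ℝ) => Real.exp (1 * t) + Real.exp (-1 * t))
      fun _ => (integrable_exp_mul_gaussianReal 1).add (integrable_exp_mul_gaussianReal (-1))
  refine Integrable.mono' (hi.const_mul (C * ((n.factorial : ℝ) * Real.exp 1))) hc.aestronglyMeasurable
    (.of_forall fun x => ?_)
  rw [Real.norm_eq_abs]
  refine (h x).trans ?_
  rw [mul_assoc]
  refine mul_le_mul_of_nonneg_left ((pow_le_exp n (norm_nonneg x)).trans ?_) hC
  refine mul_le_mul_of_nonneg_left ?_ (by positivity)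
  have h1 : ‖x‖ ≤ ∑ i, |x i| := (pi_norm_le_iff_of_nonneg (by positivity)).2 fun i =>
    Finset.single_le_sum (f := fun i => |x i|) (fun _ _ => abs_nonneg _) (Finset.mem_univ i)
  refine (Real.exp_le_exp.2 h1).trans ?_
  rw [Real.exp_sum]
  refine Finset.prod_le_prod (fun i _ => (Real.exp_pos _).le) fun i _ => ?_
  rcases abs_cases (x i) with ⟨e, _⟩ | ⟨e, _⟩ <;> rw [e] <;> simp only [one_mul, neg_mul] <;>
    linarith [Real.exp_pos (x i), Real.exp_pos (-x i)]

lemma hasDerivAt_pdf (t : ℝ) :
    HasDerivAt (gaussianPDFReal 0 1) (-(t * gaussianPDFReal 0 1 t)) t := by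
  have e : gaussianPDFReal 0 1 = fun x => (√(2 * Real.pi * (1:ℝ)))⁻¹ * Real.exp (-x ^ 2 / 2) := by
    funext x; simp [gaussianPDFReal_def]
  rw [e]
  have h0 : HasDerivAt (fun x : ℝ => -x ^ 2 / 2) (-t) t :=
    (((hasDerivAt_pow 2 t).fun_neg).div_const 2).congr_deriv (by push_cast; ring)
  exact (h0.exp.const_mul _).congr_deriv (by ring)

lemma integrable_pdf_mul {F : ℝ → ℝ} (hF : Integrable F (gaussianReal 0 1)) :
    Integrable fun x => gaussianPDFReal 0 1 x * F x := by
  rw [gaussianReal_of_var_ne_zero _ one_ne_zero, integrable_withDensity_iff_integrable_smul'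
    (measurable_gaussianPDF _ _) (.of_forall fun _ => gaussianPDF_lt_top)] at hF
  simpa [gaussianPDF, ENNReal.toReal_ofReal (gaussianPDFReal_nonneg _ _ _)] using hF

/-- integration by parts on the line -/
lemma ibp1 {F F' : ℝ → ℝ} (hd : ∀ t, HasDerivAt F (F' t) t) (hc : Continuous F') (hF : Poly F)
    (hF' : Poly F') : ∫ t, t * F t ∂gaussianReal 0 1 = ∫ t, F' t ∂gaussianReal 0 1 := by
  have hFc : Continuous F := continuous_iff_continuousAt.2 fun t => (hd t).continuousAt
  have hid : Poly (fun t : ℝ => t) := ⟨1, 1, fun x => by simp [Real.norm_eq_abs]⟩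
  have i0 := integrable_pdf_mul (integrable_poly1 hFc hF)
  have i1 := integrable_pdf_mul (integrable_poly1 hc hF')
  have i2 := integrable_pdf_mul (integrable_poly1 (continuous_id.mul hFc) (hid.mul hF))
  have h := integral_mul_deriv_eq_deriv_mul_of_integrable (u := F) (v := gaussianPDFReal 0 1)
    (u' := F') (v' := fun t => -(t * gaussianPDFReal 0 1 t)) (fun t _ => hd t)
    (fun t _ => hasDerivAt_pdf t)
    (by refine i2.neg.congr (.of_forall fun t => ?_); simp only [Pi.neg_apply, Pi.mul_apply, id]; ring)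
    (by refine i1.congr (.of_forall fun t => ?_); simp only [Pi.mul_apply]; ring)
    (by refine i0.congr (.of_forall fun t => ?_); simp only [Pi.mul_apply]; ring)
  rw [integral_gaussianReal_eq_integral_smul one_ne_zero, integral_gaussianReal_eq_integral_smul one_ne_zero]
  simp only [smul_eq_mul, mul_neg, integral_neg, neg_inj] at h ⊢
  calc ∫ t, gaussianPDFReal 0 1 t * (t * F t) = ∫ t, F t * (t * gaussianPDFReal 0 1 t) := by
        congr 1; funext t; ring
    _ = ∫ t, F' t * gaussianPDFReal 0 1 t := h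
    _ = _ := by congr 1; funext t; ring

lemma measurePreserving_update [DecidableEq κ] (i : κ) :
    MeasurePreserving (fun p : (κ → ℝ) × ℝ => Function.update p.1 i p.2)
      ((gauss κ).prod (gaussianReal 0 1)) (gauss κ) := by
  have hm : Measurable fun p : (κ → ℝ) × ℝ => Function.update p.1 i p.2 := by
    refine measurable_pi_lambda _ fun j => ?_
    by_cases hj : j = i
    · subst hj; simp only [Function.update_self]; exact measurable_snd
    · simp only [Function.update_of_ne hj]; exact (measurable_pi_apply j).comp measurable_fst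
  refine ⟨hm, Eq.symm <| Measure.pi_eq fun s hs => ?_⟩
  rw [Measure.map_apply hm (MeasurableSet.univ_pi hs)]
  have hpre : (fun p : (κ → ℝ) × ℝ => Function.update p.1 i p.2) ⁻¹' Set.univ.pi s =
      (Set.univ.pi (Function.update s i Set.univ)) ×ˢ s i := by
    ext ⟨x, t⟩
    simp only [Set.mem_preimage, Set.mem_univ_pi, Set.mem_prod]
    refine ⟨fun h => ⟨fun j => ?_, by simpa using h i⟩, fun h j => ?_⟩
    · by_cases hj : j = i
      · subst hj; simp
      · simpa [Function.update_of_ne hj] using h j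
    · by_cases hj : j = i
      · subst hj; simpa using h.2
      · simpa [Function.update_of_ne hj] using h.1 j
  rw [hpre, Measure.prod_prod, gauss, Measure.pi_pi,
    ← Finset.mul_prod_erase Finset.univ _ (Finset.mem_univ i),
    ← Finset.mul_prod_erase Finset.univ (fun j => gaussianReal 0 1 (s j)) (Finset.mem_univ i)]
  simp only [Function.update_self, measure_univ, one_mul]
  rw [mul_comm]
  congr 1
  exact Finset.prod_congr rfl fun j hj => by rw [Function.update_of_ne (Finset.ne_of_mem_erase hj)]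

lemma norm_update_le [DecidableEq κ] (x : κ → ℝ) (i : κ) (t : ℝ) :
    ‖Function.update x i t‖ ≤ ‖x‖ + |t| := by
  refine (pi_norm_le_iff_of_nonneg (by positivity)).2 fun j => ?_
  by_cases hj : j = i
  · subst hj; simp
  · rw [Function.update_of_ne hj]
    linarith [norm_le_pi_norm x j, abs_nonneg t]

/-- integration by parts in one coordinate -/
theorem ibp [DecidableEq κ] {F D : (κ → ℝ) → ℝ} (i : κ)
    (hd : ∀ x, HasDerivAt (fun t => F (Function.update x i t)) (D x) (x i))
    (hFc : Continuous F) (hDc : Continuous D) (hF : Poly F) (hD : Poly D) :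
    ∫ x, x i * F x ∂gauss κ = ∫ x, D x ∂gauss κ := by
  have hmp := measurePreserving_update (κ := κ) i
  have i1 : Integrable (fun x : κ → ℝ => x i * F x) (gauss κ) :=
    integrable_poly ((show Continuous fun x : κ → ℝ => x i by fun_prop).mul hFc) ((poly_coord i).mul hF)
  have i2 := integrable_poly hDc hD
  have hcu : ∀ x : κ → ℝ, Continuous fun t => Function.update x i t := fun x =>
    (continuous_const (y := x)).update i continuous_id
  have step : ∀ G : (κ → ℝ) → ℝ, Integrable G (gauss κ) →
      ∫ x, G x ∂gauss κ = ∫ x, ∫ t, G (Function.update x i t) ∂gaussianReal 0 1 ∂gauss κ := by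
    intro G hG
    have hG' : AEStronglyMeasurable G
        (((gauss κ).prod (gaussianReal 0 1)).map fun p => Function.update p.1 i p.2) := by
      rw [hmp.map_eq]; exact hG.aestronglyMeasurable
    have hint : Integrable (fun p : (κ → ℝ) × ℝ => G (Function.update p.1 i p.2))
        ((gauss κ).prod (gaussianReal 0 1)) := (hmp.integrable_comp hG.aestronglyMeasurable).2 hG
    conv_lhs => rw [← hmp.map_eq, integral_map hmp.measurable.aemeasurable hG']
    exact integral_prod _ hint
  rw [step _ i1, step _ i2]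
  refine integral_congr_ae (.of_forall fun x => ?_)
  simp only [Function.update_self]
  have hcomp : ∀ {G : (κ → ℝ) → ℝ}, Poly G → Poly fun t => G (Function.update x i t) := fun hG =>
    hG.comp (‖x‖ + 1) fun t => by
      nlinarith [norm_update_le x i t, norm_nonneg x, norm_nonneg t, Real.norm_eq_abs t]
  refine ibp1 (fun t => ?_) (hDc.comp (hcu x)) (hcomp hF) (hcomp hD)
  have h := hd (Function.update x i t)
  rw [Function.update_self] at h
  refine h.congr_of_eventuallyEq (.of_forall fun u => ?_)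
  simp [Function.update_idem]

lemma measurable_linear (c : κ → ℝ) : Measurable fun x : κ → ℝ => ∑ i, c i * x i :=
  Finset.measurable_sum _ fun i _ =>
    measurable_const.mul (measurable_pi_apply (X := fun _ : κ => ℝ) i)

lemma charFun_linear (c : κ → ℝ) (s : ℝ) :
    charFun ((gauss κ).map fun x => ∑ i, c i * x i) s = Complex.exp (-((∑ i, c i ^ 2 : ℝ) : ℂ) * s ^ 2 / 2) := by
  rw [charFun_apply_real, integral_map (measurable_linear c).aemeasurable (by fun_prop)]
  push_cast
  simp only [Finset.mul_sum, Finset.sum_mul, Complex.exp_sum]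
  rw [gauss, integral_fintype_prod_eq_prod
    (fun i (t : ℝ) => Complex.exp ((s : ℂ) * ((c i : ℂ) * (t : ℂ)) * Complex.I)),
    ← Finset.sum_neg_distrib, Finset.sum_mul, Finset.sum_div, Complex.exp_sum]
  refine Finset.prod_congr rfl fun i _ => ?_
  have h := charFun_gaussianReal (μ := 0) (v := 1) (s * c i)
  rw [charFun_apply_real] at h
  push_cast at h
  calc ∫ t, Complex.exp ((s : ℂ) * ((c i : ℂ) * (t : ℂ)) * Complex.I) ∂gaussianReal 0 1
      = ∫ t, Complex.exp ((s : ℂ) * (c i : ℂ) * (t : ℂ) * Complex.I) ∂gaussianReal 0 1 := by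
        congr 1; funext t; congr 1; ring
    _ = _ := h
    _ = _ := by congr 1; ring

/-- a linear form of unit norm is standard normal -/
theorem map_linear (c : κ → ℝ) (hc : ∑ i, c i ^ 2 = 1) :
    (gauss κ).map (fun x => ∑ i, c i * x i) = gaussianReal 0 1 := by
  have : IsProbabilityMeasure ((gauss κ).map fun x => ∑ i, c i * x i) :=
    Measure.isProbabilityMeasure_map (measurable_linear c).aemeasurable
  refine Measure.ext_of_charFun (funext fun s => ?_)
  rw [charFun_linear, hc, charFun_gaussianReal]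
  push_cast
  congr 1
  ring

lemma integral_linear (c : κ → ℝ) (hc : ∑ i, c i ^ 2 = 1) {F : ℝ → ℝ} (hF : Measurable F) :
    ∫ x, F (∑ i, c i * x i) ∂gauss κ = ∫ t, F t ∂gaussianReal 0 1 := by
  rw [← map_linear c hc, integral_map (measurable_linear c).aemeasurable hF.aestronglyMeasurable]

lemma integrable_linear (c : κ → ℝ) (hc : ∑ i, c i ^ 2 = 1) {F : ℝ → ℝ}
    (hF : Integrable F (gaussianReal 0 1)) : Integrable (fun x => F (∑ i, c i * x i)) (gauss κ) := by
  rw [← map_linear c hc] at hF
  exact (integrable_map_measure hF.aestronglyMeasurable (measurable_linear c).aemeasurable).1 hF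

lemma measurePreserving_inl : MeasurePreserving (fun x : κ ⊕ κ' → ℝ => fun i => x (Sum.inl i))
    (gauss (κ ⊕ κ')) (gauss κ) := by
  classical
  have hm : Measurable fun x : κ ⊕ κ' → ℝ => fun i => x (Sum.inl i) := by fun_prop
  refine ⟨hm, Eq.symm <| Measure.pi_eq fun s hs => ?_⟩
  rw [Measure.map_apply hm (MeasurableSet.univ_pi hs)]
  have hpre : (fun x : κ ⊕ κ' → ℝ => fun i => x (Sum.inl i)) ⁻¹' Set.univ.pi s =
      Set.univ.pi (Sum.elim s fun _ => Set.univ) := by
    ext x; simp [Sum.forall]
  rw [hpre, gauss, Measure.pi_pi, Fintype.prod_sum_type]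
  simp

lemma integral_inl {F : (κ → ℝ) → ℝ} (hF : Continuous F) :
    ∫ x, F (fun i => x (Sum.inl i)) ∂gauss (κ ⊕ κ') = ∫ x, F x ∂gauss κ := by
  have h := measurePreserving_inl (κ := κ) (κ' := κ')
  rw [← h.map_eq, integral_map h.measurable.aemeasurable hF.aestronglyMeasurable]

end Vale.Agent.P166.Pattern
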