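import Vale.Agent.P166.Pattern.Law
import Vale.Agent.P166.Near

/-!
Transfer of the Gaussian pattern limit to every admissible sequence of spectra.
-/

open MeasureTheory Filter Matrix
open scoped Topology

noncomputable section

namespace Vale.Agent.P166.Pattern

/-- the output of the pattern engine: a number `p` and its concentration functional -/
def GoodFunctional (b α p : ℝ) : Prop :=
  ∀ ν : ∀ N : ℕ, Measure (Mat N), (∀ N, IsHaarOrthogonal (ν N)) →
    ∃ Ψ : ∀ N : ℕ, (Fin ⌊α * (N:ℝ)⌋₊ × Fin N → ℝ) → ℝ,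
      (∀ N, Measurable (Ψ N)) ∧ (∀ N g, 0 ≤ Ψ N g ∧ Ψ N g ≤ 1) ∧
      Tendsto (fun N : ℕ => ∫ g, Ψ N g ∂gauss (Fin ⌊α * (N:ℝ)⌋₊ × Fin N)) atTop (𝓝 0) ∧
      ∀ N g (lam : Fin N → ℝ) (Q : Matrix (Fin N) (Fin N) ℝ), Q ∈ Matrix.orthogonalGroup (Fin N) ℝ →
        WM g = Qᵀ * Matrix.diagonal lam * Q → ∫ U, min |pressure b lam U - p| 1 ∂ν N = Ψ N g

/-- moving weakly convergent spectra into the hull of the support gives an admissible sequence -/
lemma exists_admissible {μ : Measure ℝ} [IsProbabilityMeasure μ] (hμ : IsCompact μ.support)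
    {lam : ∀ N : ℕ, Fin N → ℝ} (hw : ∀ g : BoundedContinuousFunction ℝ ℝ,
      Tendsto (fun N : ℕ => (∑ k, g (lam N k)) / (N : ℝ)) atTop (𝓝 (∫ x, g x ∂μ))) :
    ∃ lam' : ∀ N : ℕ, Fin N → ℝ, Admissible μ lam' := by
  set s := sInf μ.support
  set b := sSup μ.support
  have hs : s ∈ μ.support := hμ.sInf_mem support_nonempty
  have hsb : s ≤ b := le_csSup hμ.bddAbove hs
  set c : ℝ → ℝ := fun x => max s (min b x)
  have hc : Continuous c := by fun_prop
  have hc1 : ∀ x, s ≤ c x := fun x => le_max_left _ _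
  have hc2 : ∀ x, c x ≤ b := fun x => max_le hsb (min_le_left _ _)
  set lam' : ∀ N : ℕ, Fin N → ℝ := fun N k => c (lam N k)
  have hw' : ∀ g : BoundedContinuousFunction ℝ ℝ,
      Tendsto (fun N : ℕ => (∑ k, g (lam' N k)) / (N : ℝ)) atTop (𝓝 (∫ x, g x ∂μ)) := fun g => by
    have h := hw (g.compContinuous ⟨c, hc⟩)
    have e : ∫ x, (g.compContinuous ⟨c, hc⟩) x ∂μ = ∫ x, g x ∂μ := by
      refine integral_congr_ae ?_
      filter_upwards [Measure.support_mem_ae (μ := μ)] with x hx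
      show g (max s (min b x)) = g x
      rw [min_eq_right (show x ≤ b from le_csSup hμ.bddAbove hx),
        max_eq_right (show s ≤ x from csInf_le hμ.bddBelow hx)]
    rw [← e]; exact h
  refine ⟨lam', hw', ?_, ?_⟩
  · rw [Metric.tendsto_nhds]
    intro δ hδ
    have hpos := integral_top_pos hμ (half_pos hδ)
    filter_upwards [(hw' _).eventually (eventually_gt_nhds hpos), eventually_gt_atTop 0] with N hN hN0
    have : Nonempty (Fin N) := ⟨⟨0, hN0⟩⟩
    obtain ⟨k, hk⟩ : ∃ k, b - δ / 2 < lam' N k := by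
      by_contra hcon
      push Not at hcon
      rw [Finset.sum_eq_zero fun k _ => ramp_eq_zero (by linarith) (hcon k)] at hN
      simp at hN
    rw [Real.dist_eq, abs_lt]
    have h1 : lam' N k ≤ ⨆ k, lam' N k := le_ciSup (Set.finite_range _).bddAbove k
    have h2 : ⨆ k, lam' N k ≤ b := ciSup_le fun k => hc2 _
    constructor <;> linarith
  · rw [Metric.tendsto_nhds]
    intro δ hδ
    set g : BoundedContinuousFunction ℝ ℝ := 1 - ramp (s + δ / 4) (δ / 4)
    have hg : ∀ x, g x = 1 - ramp (s + δ / 4) (δ / 4) x := fun x => rfl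
    have hg0 : ∀ x, 0 ≤ g x := fun x => by rw [hg]; linarith [ramp_le_one (s + δ / 4) (δ / 4) x]
    have hpos : 0 < ∫ x, g x ∂μ := by
      rw [integral_pos_iff_support_of_nonneg hg0 (g.integrable μ)]
      refine lt_of_lt_of_le ((Measure.mem_support_iff_forall s).1 hs (Set.Iio (s + δ / 4)) (Iio_mem_nhds (by linarith)))
        (measure_mono fun x (hx : x < s + δ / 4) => ?_)
      rw [Function.mem_support, hg, ramp_eq_zero (by linarith) hx.le]
      norm_num
    filter_upwards [(hw' g).eventually (eventually_gt_nhds hpos), eventually_gt_atTop 0] with N hN hN0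
    have : Nonempty (Fin N) := ⟨⟨0, hN0⟩⟩
    obtain ⟨k, hk⟩ : ∃ k, lam' N k < s + δ / 2 := by
      by_contra hcon
      push Not at hcon
      rw [Finset.sum_eq_zero fun k _ => ?_] at hN
      · simp at hN
      · rw [hg, ramp_eq_one (by linarith) (by linarith [hcon k]), sub_self]
    rw [Real.dist_eq, abs_lt]
    have h1 : ⨅ k, lam' N k ≤ lam' N k := ciInf_le (Set.finite_range _).bddBelow k
    have h2 : s ≤ ⨅ k, lam' N k := le_ciInf fun k => hc1 _
    constructor <;> linarith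

theorem limit_of_good {α : ℝ} (hα : 0 < α) {B : ℝ}
    (hgood : ∀ b : ℝ, 0 ≤ b → b ≤ B → ∃ p, GoodFunctional b α p) :
    ∃ μ : Measure ℝ, IsProbabilityMeasure μ ∧ IsCompact μ.support ∧
      μ.support ⊆ Set.Icc 0 ((1 + √α) ^ 2) ∧ sSup μ.support = (1 + √α) ^ 2 ∧
      (∀ k : ℕ, ∫ x, x ^ (k + 1) ∂μ = α * ∫ x, x ^ k ∂μ +
        ∑ j : Fin k, (∫ x, x ^ (j.val + 1) ∂μ) * ∫ x, x ^ (k - 1 - j.val) ∂μ) ∧
      (∃ lam, Admissible μ lam) ∧
      ∀ β : ℝ, 0 ≤ β → β ≤ B → ∃ p : ℝ, ∀ lam : ∀ N : ℕ, Fin N → ℝ, Admissible μ lam →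
        ∀ ν : ∀ N : ℕ, Measure (Mat N), (∀ N, IsHaarOrthogonal (ν N)) → ∀ ε : ℝ, 0 < ε →
          Tendsto (fun N : ℕ => (ν N).real {U | ε ≤ |pressure β (lam N) U - p|}) atTop (𝓝 0) := by
  obtain ⟨g0, lam0, h0, -, -⟩ := exists_spec hα (fun _ _ => 0) (fun _ => measurable_const)
    (fun _ _ => ⟨le_rfl, zero_le_one⟩) (by simp)
  obtain ⟨μ, hμp, hμ, hsupp, hsup, hmom⟩ := exists_law hα h0
  have hae : ∀ᵐ x ∂μ, x ∈ Set.Icc 0 ((1 + √α) ^ 2 + 1) := by
    filter_upwards [Measure.support_mem_ae (μ := μ)] with x hx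
    exact ⟨(hsupp hx).1, by linarith [(hsupp hx).2]⟩
  have hweak : ∀ {lam : ∀ N : ℕ, Fin N → ℝ}, Spec α lam → ∀ g : BoundedContinuousFunction ℝ ℝ,
      Tendsto (fun N : ℕ => (∑ k, g (lam N k)) / (N : ℝ)) atTop (𝓝 (∫ x, g x ∂μ)) := fun {lam} h =>
    weak_of_moments hae h.nonneg (h.top 1 one_pos) fun k => by rw [hmom k]; exact h.moment k
  refine ⟨μ, hμp, hμ, hsupp, hsup, fun k => ?_, exists_admissible hμ (hweak h0), fun β hβ hβB => ?_⟩
  · simp only [hmom]; rw [mom]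
  obtain ⟨p, hp⟩ := hgood β hβ hβB
  refine ⟨p, fun lam hlam ν hν ε hε => ?_⟩
  obtain ⟨Ψ, hm, h01, hlim, hid⟩ := hp ν hν
  obtain ⟨g, lamS, hS, hΨ, hdiag⟩ := exists_spec hα Ψ hm h01 hlim
  set L := |sSup μ.support| + |sInf μ.support| + 1
  have hnS : Near μ L lamS := by
    refine ⟨hweak hS, ?_, fun δ hδ => ?_⟩
    · filter_upwards [hS.top 1 one_pos] with N hN k
      rw [abs_of_nonneg (hS.nonneg N k)]
      simp only [L, hsup, abs_of_nonneg (sq_nonneg (1 + √α))]
      linarith [hN k, abs_nonneg (sInf μ.support)]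
    · rw [hsup]; exact hS.top δ hδ
  set φ := fun x : ℝ => min |x - p| 1
  have hφ : Continuous φ := by fun_prop
  have hS0 : Tendsto (fun N : ℕ => ∫ U, φ (pressure β (lamS N) U) ∂ν N) atTop (𝓝 0) :=
    hΨ.congr fun N => by
      obtain ⟨Q, hQ, hW⟩ := hdiag N
      exact (hid N (g N) (lamS N) Q hQ hW).symm
  have h1 : Tendsto (fun N : ℕ => ∫ U, φ (pressure β (lam N) U) ∂ν N) atTop (𝓝 0) := by
    simpa using (near_phi_diff hμ (by simp only [L]; linarith [abs_nonneg (sInf μ.support)]) hnS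
      (hlam.near hμ) hβ hν hφ).add hS0
  have hmin : 0 < min ε 1 := lt_min hε one_pos
  refine squeeze_zero' (Eventually.of_forall fun N => measureReal_nonneg) ?_
    (by simpa using h1.div_const (min ε 1))
  filter_upwards [eventually_gt_atTop 0] with N hN
  have := (hν N).1
  rw [le_div_iff₀ hmin, mul_comm]
  refine le_trans ?_ (mul_meas_ge_le_integral_of_nonneg
    (.of_forall fun U => le_min (abs_nonneg _) zero_le_one)
    (integrable_of_continuous (hν N) hN hβ (lam N) hφ) (min ε 1))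
  exact mul_le_mul_of_nonneg_left
    (measureReal_mono fun U (hU : ε ≤ |pressure β (lam N) U - p|) => min_le_min hU le_rfl) hmin.le

end Vale.Agent.P166.Pattern
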