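import Vale.Agent.P166.Pattern.Limit

/-!
An Efron-Stein inequality and concentration of the log partition function.
-/

open MeasureTheory ProbabilityTheory Filter Set
open scoped Topology

noncomputable section

namespace Vale.Agent.P166.Pattern

variable {ι : Type*} [Fintype ι] [DecidableEq ι]

lemma mp_uncurry (ι : Type*) [Fintype ι] (M : ℕ) :
    MeasurePreserving (fun g : Fin M → ι → ℝ => fun p : Fin M × ι => g p.1 p.2)
      (pats ι M) (gauss (Fin M × ι)) := by
  have hm : Measurable fun g : Fin M → ι → ℝ => fun p : Fin M × ι => g p.1 p.2 := by fun_prop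
  refine ⟨hm, Eq.symm <| Measure.pi_eq fun s hs => ?_⟩
  rw [Measure.map_apply hm (MeasurableSet.univ_pi hs)]
  have hpre : (fun g : Fin M → ι → ℝ => fun p : Fin M × ι => g p.1 p.2) ⁻¹' Set.univ.pi s =
      Set.univ.pi fun m => Set.univ.pi fun i => s (m, i) := by
    ext g; simp [Prod.forall]
  rw [hpre, pats, Measure.pi_pi]
  simp only [gauss, Measure.pi_pi, Fintype.prod_prod_type]

/-- measurable with polynomial growth -/
def Good {E : Type*} [Norm E] [MeasurableSpace E] (F : E → ℝ) : Prop := Measurable F ∧ Poly F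

lemma integrable_good {κ : Type*} [Fintype κ] {F : (κ → ℝ) → ℝ} (hF : Good F) : Integrable F (gauss κ) := by
  obtain ⟨C, n, hC, h⟩ := hF.2.pos
  refine Integrable.mono' (integrable_poly (F := fun x : κ → ℝ => C * (1 + ‖x‖) ^ n) (by fun_prop)
    ⟨C, n, fun x => le_of_eq (abs_of_nonneg (by positivity))⟩) hF.1.aestronglyMeasurable
    (.of_forall fun x => (Real.norm_eq_abs _).le.trans (h x))

lemma norm_uncurry_le {M : ℕ} (g : Fin M × ι → ℝ) : ‖fun m i => g (m, i)‖ ≤ ‖g‖ :=
  (pi_norm_le_iff_of_nonneg (norm_nonneg _)).2 fun m =>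
    (pi_norm_le_iff_of_nonneg (norm_nonneg _)).2 fun i => norm_le_pi_norm g (m, i)

lemma integrable_pats {M : ℕ} {F : (Fin M → ι → ℝ) → ℝ} (hF : Good F) : Integrable F (pats ι M) := by
  have hG : Good fun g : Fin M × ι → ℝ => F fun m i => g (m, i) :=
    ⟨hF.1.comp (by fun_prop), hF.2.comp 1 fun g => by
      rw [one_mul]; linarith [norm_uncurry_le g]⟩
  exact ((mp_uncurry ι M).integrable_comp (integrable_good hG).aestronglyMeasurable).2 (integrable_good hG)

lemma norm_cons_le {M : ℕ} (y : ι → ℝ) (g : Fin M → ι → ℝ) :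
    ‖(Fin.cons y g : Fin (M + 1) → ι → ℝ)‖ ≤ ‖y‖ + ‖g‖ := by
  refine (pi_norm_le_iff_of_nonneg (by positivity)).2 fun k => ?_
  refine Fin.cases ?_ (fun j => ?_) k
  · simp
  · simp only [Fin.cons_succ]; linarith [norm_le_pi_norm g j, norm_nonneg y]

lemma good_slice {M : ℕ} {F : (Fin (M + 1) → ι → ℝ) → ℝ} (hF : Good F) (g : Fin M → ι → ℝ) :
    Good fun y : ι → ℝ => F (Fin.cons y g) :=
  ⟨hF.1.comp ((mp_cons ι M).measurable.comp (measurable_id.prodMk measurable_const)),
    hF.2.comp (1 + ‖g‖) fun y => by nlinarith [norm_cons_le y g, norm_nonneg y, norm_nonneg g]⟩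

lemma good_slice_mean {M : ℕ} {F : (Fin (M + 1) → ι → ℝ) → ℝ} (hF : Good F) :
    Good fun g : Fin M → ι → ℝ => ∫ y, F (Fin.cons y g) ∂gauss ι := by
  refine ⟨?_, ?_⟩
  · have : StronglyMeasurable fun p : (Fin M → ι → ℝ) × (ι → ℝ) => F (Fin.cons p.2 p.1) :=
      (hF.1.comp ((mp_cons ι M).measurable.comp (measurable_snd.prodMk measurable_fst))).stronglyMeasurable
    exact this.integral_prod_right'.measurable
  · obtain ⟨C, n, hC, h⟩ := hF.2.pos
    have hi : Integrable (fun y : ι → ℝ => (1 + ‖y‖) ^ n) (gauss ι) :=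
      integrable_poly (by fun_prop) ⟨1, n, fun y => by rw [one_mul]; exact le_of_eq (abs_of_nonneg (by positivity))⟩
    refine ⟨C * ∫ y, (1 + ‖y‖) ^ n ∂gauss ι, n, fun g => ?_⟩
    refine abs_integral_le_integral_abs.trans ?_
    calc ∫ y, |F (Fin.cons y g)| ∂gauss ι ≤ ∫ y, C * (1 + ‖g‖) ^ n * (1 + ‖y‖) ^ n ∂gauss ι := by
          refine integral_mono (integrable_good (good_slice hF g)).abs (hi.const_mul _) fun y => ?_
          refine (h _).trans ?_
          rw [mul_assoc, ← mul_pow]
          refine mul_le_mul_of_nonneg_left (pow_le_pow_left₀ (by positivity) ?_ n) hC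
          nlinarith [norm_cons_le y g, mul_nonneg (norm_nonneg g) (norm_nonneg y)]
      _ = _ := by rw [integral_const_mul]; ring

lemma good_mul {E : Type*} [SeminormedAddCommGroup E] [MeasurableSpace E] {F G : E → ℝ}
    (hF : Good F) (hG : Good G) : Good fun x => F x * G x := ⟨hF.1.mul hG.1, hF.2.mul hG.2⟩

lemma good_sub {E : Type*} [SeminormedAddCommGroup E] [MeasurableSpace E] {F G : E → ℝ}
    (hF : Good F) (hG : Good G) : Good fun x => F x - G x := ⟨hF.1.sub hG.1, hF.2.sub hG.2⟩

lemma integral_split {M : ℕ} {F : (Fin (M + 1) → ι → ℝ) → ℝ} (hF : Good F) :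
    ∫ g, F g ∂pats ι (M + 1) = ∫ g, ∫ y, F (Fin.cons y g) ∂gauss ι ∂pats ι M := by
  have h := mp_cons ι M
  have hint : Integrable (fun p : (ι → ℝ) × (Fin M → ι → ℝ) => F (Fin.cons p.1 p.2))
      ((gauss ι).prod (pats ι M)) := (h.integrable_comp hF.1.aestronglyMeasurable).2 (integrable_pats hF)
  conv_lhs => rw [← h.map_eq, integral_map h.measurable.aemeasurable hF.1.aestronglyMeasurable]
  exact integral_prod_symm _ hint

lemma var_slice {F : (ι → ℝ) → ℝ} (hF : Good F) (c : ℝ) :
    ∫ y, F y * F y ∂gauss ι - (∫ y, F y ∂gauss ι) ^ 2 ≤ ∫ y, (F y - c) * (F y - c) ∂gauss ι := by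
  have i1 := integrable_good (good_mul hF hF)
  have i2 : Integrable (fun y => 2 * c * F y) (gauss ι) := (integrable_good hF).const_mul _
  have i3 : Integrable (fun y => F y * F y - 2 * c * F y) (gauss ι) := i1.sub i2
  rw [show (fun y => (F y - c) * (F y - c)) = fun y => F y * F y - 2 * c * F y + c * c by funext y; ring,
    integral_add i3 (integrable_const _), integral_sub i1 i2, integral_const_mul, integral_const]
  simp only [probReal_univ, one_smul]
  nlinarith [sq_nonneg ((∫ y, F y ∂gauss ι) - c)]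

/-- Efron-Stein -/
theorem efron : ∀ (M : ℕ) (F : (Fin M → ι → ℝ) → ℝ) (Fk : Fin M → (Fin M → ι → ℝ) → ℝ) (C : ℝ),
    Good F → (∀ k, Good (Fk k)) → (∀ k g y, Fk k (Function.update g k y) = Fk k g) →
    (∀ k, ∫ g, (F g - Fk k g) * (F g - Fk k g) ∂pats ι M ≤ C) →
    ∫ g, F g * F g ∂pats ι M - (∫ g, F g ∂pats ι M) ^ 2 ≤ M * C := by
  intro M
  induction M with
  | zero =>
    intro F Fk C _ _ _ _
    have e : ∀ g, F g = F default := fun g => congrArg F (Subsingleton.elim _ _)
    simp only [e, integral_const, probReal_univ, one_smul]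
    simp [sq]
  | succ M ih =>
    intro F Fk C hF hk hup hC
    set G := fun g : Fin M → ι → ℝ => ∫ y, F (Fin.cons y g) ∂gauss ι
    set Gk := fun (k : Fin M) (g : Fin M → ι → ℝ) => ∫ y, Fk k.succ (Fin.cons y g) ∂gauss ι
    have hG : Good G := good_slice_mean hF
    have hGk : ∀ k, Good (Gk k) := fun k => good_slice_mean (hk _)
    have hupG : ∀ k g y, Gk k (Function.update g k y) = Gk k g := fun k g y => by
      refine integral_congr_ae (.of_forall fun z => ?_)
      show Fk k.succ (Fin.cons z (Function.update g k y)) = Fk k.succ (Fin.cons z g)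
      rw [Fin.cons_update, hup]
    have hCG : ∀ k, ∫ g, (G g - Gk k g) * (G g - Gk k g) ∂pats ι M ≤ C := fun k => by
      refine le_trans ?_ (hC k.succ)
      have hd := good_sub hF (hk k.succ)
      rw [integral_split (good_mul hd hd)]
      refine integral_mono (integrable_pats (good_mul (good_sub hG (hGk k)) (good_sub hG (hGk k))))
        (integrable_pats (good_slice_mean (good_mul hd hd))) fun g => ?_
      have hs := good_slice hd g
      have e : G g - Gk k g = ∫ y, (F (Fin.cons y g) - Fk k.succ (Fin.cons y g)) ∂gauss ι :=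
        (integral_sub (integrable_good (good_slice hF g)) (integrable_good (good_slice (hk _) g))).symm
      rw [e, ← sq, sq]
      have := var_slice hs (∫ y, (F (Fin.cons y g) - Fk k.succ (Fin.cons y g)) ∂gauss ι)
      have h0 : 0 ≤ ∫ y, ((F (Fin.cons y g) - Fk k.succ (Fin.cons y g)) -
          (∫ y, (F (Fin.cons y g) - Fk k.succ (Fin.cons y g)) ∂gauss ι)) *
          ((F (Fin.cons y g) - Fk k.succ (Fin.cons y g)) -
          (∫ y, (F (Fin.cons y g) - Fk k.succ (Fin.cons y g)) ∂gauss ι)) ∂gauss ι :=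
        integral_nonneg fun y => mul_self_nonneg _
      set m := ∫ y, (F (Fin.cons y g) - Fk k.succ (Fin.cons y g)) ∂gauss ι
      have i1 := integrable_good (good_mul hs hs)
      have i2 : Integrable (fun y => 2 * m * (F (Fin.cons y g) - Fk k.succ (Fin.cons y g))) (gauss ι) :=
        (integrable_good hs).const_mul _
      have i3 : Integrable (fun y => (F (Fin.cons y g) - Fk k.succ (Fin.cons y g)) *
          (F (Fin.cons y g) - Fk k.succ (Fin.cons y g)) -
          2 * m * (F (Fin.cons y g) - Fk k.succ (Fin.cons y g))) (gauss ι) := i1.sub i2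
      rw [show (fun y => ((F (Fin.cons y g) - Fk k.succ (Fin.cons y g)) - m) *
          ((F (Fin.cons y g) - Fk k.succ (Fin.cons y g)) - m)) = fun y =>
          (F (Fin.cons y g) - Fk k.succ (Fin.cons y g)) * (F (Fin.cons y g) - Fk k.succ (Fin.cons y g)) -
          2 * m * (F (Fin.cons y g) - Fk k.succ (Fin.cons y g)) + m * m by funext y; ring,
        integral_add i3 (integrable_const _), integral_sub i1 i2, integral_const_mul, integral_const] at h0
      simp only [probReal_univ, one_smul] at h0
      linarith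
    have hstep : ∫ g, (∫ y, F (Fin.cons y g) * F (Fin.cons y g) ∂gauss ι - G g * G g) ∂pats ι M ≤ C := by
      refine le_trans ?_ (hC 0)
      have hd := good_sub hF (hk 0)
      rw [integral_split (good_mul hd hd)]
      refine integral_mono ((integrable_pats (good_slice_mean (good_mul hF hF))).sub
        (integrable_pats (good_mul hG hG))) (integrable_pats (good_slice_mean (good_mul hd hd))) fun g => ?_
      have hc : ∀ y, Fk 0 (Fin.cons y g) = Fk 0 (Fin.cons 0 g) := fun y => by
        rw [show (Fin.cons y g : Fin (M + 1) → ι → ℝ) = Function.update (Fin.cons 0 g) 0 y from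
          (Fin.update_cons_zero _ _ _).symm, hup]
      simp only [hc, Pi.sub_apply]
      have := var_slice (good_slice hF g) (Fk 0 (Fin.cons 0 g))
      simp only [sq] at this
      exact this
    have h := ih G Gk C hG hGk hupG hCG
    rw [integral_sub (integrable_pats (good_slice_mean (good_mul hF hF))) (integrable_pats (good_mul hG hG)),
      ← integral_split (good_mul hF hF)] at hstep
    rw [← integral_split hF] at h
    push_cast
    linarith

lemma good_Lw {b : ℝ} (hb : 0 ≤ b) {M : ℕ} {w : (ι → Bool) → ℝ} (hw : ∀ σ, 0 < w σ)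
    (v : Fin M → ι → ℝ) : Good (Lw b w v) := by
  refine ⟨(continuous_Lw b hw v).measurable, ?_⟩
  have h1 : Poly fun g : Fin M → ι → ℝ => |Real.log (∑ σ, w σ)| + ∑ σ, en b v g σ := by
    refine (Poly.const _).add (Poly.sum _ fun σ _ => Poly.sum _ fun k _ => Poly.const_mul (Poly.pow ?_ 2) _)
    have h2 : Poly fun y : ι → ℝ => X (v k) y σ :=
      poly_lin (co (v k)) (F := fun z => z σ) (Pot.poly_eval (F := fun x => x)
        ⟨1, 1, fun x => by simp [Real.norm_eq_abs]⟩ σ)
    exact h2.comp 1 fun g => by rw [one_mul]; linarith [norm_le_pi_norm g k]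
  refine h1.mono fun g => ?_
  obtain ⟨l1, l2⟩ := Lw_bounds hb hw v g
  have := Finset.sum_nonneg fun σ (_ : σ ∈ Finset.univ) => en_nonneg hb v g σ
  rw [abs_of_nonneg (a := |Real.log (∑ σ, w σ)| + ∑ σ, en b v g σ) (by positivity), abs_le]
  constructor <;> linarith [neg_abs_le (Real.log (∑ σ, w σ)), le_abs_self (Real.log (∑ σ, w σ))]

lemma mp_update {M : ℕ} (k : Fin M) :
    MeasurePreserving (fun p : (Fin M → ι → ℝ) × (ι → ℝ) => Function.update p.1 k p.2)
      ((pats ι M).prod (gauss ι)) (pats ι M) := by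
  have hm : Measurable fun p : (Fin M → ι → ℝ) × (ι → ℝ) => Function.update p.1 k p.2 := by
    refine measurable_pi_lambda _ fun j => ?_
    by_cases hj : j = k
    · subst hj; simp only [Function.update_self]; exact measurable_snd
    · simp only [Function.update_of_ne hj]; exact (measurable_pi_apply j).comp measurable_fst
  refine ⟨hm, Eq.symm <| Measure.pi_eq fun s hs => ?_⟩
  rw [Measure.map_apply hm (MeasurableSet.univ_pi hs)]
  have hpre : (fun p : (Fin M → ι → ℝ) × (ι → ℝ) => Function.update p.1 k p.2) ⁻¹' Set.univ.pi s =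
      (Set.univ.pi (Function.update s k Set.univ)) ×ˢ s k := by
    ext ⟨x, t⟩
    simp only [Set.mem_preimage, Set.mem_univ_pi, Set.mem_prod]
    refine ⟨fun h => ⟨fun j => ?_, by simpa using h k⟩, fun h j => ?_⟩
    · by_cases hj : j = k
      · subst hj; simp
      · simpa [Function.update_of_ne hj] using h j
    · by_cases hj : j = k
      · subst hj; simpa using h.2
      · simpa [Function.update_of_ne hj] using h.1 j
  rw [hpre, Measure.prod_prod, pats, Measure.pi_pi,
    ← Finset.mul_prod_erase Finset.univ _ (Finset.mem_univ k),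
    ← Finset.mul_prod_erase Finset.univ (fun j => gauss ι (s j)) (Finset.mem_univ k)]
  simp only [Function.update_self, measure_univ, one_mul]
  rw [mul_comm]
  congr 1
  exact Finset.prod_congr rfl fun j hj => by rw [Function.update_of_ne (Finset.ne_of_mem_erase hj)]

/-- the variance of the log partition function is at most linear in the number of patterns -/
theorem var_Lw {b : ℝ} (hb0 : 0 ≤ b) (hb : b < 1 / 2) {w : (ι → Bool) → ℝ} (hw : ∀ σ, 0 < w σ) (M : ℕ)
    {v : ι → ℝ} (hv : v ∈ Simplex ι) :
    ∫ g, (Lw b w (fun _ : Fin M => v) g - Fw b w fun _ : Fin M => v) ^ 2 ∂pats ι M ≤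
      M * (√(1 - 2 * b))⁻¹ := by
  set F := Lw b w (fun _ : Fin M => v)
  set R := fun (k : Fin M) (g : Fin M → ι → ℝ) (σ : ι → Bool) =>
    ∑ j ∈ Finset.univ.erase k, b / 2 * X v (g j) σ ^ 2
  set Fk := fun k g => Real.log (∑ σ, w σ * Real.exp (R k g σ))
  have hF := good_Lw hb0 hw (fun _ : Fin M => v)
  have hR0 : ∀ k g σ, 0 ≤ R k g σ := fun k g σ => Finset.sum_nonneg fun j _ => by positivity
  have hRle : ∀ k g σ, en b (fun _ : Fin M => v) g σ = b / 2 * X v (g k) σ ^ 2 + R k g σ := fun k g σ =>
    (Finset.add_sum_erase _ _ (Finset.mem_univ k)).symm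
  have hW : 0 < ∑ σ, w σ := Finset.sum_pos (fun σ _ => hw σ) Finset.univ_nonempty
  have hFk : ∀ k, Good (Fk k) := fun k => by
    have hc : Continuous (Fk k) := by
      refine Continuous.log (continuous_finsetSum _ fun σ _ => continuous_const.mul (Real.continuous_exp.comp ?_))
        fun g => (sum_w_pos hw _).ne'
      exact continuous_finsetSum _ fun j _ => continuous_const.mul
        (((continuous_X v σ).comp (continuous_apply j)).pow 2)
    refine ⟨hc.measurable, (hF.2.abs.add (Poly.const |Real.log (∑ σ, w σ)|)).mono fun g => ?_⟩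
    have l1 : Real.log (∑ σ, w σ) ≤ Fk k g :=
      Real.log_le_log hW (Finset.sum_le_sum fun σ _ => le_mul_of_one_le_right (hw σ).le (Real.one_le_exp (hR0 k g σ)))
    have l2 : Fk k g ≤ F g :=
      Real.log_le_log (sum_w_pos hw _) (Finset.sum_le_sum fun σ _ => mul_le_mul_of_nonneg_left
        (Real.exp_le_exp.2 (by rw [hRle k g σ]; exact le_add_of_nonneg_left (by positivity))) (hw σ).le)
    rw [abs_of_nonneg (a := |F g| + |Real.log (∑ σ, w σ)|) (by positivity), abs_le]
    constructor <;> linarith [neg_abs_le (Real.log (∑ σ, w σ)), le_abs_self (F g),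
      abs_nonneg (F g), abs_nonneg (Real.log (∑ σ, w σ))]
  have hRu : ∀ k g y σ, R k (Function.update g k y) σ = R k g σ := fun k g y σ =>
    Finset.sum_congr rfl fun j hj => by rw [Function.update_of_ne (Finset.ne_of_mem_erase hj)]
  have hup : ∀ k g y, Fk k (Function.update g k y) = Fk k g := fun k g y => by simp only [Fk, hRu]
  have hu : ∀ σ, ∑ i, co v σ i ^ 2 = 1 := fun σ => by
    rw [← cov_co_self hv σ]; exact Finset.sum_congr rfl fun i _ => sq _
  have hi : ∀ σ, Integrable (fun y => Real.exp (b * X v y σ ^ 2)) (gauss ι) := fun σ =>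
    integrable_linear (co v σ) (hu σ) (F := fun t => Real.exp (b * t ^ 2)) (integrable_exp_sq hb)
  have hC : ∀ k, ∫ g, (F g - Fk k g) * (F g - Fk k g) ∂pats ι M ≤ (√(1 - 2 * b))⁻¹ := by
    intro k
    have hd := good_sub hF (hFk k)
    have hdd := good_mul hd hd
    have h := mp_update (ι := ι) k
    conv_lhs => rw [← h.map_eq, integral_map h.measurable.aemeasurable hdd.1.aestronglyMeasurable]
    have hint : Integrable (fun p : (Fin M → ι → ℝ) × (ι → ℝ) =>
        (F (Function.update p.1 k p.2) - Fk k (Function.update p.1 k p.2)) *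
        (F (Function.update p.1 k p.2) - Fk k (Function.update p.1 k p.2))) ((pats ι M).prod (gauss ι)) :=
      (h.integrable_comp hdd.1.aestronglyMeasurable).2 (integrable_pats hdd)
    rw [integral_prod _ hint]
    refine (integral_mono hint.integral_prod_left
      (integrable_const ((√(1 - 2 * b))⁻¹)) fun g => ?_).trans (le_of_eq (by simp))
    set S := ∑ σ, w σ * Real.exp (R k g σ)
    have hS : 0 < S := sum_w_pos hw _
    have hpt : ∀ y, (F (Function.update g k y) - Fk k (Function.update g k y)) *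
        (F (Function.update g k y) - Fk k (Function.update g k y)) ≤
          ∑ σ, w σ * Real.exp (R k g σ) / S * Real.exp (b * X v y σ ^ 2) := by
      intro y
      rw [hup]
      set p := fun σ => w σ * Real.exp (R k g σ) / S
      have hp : ∀ σ, 0 ≤ p σ := fun σ => div_nonneg (mul_nonneg (hw σ).le (Real.exp_pos _).le) hS.le
      have hp1 : ∑ σ, p σ = 1 := by simp only [p, ← Finset.sum_div]; exact div_self hS.ne'
      set Y := ∑ σ, p σ * Real.exp (b / 2 * X v y σ ^ 2)
      have hY1 : 1 ≤ Y := by
        calc (1:ℝ) = ∑ σ, p σ * 1 := by simp [hp1]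
          _ ≤ _ := Finset.sum_le_sum fun σ _ =>
              mul_le_mul_of_nonneg_left (Real.one_le_exp (by positivity)) (hp σ)
      have e : F (Function.update g k y) - Fk k g = Real.log Y := by
        simp only [F, Fk, Lw, hRle k, Function.update_self, hRu, Real.exp_add]
        rw [← Real.log_div (Finset.sum_pos (fun σ _ => by have := hw σ; positivity) Finset.univ_nonempty).ne'
          hS.ne', Finset.sum_div]
        congr 1
        exact Finset.sum_congr rfl fun σ _ => by simp only [p]; ring
      rw [e]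
      have hl0 := Real.log_nonneg hY1
      have hl1 := Real.log_le_sub_one_of_pos (show 0 < Y by linarith)
      have hY2 : Y ^ 2 ≤ ∑ σ, p σ * Real.exp (b * X v y σ ^ 2) := by
        have h0 : 0 ≤ ∑ σ, p σ * (Real.exp (b / 2 * X v y σ ^ 2) - Y) ^ 2 :=
          Finset.sum_nonneg fun σ _ => mul_nonneg (hp σ) (sq_nonneg _)
        have e2 : ∀ σ, p σ * (Real.exp (b / 2 * X v y σ ^ 2) - Y) ^ 2 = p σ * Real.exp (b * X v y σ ^ 2) -
            2 * Y * (p σ * Real.exp (b / 2 * X v y σ ^ 2)) + Y ^ 2 * p σ := fun σ => by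
          rw [show b * X v y σ ^ 2 = b / 2 * X v y σ ^ 2 + b / 2 * X v y σ ^ 2 by ring, Real.exp_add]; ring
        simp only [e2, Finset.sum_add_distrib, Finset.sum_sub_distrib, ← Finset.mul_sum, hp1] at h0
        nlinarith
      nlinarith
    refine (integral_mono_of_nonneg (.of_forall fun y => mul_self_nonneg _)
      (integrable_finsetSum _ fun σ _ => (hi σ).const_mul _) (.of_forall hpt)).trans (le_of_eq ?_)
    rw [integral_finsetSum _ fun σ _ => (hi σ).const_mul _]
    have h1 : ∀ σ, ∫ y, Real.exp (b * X v y σ ^ 2) ∂gauss ι = (√(1 - 2 * b))⁻¹ := fun σ => by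
      rw [show (∫ y, Real.exp (b * X v y σ ^ 2) ∂gauss ι) = ∫ t, Real.exp (b * t ^ 2) ∂gaussianReal 0 1
        from integral_linear (co v σ) (hu σ) (F := fun t => Real.exp (b * t ^ 2)) (by fun_prop),
        integral_exp_sq hb]
    simp only [integral_const_mul, h1, ← Finset.sum_mul, ← Finset.sum_div]
    rw [div_self hS.ne', one_mul]
  have h := efron M F Fk _ hF hFk hup hC
  have i1 := integrable_pats (good_mul hF hF)
  have i2 : Integrable (fun g => 2 * (∫ g, F g ∂pats ι M) * F g) (pats ι M) := (integrable_pats hF).const_mul _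
  have i3 : Integrable (fun g => F g * F g - 2 * (∫ g, F g ∂pats ι M) * F g) (pats ι M) := i1.sub i2
  refine le_trans (le_of_eq ?_) h
  rw [show (fun g => (F g - Fw b w fun _ : Fin M => v) ^ 2) = fun g => F g * F g - 2 * (∫ g, F g ∂pats ι M) * F g +
      (∫ g, F g ∂pats ι M) ^ 2 by funext g; simp only [Fw, F]; ring,
    integral_add i3 (integrable_const _), integral_sub i1 i2, integral_const_mul, integral_const]
  simp only [probReal_univ, one_smul]
  ring

end Vale.Agent.P166.Pattern
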