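import Vale.Agent.P166.Pattern.Spectral
import Vale.Agent.P166.Functional

/-!
From the Gaussian pattern model to rotated diagonal couplings: the averaged distance of the pressure
to the limit, as a functional of the spectrum of the Wishart matrix.
-/

open MeasureTheory ProbabilityTheory Filter Matrix
open scoped Topology

noncomputable section

namespace Vale.Agent.P166.Pattern

variable {M N : ℕ}

/-- the patterns seen in the frame `U` -/
def rot (U : Mat N) (g : Fin M × Fin N → ℝ) : Fin M × Fin N → ℝ := fun p => ∑ k, g (p.1, k) * U k p.2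

/-- pressure of the pattern model in the frame `U` -/
def pW (b : ℝ) (g : Fin M × Fin N → ℝ) (U : Mat N) : ℝ :=
  1 / (N : ℝ) * Real.log (((2:ℝ) ^ N)⁻¹ * ∑ σ : Fin N → Bool,
    Real.exp (b / 2 * ((N:ℝ)⁻¹ * ∑ m, (∑ i, rot U g (m, i) * spin (σ i)) ^ 2)))

lemma pW_rot (b : ℝ) (g : Fin M × Fin N → ℝ) {U V : Mat N} (hV : V = fun i j => if i = j then 1 else 0) :
    pW b g U = pW b (rot U g) V := by
  subst hV
  simp [pW, rot]

lemma continuous_pW (b : ℝ) :
    Continuous fun p : (Fin M × Fin N → ℝ) × Mat N => pW b p.1 p.2 := by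
  unfold pW rot
  refine continuous_const.mul (Continuous.log (by fun_prop) fun p => ?_)
  exact (mul_pos (by positivity) (Finset.sum_pos (fun σ _ => Real.exp_pos _) Finset.univ_nonempty)).ne'

/-- diagonalised Wishart couplings -/
lemma pW_eq_pressure (b : ℝ) {g : Fin M × Fin N → ℝ} {lam : Fin N → ℝ} {Q : Matrix (Fin N) (Fin N) ℝ}
    (hW : WM g = Qᵀ * Matrix.diagonal lam * Q) (U : Mat N) :
    pW b g U = pressure b lam (fun i j => ∑ k, Q i k * U k j) := by
  rw [pressure_eq]
  simp only [pW, energy]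
  congr 3
  refine Finset.sum_congr rfl fun σ _ => ?_
  congr 2
  set y := fun k => ∑ i, U k i * spin (σ i)
  have h1 : ∀ m, ∑ i, rot U g (m, i) * spin (σ i) = ∑ k, g (m, k) * y k := fun m => by
    simp only [rot, y, Finset.sum_mul, Finset.mul_sum]
    rw [Finset.sum_comm]
    exact Finset.sum_congr rfl fun k _ => Finset.sum_congr rfl fun i _ => by ring
  have h2 : ∀ j, field (fun i j => ∑ k, Q i k * U k j) σ j = ∑ k, Q j k * y k := fun j => by
    simp only [field, y, Finset.sum_mul, Finset.mul_sum]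
    rw [Finset.sum_comm]
    exact Finset.sum_congr rfl fun k _ => Finset.sum_congr rfl fun i _ => by ring
  have hA : ∀ k l, (N:ℝ)⁻¹ * ∑ m, g (m, k) * g (m, l) = ∑ j, Q j k * lam j * Q j l := fun k l => by
    have h := congrFun (congrFun hW k) l
    simp only [WM, XM, Matrix.smul_apply, smul_eq_mul, Matrix.mul_apply, Matrix.transpose_apply, Matrix.of_apply,
      Matrix.diagonal_apply, mul_ite, mul_zero, Finset.sum_ite_eq', Finset.mem_univ, if_true] at h
    exact h
  simp only [h1, h2]
  calc (N:ℝ)⁻¹ * ∑ m, (∑ k, g (m, k) * y k) ^ 2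
      = ∑ k, ∑ l, y k * y l * ((N:ℝ)⁻¹ * ∑ m, g (m, k) * g (m, l)) := by
        simp only [sq, Finset.sum_mul_sum]
        rw [Finset.mul_sum]
        simp only [Finset.mul_sum]
        rw [Finset.sum_comm]
        refine Finset.sum_congr rfl fun k _ => ?_
        rw [Finset.sum_comm]
        exact Finset.sum_congr rfl fun l _ => Finset.sum_congr rfl fun m _ => by ring
    _ = ∑ j, lam j * (∑ k, Q j k * y k) ^ 2 := by
        simp only [hA, sq, Finset.sum_mul_sum]
        simp only [Finset.mul_sum]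
        conv_rhs => rw [Finset.sum_comm]
        refine Finset.sum_congr rfl fun k _ => ?_
        conv_rhs => rw [Finset.sum_comm]
        exact Finset.sum_congr rfl fun l _ => Finset.sum_congr rfl fun j _ => by ring

/-- invariance of the Gaussian pattern law under rotations -/
theorem mp_rot {U : Mat N} (hU : Matrix.of U ∈ Matrix.orthogonalGroup (Fin N) ℝ) :
    (gauss (Fin M × Fin N)).map (rot U) = gauss (Fin M × Fin N) := by
  have hm : Measurable (rot (M := M) U) := by unfold rot; fun_prop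
  have hUU : ∀ i j, ∑ k, U k i * U k j = if i = j then 1 else 0 := fun i j => by
    have := congrFun (congrFun ((Matrix.mem_orthogonalGroup_iff' (Fin N) ℝ).1 hU) i) j
    simpa [Matrix.mul_apply, Matrix.transpose_apply, Matrix.one_apply] using this
  refine Measure.ext_of_charFunDual (funext fun L => ?_)
  set c := fun p : Fin M × Fin N => L (Pi.single p 1)
  have hL : ∀ x : Fin M × Fin N → ℝ, L x = ∑ p, c p * x p := fun x => by
    conv_lhs => rw [pi_eq_sum_univ' x, map_sum]
    exact Finset.sum_congr rfl fun p _ => by rw [map_smul, smul_eq_mul, mul_comm]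
  set d := fun p : Fin M × Fin N => ∑ i, c (p.1, i) * U p.2 i
  have hd : ∀ x : Fin M × Fin N → ℝ, L (rot U x) = ∑ p, d p * x p := fun x => by
    rw [hL]
    simp only [rot, d, Fintype.sum_prod_type, Finset.sum_mul, Finset.mul_sum]
    refine Finset.sum_congr rfl fun m _ => ?_
    rw [Finset.sum_comm]
    exact Finset.sum_congr rfl fun k _ => Finset.sum_congr rfl fun i _ => by ring
  have hsq : ∑ p, d p ^ 2 = ∑ p, c p ^ 2 := by
    simp only [d, Fintype.sum_prod_type, sq, Finset.sum_mul_sum]
    refine Finset.sum_congr rfl fun m _ => ?_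
    rw [Finset.sum_comm]
    refine Finset.sum_congr rfl fun i _ => ?_
    rw [Finset.sum_comm]
    calc ∑ j, ∑ k, c (m, i) * U k i * (c (m, j) * U k j) = ∑ j, c (m, i) * c (m, j) * ∑ k, U k i * U k j :=
          Finset.sum_congr rfl fun j _ => by
            rw [Finset.mul_sum]; exact Finset.sum_congr rfl fun k _ => by ring
      _ = _ := by simp [hUU]
  rw [charFunDual_apply, charFunDual_apply, integral_map hm.aemeasurable (by fun_prop)]
  simp only [hd, hL]
  have h : ∀ e : Fin M × Fin N → ℝ, ∫ x, Complex.exp (((∑ p, e p * x p : ℝ) : ℂ) * Complex.I) ∂gauss (Fin M × Fin N) =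
      Complex.exp (-((∑ p, e p ^ 2 : ℝ) : ℂ) / 2) := fun e => by
    have h := charFun_linear e 1
    rw [charFun_apply_real, integral_map (measurable_linear e).aemeasurable (by fun_prop)] at h
    simpa using h
  rw [h, h, hsq]

lemma pW_one (b : ℝ) (g : Fin M → Fin N → ℝ) {V : Mat N} (hV : V = fun i j => if i = j then 1 else 0) :
    pW b (fun p => g p.1 p.2) V = Lw b (w0 (Fin N)) (fun _ => unif (Fin N)) g / N := by
  subst hV
  simp only [pW, rot, mul_ite, mul_one, mul_zero, Finset.sum_ite_eq', Finset.mem_univ, if_true, Lw, w0,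
    Fintype.card_fin, ← Finset.mul_sum]
  rw [one_div_mul_eq_div]
  congr 4
  funext σ
  congr 1
  simp only [en, X, lin, co, unif, Fintype.card_fin, Finset.mul_sum]
  refine Finset.sum_congr rfl fun m _ => ?_
  have hs : √((N:ℝ)⁻¹) * √((N:ℝ)⁻¹) = (N:ℝ)⁻¹ := Real.mul_self_sqrt (by positivity)
  have e : ∑ i, √((N:ℝ)⁻¹) * sg (σ i) * g m i = √((N:ℝ)⁻¹) * ∑ i, g m i * spin (σ i) := by
    rw [Finset.mul_sum]
    exact Finset.sum_congr rfl fun i _ => by simp only [sg, spin]; ring
  rw [e, mul_pow, sq (√((N:ℝ)⁻¹)), hs]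

theorem good_functional {b α : ℝ} (hb0 : 0 ≤ b) (hb : b ≤ 1/10) (hα : 0 < α) :
    ∃ p : ℝ, ∀ ν : ∀ N, Measure (Mat N), (∀ N, IsHaarOrthogonal (ν N)) →
      ∃ Ψ : ∀ N : ℕ, (Fin ⌊α * (N:ℝ)⌋₊ × Fin N → ℝ) → ℝ,
        (∀ N, Measurable (Ψ N)) ∧ (∀ N g, 0 ≤ Ψ N g ∧ Ψ N g ≤ 1) ∧
        Tendsto (fun N : ℕ => ∫ g, Ψ N g ∂gauss (Fin ⌊α * (N:ℝ)⌋₊ × Fin N)) atTop (𝓝 0) ∧
        ∀ N g (lam : Fin N → ℝ) (Q : Matrix (Fin N) (Fin N) ℝ), Q ∈ Matrix.orthogonalGroup (Fin N) ℝ →
          WM g = Qᵀ * Matrix.diagonal lam * Q → ∫ U, min |pressure b lam U - p| 1 ∂ν N = Ψ N g := by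
  obtain ⟨p, hp⟩ := exists_limit hb0 hb hα
  refine ⟨p, fun ν hν => ?_⟩
  set φ : ℝ → ℝ := fun x => min |x - p| 1 with hφ
  have hφ0 : ∀ x, 0 ≤ φ x := fun x => le_min (abs_nonneg _) zero_le_one
  have hφ1 : ∀ x, φ x ≤ 1 := fun x => min_le_right _ _
  have hφc : Continuous φ := by unfold φ; fun_prop
  set Ψ := fun (N : ℕ) (g : Fin ⌊α * (N:ℝ)⌋₊ × Fin N → ℝ) => ∫ U, φ (pW b g U) ∂ν N
  have hP : ∀ N : ℕ, IsProbabilityMeasure (ν N) := fun N => (hν N).1
  have hj : ∀ N : ℕ, Continuous fun q : (Fin ⌊α * (N:ℝ)⌋₊ × Fin N → ℝ) × Mat N => φ (pW b q.1 q.2) := fun N =>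
    hφc.comp (continuous_pW b)
  refine ⟨Ψ, fun N => (hj N).measurable.stronglyMeasurable.integral_prod_right'.measurable, fun N g => ?_, ?_, ?_⟩
  · refine ⟨integral_nonneg fun U => hφ0 _, ?_⟩
    refine (integral_mono_of_nonneg (.of_forall fun U => hφ0 _) (integrable_const (1:ℝ))
      (.of_forall fun U => hφ1 _)).trans (le_of_eq ?_)
    simp
  swap
  · intro N g lam Q hQ hW
    have hm : Measurable fun (U : Mat N) (i j : Fin N) => ∑ k, Q i k * U k j := by fun_prop
    have hinv := (hν N).2.2 (fun i j => Q i j) hQ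
    show _ = ∫ U, φ (pW b g U) ∂ν N
    conv_lhs => rw [← hinv]
    have hmp : Measurable fun V : Mat N => min |pressure b lam V - p| 1 :=
      hφc.measurable.comp (measurable_pressure b lam)
    rw [integral_map hm.aemeasurable hmp.aestronglyMeasurable]
    simp only [pW_eq_pressure b hW, φ]
  · set C := (√(1 - 2 * b))⁻¹
    have hC : 0 ≤ C := by positivity
    have hlim : Tendsto (fun N : ℕ => (α * C + 1) / 2 * (√(N:ℝ))⁻¹ + |fN b N ⌊α * (N:ℝ)⌋₊ / N - p|) atTop (𝓝 0) := by
      simpa using ((tendsto_inv_atTop_zero.comp (Real.tendsto_sqrt_atTop.comp tendsto_natCast_atTop_atTop)).const_mul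
        ((α * C + 1) / 2)).add ((hp.sub_const p).abs)
    refine squeeze_zero' (.of_forall fun N => integral_nonneg fun g => integral_nonneg fun U => hφ0 _) ?_ hlim
    filter_upwards [eventually_gt_atTop 0] with N hN
    set M := ⌊α * (N:ℝ)⌋₊
    set one : Mat N := fun i j => if i = j then 1 else 0
    have hint : Integrable (fun q : (Fin M × Fin N → ℝ) × Mat N => φ (pW b q.1 q.2))
        ((gauss (Fin M × Fin N)).prod (ν N)) :=
      Integrable.of_bound (hj N).aestronglyMeasurable 1 (.of_forall fun q => by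
        rw [Real.norm_eq_abs, abs_of_nonneg (hφ0 _)]; exact hφ1 _)
    have hmo : Measurable fun g : Fin M × Fin N → ℝ => φ (pW b g one) :=
      ((hj N).comp (by fun_prop : Continuous fun g : Fin M × Fin N → ℝ => (g, one))).measurable
    have h1 : ∫ g, Ψ N g ∂gauss (Fin M × Fin N) = ∫ g, φ (pW b g one) ∂gauss (Fin M × Fin N) := by
      simp only [Ψ]
      rw [integral_integral_swap hint]
      refine (integral_congr_ae ((hν N).2.1.mono fun U hU => ?_)).trans (by simp : ∫ _, ∫ g, φ (pW b g one) ∂gauss (Fin M × Fin N) ∂ν N = _)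
      have hm : Measurable (rot (M := M) U) := by unfold rot; fun_prop
      conv_rhs => rw [← mp_rot (M := M) hU, integral_map hm.aemeasurable
        hmo.aestronglyMeasurable]
      exact integral_congr_ae (.of_forall fun g => by simp only [pW_rot b g (U := U) (V := one) rfl])
    have h2 : ∫ g, φ (pW b g one) ∂gauss (Fin M × Fin N) =
        ∫ g, φ (Lw b (w0 (Fin N)) (fun _ => unif (Fin N)) g / N) ∂pats (Fin N) M := by
      have h := mp_uncurry (Fin N) M
      rw [← h.map_eq, integral_map h.measurable.aemeasurable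
        hmo.aestronglyMeasurable]
      simp only [pW_one b _ (V := one) rfl]
    rw [h1, h2]
    have hv : unif (Fin N) ∈ Simplex (Fin N) := unif_mem (by simpa using hN)
    set L := fun g => Lw b (w0 (Fin N)) (fun _ : Fin M => unif (Fin N)) g
    set F := Fw b (w0 (Fin N)) (fun _ : Fin M => unif (Fin N))
    have hvar : ∫ g, (L g - F) ^ 2 ∂pats (Fin N) M ≤ M * C := var_Lw hb0 (by linarith) w0_pos M hv
    have hG : Good L := good_Lw hb0 w0_pos _
    have hd : Good fun g => (L g - F) ^ 2 := ⟨(hG.1.sub_const F).pow_const 2, (hG.2.sub (Poly.const F)).pow 2⟩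
    have hN' : (0:ℝ) < N := by exact_mod_cast hN
    set s := √(N:ℝ)
    have hs : 0 < s := Real.sqrt_pos.2 hN'
    have i1 : Integrable (fun g => (L g - F) ^ 2 / (2 * s * N)) (pats (Fin N) M) :=
      (integrable_pats hd).div_const _
    refine (integral_mono_of_nonneg (.of_forall fun g => hφ0 _) (i1.add (integrable_const
      (s / (2 * N) + |fN b N M / N - p|))) (.of_forall fun g => ?_)).trans ?_
    · refine (min_le_left _ _).trans ?_
      show |L g / N - p| ≤ (L g - F) ^ 2 / (2 * s * N) + (s / (2 * N) + |fN b N M / N - p|)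
      have e : L g / N - p = (L g - F) / N + (fN b N M / N - p) := by
        simp only [F, fN]; ring
      rw [e, ← add_assoc]
      refine (abs_add_le _ _).trans (add_le_add ?_ le_rfl)
      rw [abs_div, abs_of_pos hN', show (L g - F) ^ 2 / (2 * s * N) + s / (2 * N) =
        ((L g - F) ^ 2 + s ^ 2) / (2 * s) / N by field_simp]
      refine div_le_div_of_nonneg_right ?_ hN'.le
      rw [le_div_iff₀ (by positivity), ← sq_abs (L g - F)]
      nlinarith [sq_nonneg (|L g - F| - s)]
    · rw [integral_add' i1 (integrable_const _), integral_div, integral_const]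
      simp only [probReal_univ, one_smul]
      rw [← add_assoc]
      refine add_le_add ?_ le_rfl
      have hss : s * s = N := Real.mul_self_sqrt hN'.le
      have hM : (M:ℝ) ≤ α * N := Nat.floor_le (by positivity)
      refine (add_le_add (div_le_div_of_nonneg_right (hvar.trans (mul_le_mul_of_nonneg_right hM hC)) (by positivity))
        le_rfl).trans (le_of_eq ?_)
      field_simp
      linear_combination hss

end Vale.Agent.P166.Pattern
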