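import Vale.Agent.P166.Pattern.Interp

/-!
Concavity of `E log ∑ w exp f(X)` in the covariance of the Gaussian vector `X`, under a two-point
positivity condition on `f`.
-/

open MeasureTheory ProbabilityTheory Filter Set
open scoped Topology Classical

noncomputable section

namespace Vale.Agent.P166.Pattern

/-- a potential with three derivatives of polynomial growth -/
structure Pot where
  f : ℝ → ℝ
  f1 : ℝ → ℝ
  f2 : ℝ → ℝ
  f3 : ℝ → ℝ
  h1 : ∀ x, HasDerivAt f (f1 x) x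
  h2 : ∀ x, HasDerivAt f1 (f2 x) x
  h3 : ∀ x, HasDerivAt f2 (f3 x) x
  c3 : Continuous f3
  p0 : Poly f
  p1 : Poly f1
  p2 : Poly f2
  p3 : Poly f3

namespace Pot

variable (P : Pot) {S : Type*} [Fintype S] (w : S → ℝ)

lemma c0 : Continuous P.f := continuous_iff_continuousAt.2 fun x => (P.h1 x).continuousAt
lemma c1 : Continuous P.f1 := continuous_iff_continuousAt.2 fun x => (P.h2 x).continuousAt
lemma c2 : Continuous P.f2 := continuous_iff_continuousAt.2 fun x => (P.h3 x).continuousAt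

/-- `f'' + f'^2` -/
def A (x : ℝ) : ℝ := P.f2 x + P.f1 x ^ 2

/-- `(f'' + f'^2)' + (f'' + f'^2) f'` -/
def B (x : ℝ) : ℝ := P.f3 x + 2 * P.f1 x * P.f2 x + P.A x * P.f1 x

/-- partition function -/
def Z (y : S → ℝ) : ℝ := ∑ σ, w σ * Real.exp (P.f (y σ))

/-- log partition function -/
def H (y : S → ℝ) : ℝ := Real.log (P.Z w y)

/-- Gibbs weight -/
def p (σ : S) (y : S → ℝ) : ℝ := w σ * Real.exp (P.f (y σ)) / P.Z w y

/-- weighted derivative -/
def q (σ : S) (y : S → ℝ) : ℝ := P.f1 (y σ) * P.p w σ y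

/-- second derivatives of the log partition function -/
def H2 (σ τ : S) (y : S → ℝ) : ℝ :=
  (if σ = τ then P.A (y σ) * P.p w σ y else 0) - P.q w σ y * P.q w τ y

/-- smeared weighted derivative -/
def r (d : S → S → ℝ) (σ : S) (y : S → ℝ) : ℝ := ∑ τ, d σ τ * P.q w τ y

/-- quadratic form of the weighted derivatives -/
def G (d : S → S → ℝ) (y : S → ℝ) : ℝ := ∑ σ, P.q w σ y * P.r w d σ y

/-- gradient of `G` -/
def G1 (d : S → S → ℝ) (ζ : S) (y : S → ℝ) : ℝ :=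
  2 * (P.A (y ζ) * P.p w ζ y * P.r w d ζ y) - 2 * (P.q w ζ y * P.G w d y)

/-- Hessian of `G` -/
def G2 (d : S → S → ℝ) (ζ η : S) (y : S → ℝ) : ℝ :=
  2 * (((if ζ = η then P.B (y ζ) * P.p w ζ y else 0) - P.A (y ζ) * P.p w ζ y * P.q w η y) * P.r w d ζ y +
      P.A (y ζ) * P.p w ζ y * (d ζ η * (P.A (y η) * P.p w η y) - P.r w d ζ y * P.q w η y)) -
    2 * (P.H2 w ζ η y * P.G w d y + P.q w ζ y * P.G1 w d η y)

/-- the two-point quantity that must be nonnegative in mean -/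
def pair (σ τ : S) (y : S → ℝ) : ℝ :=
  P.p w σ y * P.p w τ y * (2 * P.A (y σ) * P.A (y τ) -
    4 * (|P.A (y σ)| * P.f1 (y τ) ^ 2 + |P.A (y τ)| * P.f1 (y σ) ^ 2))

/-- a gradient as a linear map -/
def D (v : S → ℝ) : (S → ℝ) →L[ℝ] ℝ := ∑ σ, v σ • (ContinuousLinearMap.proj σ : (S → ℝ) →L[ℝ] ℝ)

@[simp] lemma D_apply (v u : S → ℝ) : D v u = ∑ σ, v σ * u σ := by simp [D]

lemma A_deriv (x : ℝ) : HasDerivAt P.A (P.f3 x + 2 * P.f1 x * P.f2 x) x :=
  ((P.h3 x).fun_add ((P.h2 x).fun_pow 2)).congr_deriv (by push_cast; ring)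

lemma cA : Continuous P.A := by
  have := P.c1; have := P.c2; unfold A; fun_prop

lemma pA : Poly P.A := P.p2.add (P.p1.pow 2)

lemma poly_eval {F : ℝ → ℝ} (hF : Poly F) (σ : S) : Poly fun y : S → ℝ => F (y σ) :=
  hF.comp 1 fun y => by rw [one_mul]; linarith [norm_le_pi_norm y σ, norm_nonneg y]

variable (hw : ∀ σ, 0 < w σ) [Nonempty S]
include hw

lemma Z_pos (y : S → ℝ) : 0 < P.Z w y :=
  Finset.sum_pos (fun σ _ => mul_pos (hw σ) (Real.exp_pos _)) Finset.univ_nonempty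

lemma p_pos (σ : S) (y : S → ℝ) : 0 < P.p w σ y :=
  div_pos (mul_pos (hw σ) (Real.exp_pos _)) (P.Z_pos w hw y)

lemma sum_p (y : S → ℝ) : ∑ σ, P.p w σ y = 1 := by
  unfold p
  rw [← Finset.sum_div, show ∑ σ, w σ * Real.exp (P.f (y σ)) = P.Z w y from rfl,
    div_self (P.Z_pos w hw y).ne']

lemma p_le (σ : S) (y : S → ℝ) : P.p w σ y ≤ 1 := by
  rw [← P.sum_p w hw y]
  exact Finset.single_le_sum (fun τ _ => (P.p_pos w hw τ y).le) (Finset.mem_univ σ)

lemma poly_p (σ : S) : Poly (P.p w σ) :=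
  Poly.of_bound 1 fun y => by rw [abs_of_pos (P.p_pos w hw σ y)]; exact P.p_le w hw σ y

lemma cont_Z : Continuous (P.Z w) := by
  have := P.c0; unfold Z; fun_prop

lemma cont_p (σ : S) : Continuous (P.p w σ) := by
  have := P.c0
  exact Continuous.div (by fun_prop) (P.cont_Z w hw) fun y => (P.Z_pos w hw y).ne'

lemma cont_q (σ : S) : Continuous (P.q w σ) :=
  (P.c1.comp (continuous_apply σ)).mul (P.cont_p w hw σ)

lemma poly_q (σ : S) : Poly (P.q w σ) := (poly_eval P.p1 σ).mul (P.poly_p w hw σ)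

lemma cont_r (d : S → S → ℝ) (σ : S) : Continuous (P.r w d σ) := by
  have := P.cont_q w hw; unfold r; fun_prop

lemma poly_r (d : S → S → ℝ) (σ : S) : Poly (P.r w d σ) :=
  Poly.sum _ fun τ _ => (P.poly_q w hw τ).const_mul _

lemma cont_G (d : S → S → ℝ) : Continuous (P.G w d) := by
  have := P.cont_q w hw; have := P.cont_r w hw d; unfold G; fun_prop

lemma poly_G (d : S → S → ℝ) : Poly (P.G w d) :=
  Poly.sum _ fun σ _ => (P.poly_q w hw σ).mul (P.poly_r w hw d σ)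

lemma poly_G1 (d : S → S → ℝ) (ζ : S) : Poly (P.G1 w d ζ) :=
  ((((poly_eval P.pA ζ).mul (P.poly_p w hw ζ)).mul (P.poly_r w hw d ζ)).const_mul 2).sub
    (((P.poly_q w hw ζ).mul (P.poly_G w hw d)).const_mul 2)

lemma poly_H2 (σ τ : S) : Poly (P.H2 w σ τ) := by
  unfold H2
  refine Poly.sub ?_ ((P.poly_q w hw σ).mul (P.poly_q w hw τ))
  by_cases h : σ = τ
  · simp only [if_pos h]; exact (poly_eval P.pA σ).mul (P.poly_p w hw σ)
  · simp only [if_neg h]; exact Poly.const 0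

lemma poly_G2 (d : S → S → ℝ) (ζ η : S) : Poly (P.G2 w d ζ η) := by
  unfold G2
  have hA : ∀ σ, Poly fun y : S → ℝ => P.A (y σ) * P.p w σ y := fun σ =>
    (poly_eval P.pA σ).mul (P.poly_p w hw σ)
  have hB : Poly fun y : S → ℝ => (if ζ = η then P.B (y ζ) * P.p w ζ y else 0) := by
    by_cases h : ζ = η
    · simp only [if_pos h]
      exact (poly_eval (((P.p3.add (((P.p1).const_mul 2).mul P.p2))).add (P.pA.mul P.p1)) ζ).mul
        (P.poly_p w hw ζ)
    · simp only [if_neg h]; exact Poly.const 0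
  exact ((((hB.sub ((hA ζ).mul (P.poly_q w hw η))).mul (P.poly_r w hw d ζ)).add
    ((hA ζ).mul (((hA η).const_mul (d ζ η)).sub ((P.poly_r w hw d ζ).mul (P.poly_q w hw η))))).const_mul 2).sub
    ((((P.poly_H2 w hw ζ η).mul (P.poly_G w hw d)).add
      ((P.poly_q w hw ζ).mul (P.poly_G1 w hw d η))).const_mul 2)

lemma cont_H2 (σ τ : S) : Continuous (P.H2 w σ τ) := by
  unfold H2
  refine Continuous.sub ?_ ((P.cont_q w hw σ).mul (P.cont_q w hw τ))
  by_cases h : σ = τ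
  · simp only [if_pos h]; exact (P.cA.comp (continuous_apply σ)).mul (P.cont_p w hw σ)
  · simp only [if_neg h]; exact continuous_const

lemma cont_G2 (d : S → S → ℝ) (ζ η : S) : Continuous (P.G2 w d ζ η) := by
  have := P.c1; have := P.c2; have := P.c3; have := P.cA
  have := P.cont_p w hw; have := P.cont_q w hw; have := P.cont_r w hw d; have := P.cont_G w hw d
  have := P.cont_H2 w hw
  unfold G2 G1 B
  by_cases h : ζ = η
  · simp only [if_pos h]; fun_prop
  · simp only [if_neg h]; fun_prop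

lemma cont_pair (σ τ : S) : Continuous (P.pair w σ τ) := by
  have := P.c1; have := P.cA; have := P.cont_p w hw
  unfold pair; fun_prop

lemma poly_pair (σ τ : S) : Poly (P.pair w σ τ) := by
  unfold pair
  exact ((P.poly_p w hw σ).mul (P.poly_p w hw τ)).mul ((((poly_eval P.pA σ).const_mul 2).mul
    (poly_eval P.pA τ)).sub ((((poly_eval P.pA σ).abs.mul ((poly_eval P.p1 τ).pow 2)).add
      ((poly_eval P.pA τ).abs.mul ((poly_eval P.p1 σ).pow 2))).const_mul 4))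

lemma abs_H_le (hw1 : ∑ σ, w σ = 1) (y : S → ℝ) : |P.H w y| ≤ ∑ σ, |P.f (y σ)| := by
  set M := ∑ σ, |P.f (y σ)|
  have hM : ∀ σ, |P.f (y σ)| ≤ M := fun σ =>
    Finset.single_le_sum (f := fun σ => |P.f (y σ)|) (fun _ _ => abs_nonneg _) (Finset.mem_univ σ)
  have up : P.Z w y ≤ Real.exp M := by
    refine (Finset.sum_le_sum fun σ _ => mul_le_mul_of_nonneg_left
      (Real.exp_le_exp.2 ((le_abs_self _).trans (hM σ))) (hw σ).le).trans ?_
    rw [← Finset.sum_mul, hw1, one_mul]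
  have low : Real.exp (-M) ≤ P.Z w y := by
    refine le_trans ?_ (Finset.sum_le_sum fun σ _ => mul_le_mul_of_nonneg_left
      (Real.exp_le_exp.2 (abs_le.1 (hM σ)).1) (hw σ).le)
    rw [← Finset.sum_mul, hw1, one_mul]
  rw [H, abs_le]
  exact ⟨(Real.le_log_iff_exp_le (P.Z_pos w hw y)).2 low, (Real.log_le_iff_le_exp (P.Z_pos w hw y)).2 up⟩

lemma hasFDerivAt_p (σ : S) (y : S → ℝ) :
    HasFDerivAt (P.p w σ)
      (D fun η => (if σ = η then P.q w σ y else 0) - P.p w σ y * P.q w η y) y := by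
  have he : ∀ τ, HasFDerivAt (fun z : S → ℝ => w τ * Real.exp (P.f (z τ)))
      ((w τ * (Real.exp (P.f (y τ)) * P.f1 (y τ))) • (ContinuousLinearMap.proj τ : (S → ℝ) →L[ℝ] ℝ)) y :=
    fun τ => (((P.h1 (y τ)).exp.const_mul (w τ)).comp_hasFDerivAt (f := fun z : S → ℝ => z τ) y (hasFDerivAt_apply τ y))
  have hZ : HasFDerivAt (P.Z w) (∑ τ, (w τ * (Real.exp (P.f (y τ)) * P.f1 (y τ))) •
      (ContinuousLinearMap.proj τ : (S → ℝ) →L[ℝ] ℝ)) y := HasFDerivAt.fun_sum fun τ _ => he τ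
  have hne := (P.Z_pos w hw y).ne'
  have h : HasFDerivAt (P.p w σ) _ y :=
    (he σ).fun_mul ((hasDerivAt_inv hne).comp_hasFDerivAt y hZ) |>.congr_of_eventuallyEq
      (Filter.Eventually.of_forall fun z => by simp [p, div_eq_mul_inv])
  refine h.congr_fderiv (ContinuousLinearMap.ext fun u => ?_)
  simp only [Function.comp, D_apply, sub_mul, Finset.sum_sub_distrib, ite_mul, zero_mul, Finset.sum_ite_eq,
    Finset.mem_univ, if_true]
  simp only [smul_apply, add_apply, sum_apply,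
    ContinuousLinearMap.proj_apply, smul_eq_mul, p, q, div_eq_mul_inv, Finset.mul_sum]
  rw [sub_eq_add_neg, ← Finset.sum_neg_distrib, add_comm]
  refine congrArg₂ (· + ·) (by ring) (Finset.sum_congr rfl fun η _ => ?_)
  field_simp

lemma hasFDerivAt_mul_p {g : ℝ → ℝ} {g' : ℝ} (σ : S) (y : S → ℝ) (hg : HasDerivAt g g' (y σ))
    :
    HasFDerivAt (fun z => g (z σ) * P.p w σ z)
      (D fun η => (if σ = η then (g' + g (y σ) * P.f1 (y σ)) * P.p w σ y else 0) -
        g (y σ) * P.p w σ y * P.q w η y) y := by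
  refine ((hg.comp_hasFDerivAt (f := fun z : S → ℝ => z σ) y (hasFDerivAt_apply σ y)).fun_mul (P.hasFDerivAt_p w hw σ y)).congr_fderiv
    (ContinuousLinearMap.ext fun u => ?_)
  simp only [smul_apply, add_apply, ContinuousLinearMap.proj_apply,
    smul_eq_mul, D_apply, Function.comp, q, sub_mul, Finset.sum_sub_distrib, ite_mul, zero_mul,
    Finset.sum_ite_eq, Finset.mem_univ, if_true, mul_sub, Finset.mul_sum]
  ring_nf

lemma smooth_H (hw1 : ∑ σ, w σ = 1) : Smooth2 (P.H w) (P.q w) (P.H2 w) := by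
  classical
  refine ⟨fun y => ?_, fun σ y => ?_, P.cont_H2 w hw,
    (Poly.sum _ fun σ _ => (poly_eval P.p0 σ).abs).mono fun y => (P.abs_H_le w hw hw1 y).trans (le_abs_self _),
    P.poly_q w hw, P.poly_H2 w hw⟩
  · have hZ : HasFDerivAt (P.Z w) (∑ τ, (w τ * (Real.exp (P.f (y τ)) * P.f1 (y τ))) •
        (ContinuousLinearMap.proj τ : (S → ℝ) →L[ℝ] ℝ)) y :=
      HasFDerivAt.fun_sum fun τ _ =>
        (((P.h1 (y τ)).exp.const_mul (w τ)).comp_hasFDerivAt (f := fun z : S → ℝ => z τ) y (hasFDerivAt_apply τ y))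
    refine (hZ.log (P.Z_pos w hw y).ne').congr_fderiv (ContinuousLinearMap.ext fun u => ?_)
    simp only [smul_apply, sum_apply, ContinuousLinearMap.proj_apply,
      smul_eq_mul, Finset.mul_sum, q, p]
    exact Finset.sum_congr rfl fun τ _ => by field_simp
  · refine (P.hasFDerivAt_mul_p w hw σ y (P.h2 (y σ))).congr_fderiv (ContinuousLinearMap.ext fun u => ?_)
    simp only [D_apply, sum_apply, smul_apply,
      ContinuousLinearMap.proj_apply, smul_eq_mul, H2, A, q]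
    exact Finset.sum_congr rfl fun η _ => by split <;> ring

lemma hasFDerivAt_q (σ : S) (y : S → ℝ) :
    HasFDerivAt (P.q w σ) (D fun η => P.H2 w σ η y) y :=
  (P.hasFDerivAt_mul_p w hw σ y (P.h2 (y σ))).congr_fderiv (by
    congr 1; funext η; simp only [H2, A, q]; split <;> ring)

lemma hasFDerivAt_r (d : S → S → ℝ) (σ : S) (y : S → ℝ) :
    HasFDerivAt (P.r w d σ)
      (D fun η => d σ η * (P.A (y η) * P.p w η y) - P.r w d σ y * P.q w η y) y := by
  refine (HasFDerivAt.fun_sum fun τ _ => (P.hasFDerivAt_q w hw τ y).const_mul (d σ τ)).congr_fderiv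
    (ContinuousLinearMap.ext fun u => ?_)
  simp only [sum_apply, smul_apply, D_apply, smul_eq_mul,
    Finset.mul_sum]
  rw [Finset.sum_comm]
  refine Finset.sum_congr rfl fun η _ => ?_
  simp only [H2, sub_mul, mul_sub, Finset.sum_sub_distrib, ite_mul, zero_mul, mul_ite, mul_zero,
    Finset.sum_ite_eq', Finset.mem_univ, if_true]
  congr 1
  · ring
  · simp only [r, Finset.sum_mul]
    exact Finset.sum_congr rfl fun τ _ => by ring

lemma hasFDerivAt_G {d : S → S → ℝ} (hd : ∀ σ τ, d σ τ = d τ σ) (y : S → ℝ) :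
    HasFDerivAt (P.G w d) (D fun η => P.G1 w d η y) y := by
  refine (HasFDerivAt.fun_sum fun σ _ => (P.hasFDerivAt_q w hw σ y).fun_mul
    (P.hasFDerivAt_r w hw d σ y)).congr_fderiv (ContinuousLinearMap.ext fun u => ?_)
  simp only [sum_apply, smul_apply, add_apply,
    D_apply, smul_eq_mul, Finset.mul_sum, ← Finset.sum_add_distrib]
  rw [Finset.sum_comm]
  refine Finset.sum_congr rfl fun η _ => ?_
  have h1 : ∑ σ, P.q w σ y * (d σ η * (P.A (y η) * P.p w η y) * u η) =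
      P.A (y η) * P.p w η y * P.r w d η y * u η := by
    simp only [r, Finset.mul_sum, Finset.sum_mul]
    exact Finset.sum_congr rfl fun σ _ => by rw [hd]; ring
  have h2 : ∑ σ, P.q w σ y * (P.r w d σ y * P.q w η y * u η) = P.G w d y * P.q w η y * u η := by
    simp only [G, Finset.sum_mul]
    exact Finset.sum_congr rfl fun σ _ => by ring
  have h3 : ∑ σ, P.r w d σ y * (P.H2 w σ η y * u η) =
      (P.A (y η) * P.p w η y * P.r w d η y - P.G w d y * P.q w η y) * u η := by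
    simp only [H2, sub_mul, mul_sub, ite_mul, zero_mul, mul_ite, mul_zero, Finset.sum_sub_distrib,
      Finset.sum_ite_eq', Finset.mem_univ, if_true, G, Finset.sum_mul]
    congr 1
    · ring
    · exact Finset.sum_congr rfl fun σ _ => by ring
  simp only [sub_mul, mul_sub, Finset.sum_sub_distrib, Finset.sum_add_distrib, h1, h2, h3, G1]
  ring

lemma smooth_G {d : S → S → ℝ} (hd : ∀ σ τ, d σ τ = d τ σ) :
    Smooth2 (P.G w d) (P.G1 w d) (P.G2 w d) := by
  classical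
  refine ⟨fun y => P.hasFDerivAt_G w hw hd y, fun ζ y => ?_, P.cont_G2 w hw d, P.poly_G w hw d,
    P.poly_G1 w hw d, P.poly_G2 w hw d⟩
  refine ((((P.hasFDerivAt_mul_p w hw ζ y (P.A_deriv (y ζ))).fun_mul
    (P.hasFDerivAt_r w hw d ζ y)).const_mul 2).fun_sub
    (((P.hasFDerivAt_q w hw ζ y).fun_mul (P.hasFDerivAt_G w hw hd y)).const_mul 2)).congr_fderiv
    (ContinuousLinearMap.ext fun u => ?_)
  simp only [sum_apply, smul_apply, add_apply,
    sub_apply, ContinuousLinearMap.proj_apply, D_apply, smul_eq_mul, Finset.mul_sum,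
    ← Finset.sum_add_distrib, ← Finset.sum_sub_distrib]
  refine Finset.sum_congr rfl fun η _ => ?_
  simp only [G2, B]
  split <;> ring

lemma hessian_lower {d : S → S → ℝ} (hd : ∀ σ τ, d σ τ = d τ σ) (hd0 : ∀ σ, d σ σ = 0) (y : S → ℝ) :
    ∑ σ, ∑ τ, d σ τ ^ 2 * P.pair w σ τ y ≤ ∑ σ, ∑ τ, d σ τ * P.G2 w d σ τ y := by
  classical
  set A' := fun σ => P.A (y σ)
  set p' := fun σ => P.p w σ y
  set q' := fun σ => P.q w σ y
  set r' := fun σ => P.r w d σ y
  set G' := P.G w d y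
  have e : ∀ σ τ, d σ τ * P.G2 w d σ τ y = 2 * (d σ τ ^ 2 * (A' σ * p' σ * (A' τ * p' τ))) -
      4 * (A' σ * p' σ * r' σ) * (d σ τ * q' τ) + 6 * G' * (q' σ * (d σ τ * q' τ)) -
      4 * (A' τ * p' τ * r' τ) * (d σ τ * q' σ) := by
    intro σ τ
    simp only [G2, G1, H2, A', p', q', r', G']
    split
    next h => subst h; simp [hd0]
    next h => ring
  have hr : ∀ σ, ∑ τ, d σ τ * q' τ = r' σ := fun σ => rfl
  have hr' : ∀ τ, ∑ σ, d σ τ * q' σ = r' τ := fun τ => by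
    rw [← hr]; exact Finset.sum_congr rfl fun σ _ => by rw [hd]
  have total : ∑ σ, ∑ τ, d σ τ * P.G2 w d σ τ y =
      2 * (∑ σ, ∑ τ, d σ τ ^ 2 * (A' σ * p' σ * (A' τ * p' τ))) - 8 * ∑ σ, A' σ * p' σ * r' σ ^ 2 + 6 * G' ^ 2 := by
    simp only [e, Finset.sum_add_distrib, Finset.sum_sub_distrib, ← Finset.mul_sum]
    rw [Finset.sum_comm (f := fun σ τ => 4 * (A' τ * p' τ * r' τ) * (d σ τ * q' σ))]
    simp only [← Finset.mul_sum, hr, hr']
    have e2 : ∑ σ, 4 * (A' σ * p' σ * r' σ) * r' σ = 4 * ∑ σ, A' σ * p' σ * r' σ ^ 2 := by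
      rw [Finset.mul_sum]; exact Finset.sum_congr rfl fun σ _ => by ring
    rw [e2, show ∑ σ, q' σ * r' σ = G' from rfl]
    ring
  have cs : ∀ σ, r' σ ^ 2 ≤ ∑ τ, p' τ * (d σ τ ^ 2 * P.f1 (y τ) ^ 2) := by
    intro σ
    have h0 : 0 ≤ ∑ τ, p' τ * (d σ τ * P.f1 (y τ) - r' σ) ^ 2 :=
      Finset.sum_nonneg fun τ _ => mul_nonneg (P.p_pos w hw τ y).le (sq_nonneg _)
    have e3 : ∀ τ, p' τ * (d σ τ * P.f1 (y τ) - r' σ) ^ 2 = p' τ * (d σ τ ^ 2 * P.f1 (y τ) ^ 2) -
        2 * r' σ * (d σ τ * q' τ) + r' σ ^ 2 * p' τ := fun τ => by simp only [q', q, p']; ring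
    simp only [e3, Finset.sum_add_distrib, Finset.sum_sub_distrib, ← Finset.mul_sum, hr,
      show ∑ τ, p' τ = 1 from P.sum_p w hw y] at h0
    nlinarith
  have bd : ∑ σ, A' σ * p' σ * r' σ ^ 2 ≤ ∑ σ, ∑ τ, d σ τ ^ 2 * (p' σ * p' τ * (|A' σ| * P.f1 (y τ) ^ 2)) := by
    refine Finset.sum_le_sum fun σ _ => ?_
    have h1 : A' σ * p' σ * r' σ ^ 2 ≤ |A' σ| * p' σ * ∑ τ, p' τ * (d σ τ ^ 2 * P.f1 (y τ) ^ 2) :=
      mul_le_mul (mul_le_mul_of_nonneg_right (le_abs_self _) (P.p_pos w hw σ y).le) (cs σ) (sq_nonneg _)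
        (mul_nonneg (abs_nonneg _) (P.p_pos w hw σ y).le)
    refine h1.trans (le_of_eq ?_)
    rw [Finset.mul_sum]; exact Finset.sum_congr rfl fun τ _ => by ring
  have swap : ∑ σ, ∑ τ, d σ τ ^ 2 * (p' σ * p' τ * (|A' τ| * P.f1 (y σ) ^ 2)) =
      ∑ σ, ∑ τ, d σ τ ^ 2 * (p' σ * p' τ * (|A' σ| * P.f1 (y τ) ^ 2)) := by
    rw [Finset.sum_comm]
    exact Finset.sum_congr rfl fun σ _ => Finset.sum_congr rfl fun τ _ => by rw [hd τ σ]; ring
  have lhs : ∑ σ, ∑ τ, d σ τ ^ 2 * P.pair w σ τ y =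
      2 * (∑ σ, ∑ τ, d σ τ ^ 2 * (A' σ * p' σ * (A' τ * p' τ))) -
      4 * (∑ σ, ∑ τ, d σ τ ^ 2 * (p' σ * p' τ * (|A' σ| * P.f1 (y τ) ^ 2))) -
      4 * (∑ σ, ∑ τ, d σ τ ^ 2 * (p' σ * p' τ * (|A' τ| * P.f1 (y σ) ^ 2))) := by
    simp only [pair, Finset.mul_sum, ← Finset.sum_sub_distrib]
    exact Finset.sum_congr rfl fun σ _ => Finset.sum_congr rfl fun τ _ => by ring
  rw [lhs, swap, total]
  nlinarith [sq_nonneg G']

/-- `E log ∑ w exp f(X)` is concave along the segment between two covariances with unit diagonal -/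
theorem concave {κ : Type*} [Fintype κ] (hw1 : ∑ σ, w σ = 1) (c0 c1 : S → κ → ℝ)
    (u0 : ∀ σ, cov c0 σ σ = 1) (u1 : ∀ σ, cov c1 σ σ = 1)
    (hpos : ∀ t ∈ Ioo (0:ℝ) 1, ∀ σ τ, 0 ≤ ∫ x, P.pair w σ τ (lin (ct c0 c1 t) x) ∂gauss (κ ⊕ κ))
    {κ' : Type*} [Fintype κ'] (cm : S → κ' → ℝ) {t : ℝ} (ht : t ∈ Icc (0:ℝ) 1)
    (hcm : ∀ σ τ, cov cm σ τ = (1 - t) * cov c0 σ τ + t * cov c1 σ τ) :
    (1 - t) * (∫ x, P.H w (lin c0 x) ∂gauss κ) + t * (∫ x, P.H w (lin c1 x) ∂gauss κ) ≤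
      ∫ x, P.H w (lin cm x) ∂gauss κ' := by
  have hH := P.smooth_H w hw hw1
  set d : S → S → ℝ := fun σ τ => cov c1 σ τ - cov c0 σ τ
  have hd : ∀ σ τ, d σ τ = d τ σ := fun σ τ => by simp only [d, cov, mul_comm]
  have hd0 : ∀ σ, d σ σ = 0 := fun σ => by simp [d, u0, u1]
  have hG := P.smooth_G w hw hd
  have e1 : ∀ (s : ℝ), (1 / 2) * ∑ σ, ∑ τ, (cov c1 σ τ - cov c0 σ τ) *
      ∫ x, P.H2 w σ τ (lin (ct c0 c1 s) x) ∂gauss (κ ⊕ κ) = -(1 / 2) * phi (P.G w d) c0 c1 s := by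
    intro s
    have hi : ∀ σ τ, Integrable (fun x => d σ τ * P.H2 w σ τ (lin (ct c0 c1 s) x)) (gauss (κ ⊕ κ)) :=
      fun σ τ => (integrable_lin _ (P.cont_H2 w hw σ τ) (P.poly_H2 w hw σ τ)).const_mul _
    simp only [show ∀ σ τ, cov c1 σ τ - cov c0 σ τ = d σ τ from fun _ _ => rfl]
    simp only [phi, ← integral_const_mul, ← integral_finsetSum _ fun τ _ => hi _ τ]
    rw [← integral_finsetSum _ fun σ _ => integrable_finsetSum _ fun τ _ => hi σ τ]
    rw [← integral_const_mul]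
    refine integral_congr_ae (.of_forall fun x => ?_)
    simp only [G, r, Finset.mul_sum]
    refine Finset.sum_congr rfl fun σ _ => Finset.sum_congr rfl fun τ _ => ?_
    simp only [H2]
    split
    next h => subst h; simp [hd0]
    next h => ring
  have e2 : ∀ s ∈ Ioo (0:ℝ) 1, 0 ≤ ∑ σ, ∑ τ, (cov c1 σ τ - cov c0 σ τ) *
      ∫ x, P.G2 w d σ τ (lin (ct c0 c1 s) x) ∂gauss (κ ⊕ κ) := by
    intro s hs
    have hi : ∀ σ τ, Integrable (fun x => d σ τ * P.G2 w d σ τ (lin (ct c0 c1 s) x)) (gauss (κ ⊕ κ)) :=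
      fun σ τ => (integrable_lin _ (P.cont_G2 w hw d σ τ) (P.poly_G2 w hw d σ τ)).const_mul _
    have hj : ∀ σ τ, Integrable (fun x => d σ τ ^ 2 * P.pair w σ τ (lin (ct c0 c1 s) x)) (gauss (κ ⊕ κ)) :=
      fun σ τ => (integrable_lin _ (P.cont_pair w hw σ τ) (P.poly_pair w hw σ τ)).const_mul _
    simp only [show ∀ σ τ, cov c1 σ τ - cov c0 σ τ = d σ τ from fun _ _ => rfl]
    simp only [← integral_const_mul, ← integral_finsetSum _ fun τ _ => hi _ τ]
    rw [← integral_finsetSum _ fun σ _ => integrable_finsetSum _ fun τ _ => hi σ τ]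
    refine le_trans ?_ (integral_mono (integrable_finsetSum _ fun σ _ => integrable_finsetSum _ fun τ _ => hj σ τ)
      (integrable_finsetSum _ fun σ _ => integrable_finsetSum _ fun τ _ => hi σ τ)
      fun x => P.hessian_lower w hw hd hd0 (lin (ct c0 c1 s) x))
    rw [integral_finsetSum _ fun σ _ => integrable_finsetSum _ fun τ _ => hj σ τ]
    refine Finset.sum_nonneg fun σ _ => ?_
    rw [integral_finsetSum _ fun τ _ => hj σ τ]
    refine Finset.sum_nonneg fun τ _ => ?_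
    rw [integral_const_mul]
    exact mul_nonneg (sq_nonneg _) (hpos s hs σ τ)
  have hconc : ConcaveOn ℝ (Icc (0:ℝ) 1) (phi (P.H w) c0 c1) := by
    refine concaveOn_of_hasDerivWithinAt2_nonpos (convex_Icc 0 1) (continuousOn_phi hH)
      (f' := fun s => -(1 / 2) * phi (P.G w d) c0 c1 s)
      (f'' := fun s => -(1 / 2) * ((1 / 2) * ∑ σ, ∑ τ, (cov c1 σ τ - cov c0 σ τ) *
        ∫ x, P.G2 w d σ τ (lin (ct c0 c1 s) x) ∂gauss (κ ⊕ κ))) ?_ ?_ ?_
    · intro s hs
      rw [interior_Icc] at hs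
      exact ((hasDerivAt_phi hH hs).congr_deriv (e1 s)).hasDerivWithinAt
    · intro s hs
      rw [interior_Icc] at hs
      exact ((hasDerivAt_phi hG hs).const_mul _).hasDerivWithinAt
    · intro s hs
      rw [interior_Icc] at hs
      nlinarith [e2 s hs]
  have key := hconc.2 (left_mem_Icc.2 zero_le_one) (right_mem_Icc.2 zero_le_one)
    (show 0 ≤ 1 - t by linarith [ht.2]) ht.1 (by ring)
  simp only [smul_eq_mul, mul_zero, mul_one, zero_add, phi_zero hH, phi_one hH] at key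
  refine key.trans (le_of_eq ?_)
  refine eq_of_cov hH (ct c0 c1 t) cm fun σ τ => ?_
  rw [hcm]
  have a0 := Real.mul_self_sqrt (show 0 ≤ 1 - t by linarith [ht.2])
  have a1 := Real.mul_self_sqrt ht.1
  simp only [cov, ct, Fintype.sum_sum_type, Sum.elim_inl, Sum.elim_inr, Finset.mul_sum]
  congr 1 <;> refine Finset.sum_congr rfl fun k _ => ?_
  · linear_combination (c0 σ k * c0 τ k) * a0
  · linear_combination (c1 σ k * c1 τ k) * a1

end Pot

end Vale.Agent.P166.Pattern
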