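import Vale.Agent.P166.Pattern.Moments

/-!
The largest singular value of a Gaussian matrix: Sudakov-Fernique comparison and concentration,
both by interpolation of a log-sum-exp.
-/

open MeasureTheory ProbabilityTheory Filter Matrix
open scoped Topology Classical

noncomputable section

namespace Vale.Agent.P166.Pattern

/-- the linear potential -/
def linPot (θ : ℝ) : Pot where
  f x := θ * x
  f1 _ := θ
  f2 _ := 0
  f3 _ := 0
  h1 x := by simpa using (hasDerivAt_id x).const_mul θ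
  h2 x := hasDerivAt_const x θ
  h3 x := hasDerivAt_const x 0
  c3 := continuous_const
  p0 := ⟨|θ|, 1, fun x => by
    rw [abs_mul, pow_one, Real.norm_eq_abs]; nlinarith [abs_nonneg θ, abs_nonneg x]⟩
  p1 := Poly.const θ
  p2 := Poly.const 0
  p3 := Poly.const 0

variable {S κ κ' : Type*} [Fintype S] [Fintype κ] [Fintype κ'] [Nonempty S]

/-- smoothed maximum -/
def lse (θ : ℝ) (y : S → ℝ) : ℝ := (linPot θ).H (fun _ => (Fintype.card S : ℝ)⁻¹) y

omit [Fintype κ] [Fintype κ'] in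
lemma wS_pos : ∀ _σ : S, 0 < (Fintype.card S : ℝ)⁻¹ := fun _ => by
  have : 0 < Fintype.card S := Fintype.card_pos
  positivity

omit [Fintype κ] [Fintype κ'] in
lemma wS_sum : ∑ _σ : S, (Fintype.card S : ℝ)⁻¹ = 1 := by
  have : (0:ℝ) < Fintype.card S := by exact_mod_cast Fintype.card_pos
  simp [this.ne']

omit [Fintype κ] [Fintype κ'] in
lemma le_lse (θ : ℝ) (y : S → ℝ) (σ : S) : θ * y σ - Real.log (Fintype.card S) ≤ lse θ y := by
  have hc : (0:ℝ) < Fintype.card S := by exact_mod_cast Fintype.card_pos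
  have h : (Fintype.card S : ℝ)⁻¹ * Real.exp (θ * y σ) ≤ (linPot θ).Z (fun _ => (Fintype.card S : ℝ)⁻¹) y :=
    Finset.single_le_sum (f := fun τ => (Fintype.card S : ℝ)⁻¹ * Real.exp ((linPot θ).f (y τ)))
      (fun τ _ => by positivity) (Finset.mem_univ σ)
  have h2 := Real.log_le_log (by positivity) h
  rw [Real.log_mul (by positivity) (Real.exp_pos _).ne', Real.log_inv, Real.log_exp] at h2
  simp only [lse, Pot.H]
  linarith

omit [Fintype κ] [Fintype κ'] in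
lemma lse_le {θ : ℝ} (hθ : 0 ≤ θ) (y : S → ℝ) {m : ℝ} (hm : ∀ σ, y σ ≤ m) : lse θ y ≤ θ * m := by
  have hc : (0:ℝ) < Fintype.card S := by exact_mod_cast Fintype.card_pos
  rw [lse, Pot.H, Real.log_le_iff_le_exp ((linPot θ).Z_pos _ wS_pos y)]
  refine (Finset.sum_le_sum fun σ _ => mul_le_mul_of_nonneg_left
    (Real.exp_le_exp.2 (mul_le_mul_of_nonneg_left (hm σ) hθ)) (wS_pos σ).le).trans ?_
  rw [← Finset.sum_mul, wS_sum, one_mul]

lemma smooth_lse (θ : ℝ) : Smooth2 (S := S) (lse θ) ((linPot θ).q fun _ => (Fintype.card S : ℝ)⁻¹)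
    ((linPot θ).H2 fun _ => (Fintype.card S : ℝ)⁻¹) :=
  (linPot θ).smooth_H _ wS_pos wS_sum

/-- Sudakov-Fernique for the smoothed maximum -/
theorem lse_compare (θ : ℝ) (a : S → κ → ℝ) (b : S → κ' → ℝ)
    (h : ∀ σ τ, cov a σ σ + cov a τ τ - 2 * cov a σ τ ≤ cov b σ σ + cov b τ τ - 2 * cov b σ τ) :
    ∫ x, lse θ (lin a x) ∂gauss κ ≤ ∫ x, lse θ (lin b x) ∂gauss κ' := by
  set P := linPot θ
  set w := fun _ : S => (Fintype.card S : ℝ)⁻¹
  have hK := smooth_lse (S := S) θ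
  set c0 : S → κ ⊕ κ' → ℝ := fun σ => Sum.elim (a σ) fun _ => 0
  set c1 : S → κ ⊕ κ' → ℝ := fun σ => Sum.elim (fun _ => 0) (b σ)
  have e0 : phi (lse θ) c0 c1 0 = ∫ x, lse θ (lin a x) ∂gauss κ := by
    rw [phi_zero hK, ← integral_inl (κ := κ) (κ' := κ') (F := fun y => lse θ (lin a y)) (hK.cont.comp (continuous_lin a))]
    simp only [c0, lin_elim_left]
  have e1 : phi (lse θ) c0 c1 1 = ∫ x, lse θ (lin b x) ∂gauss κ' := by
    rw [phi_one hK, ← integral_inr (κ := κ) (κ' := κ') (F := fun y => lse θ (lin b y)) (hK.cont.comp (continuous_lin b))]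
    simp only [c1, lin_elim_right]
  obtain ⟨u, hu, hs⟩ := exists_hasDerivAt_eq_slope (phi (lse θ) c0 c1) _ zero_lt_one (continuousOn_phi hK)
    (fun u hu => hasDerivAt_phi hK hu)
  suffices hnn : 0 ≤ ∑ σ, ∑ τ, (cov c1 σ τ - cov c0 σ τ) *
      ∫ x, P.H2 w σ τ (lin (ct c0 c1 u) x) ∂gauss ((κ ⊕ κ') ⊕ (κ ⊕ κ')) by
    rw [sub_zero, div_one] at hs
    linarith
  set d := fun σ τ => cov c1 σ τ - cov c0 σ τ
  have hd : ∀ σ τ, d σ τ = cov b σ τ - cov a σ τ := fun σ τ => by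
    simp [d, cov, c0, c1, Fintype.sum_sum_type]
  have hi : ∀ σ τ, Integrable (fun x => d σ τ * P.H2 w σ τ (lin (ct c0 c1 u) x)) (gauss ((κ ⊕ κ') ⊕ (κ ⊕ κ'))) :=
    fun σ τ => (integrable_lin _ (hK.c2 σ τ) (hK.p2 σ τ)).const_mul _
  simp only [show ∀ σ τ, cov c1 σ τ - cov c0 σ τ = d σ τ from fun _ _ => rfl, ← integral_const_mul,
    ← integral_finsetSum _ fun τ _ => hi _ τ]
  rw [← integral_finsetSum _ fun σ _ => integrable_finsetSum _ fun τ _ => hi σ τ]
  refine integral_nonneg fun x => ?_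
  set y := lin (ct c0 c1 u) x
  set p := fun σ => P.p w σ y
  have hp1 : ∑ σ, p σ = 1 := P.sum_p w wS_pos y
  have e : ∑ σ, ∑ τ, d σ τ * P.H2 w σ τ y = θ ^ 2 * ∑ σ, d σ σ * p σ - θ ^ 2 * ∑ σ, ∑ τ, d σ τ * (p σ * p τ) := by
    simp only [Pot.H2, Pot.A, Pot.q, show ∀ t, P.f1 t = θ from fun _ => rfl, show ∀ t, P.f2 t = 0 from fun _ => rfl,
      zero_add, mul_sub, mul_ite, mul_zero, Finset.sum_sub_distrib,
      Finset.sum_ite_eq, Finset.mem_univ, if_true, Finset.mul_sum]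
    congr 1
    · exact Finset.sum_congr rfl fun σ _ => by ring
    · exact Finset.sum_congr rfl fun σ _ => Finset.sum_congr rfl fun τ _ => by ring
  have h2 : 0 ≤ ∑ σ, ∑ τ, p σ * p τ * (d σ σ + d τ τ - 2 * d σ τ) :=
    Finset.sum_nonneg fun σ _ => Finset.sum_nonneg fun τ _ => mul_nonneg
      (mul_nonneg (P.p_pos w wS_pos σ y).le (P.p_pos w wS_pos τ y).le) (by simp only [hd]; linarith [h σ τ])
  have e3 : ∑ σ, ∑ τ, p σ * p τ * (d σ σ + d τ τ - 2 * d σ τ) =
      2 * ∑ σ, d σ σ * p σ - 2 * ∑ σ, ∑ τ, d σ τ * (p σ * p τ) := by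
    have a1 : ∑ σ, ∑ τ, p σ * p τ * d σ σ = ∑ σ, d σ σ * p σ := Finset.sum_congr rfl fun σ _ => by
      rw [← Finset.sum_mul, ← Finset.mul_sum, hp1]; ring
    have a2 : ∑ σ, ∑ τ, p σ * p τ * d τ τ = ∑ σ, d σ σ * p σ := by
      rw [Finset.sum_comm, ← a1]
      exact Finset.sum_congr rfl fun σ _ => Finset.sum_congr rfl fun τ _ => by ring
    rw [show ∑ σ, ∑ τ, p σ * p τ * (d σ σ + d τ τ - 2 * d σ τ) = ∑ σ, ∑ τ, p σ * p τ * d σ σ +
        ∑ σ, ∑ τ, p σ * p τ * d τ τ - 2 * ∑ σ, ∑ τ, d σ τ * (p σ * p τ) by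
      simp only [Finset.mul_sum, ← Finset.sum_add_distrib, ← Finset.sum_sub_distrib]
      exact Finset.sum_congr rfl fun σ _ => Finset.sum_congr rfl fun τ _ => by ring, a1, a2]
    ring
  rw [e3] at h2
  show 0 ≤ ∑ σ, ∑ τ, d σ τ * P.H2 w σ τ y
  rw [e, ← mul_sub]
  exact mul_nonneg (sq_nonneg θ) (by linarith)

/-- variance of the smoothed maximum -/
theorem lse_var (θ : ℝ) (c : S → κ → ℝ) (hc : ∀ σ τ, |cov c σ τ| ≤ 1) :
    ∫ x, lse θ (lin c x) * lse θ (lin c x) ∂gauss κ - (∫ x, lse θ (lin c x) ∂gauss κ) ^ 2 ≤ θ ^ 2 := by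
  set P := linPot θ
  set w := fun _ : S => (Fintype.card S : ℝ)⁻¹
  have hK0 := smooth_lse (S := S) θ
  set L : (S ⊕ S → ℝ) →L[ℝ] (S → ℝ) := ContinuousLinearMap.pi fun σ => ContinuousLinearMap.proj (Sum.inl σ)
  set R : (S ⊕ S → ℝ) →L[ℝ] (S → ℝ) := ContinuousLinearMap.pi fun σ => ContinuousLinearMap.proj (Sum.inr σ)
  set K := fun y : S ⊕ S → ℝ => lse θ (L y) * lse θ (R y)
  set K1 : S ⊕ S → (S ⊕ S → ℝ) → ℝ := Sum.elim (fun σ y => P.q w σ (L y) * lse θ (R y))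
    (fun σ y => lse θ (L y) * P.q w σ (R y))
  set K2 : S ⊕ S → S ⊕ S → (S ⊕ S → ℝ) → ℝ := Sum.elim
    (fun σ => Sum.elim (fun τ y => P.H2 w σ τ (L y) * lse θ (R y)) (fun τ y => P.q w σ (L y) * P.q w τ (R y)))
    (fun σ => Sum.elim (fun τ y => P.q w τ (L y) * P.q w σ (R y)) (fun τ y => lse θ (L y) * P.H2 w σ τ (R y)))
  have hLc : Continuous L := L.continuous
  have hRc : Continuous R := R.continuous
  have pL : ∀ {F : (S → ℝ) → ℝ}, Poly F → Poly fun y => F (L y) := fun hF => hF.comp 1 fun y => by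
    rw [one_mul]
    refine le_trans ((pi_norm_le_iff_of_nonneg (norm_nonneg y)).2 fun σ => norm_le_pi_norm y (Sum.inl σ)) (by linarith)
  have pR : ∀ {F : (S → ℝ) → ℝ}, Poly F → Poly fun y => F (R y) := fun hF => hF.comp 1 fun y => by
    rw [one_mul]
    refine le_trans ((pi_norm_le_iff_of_nonneg (norm_nonneg y)).2 fun σ => norm_le_pi_norm y (Sum.inr σ)) (by linarith)
  have hK : Smooth2 K K1 K2 := by
    refine ⟨fun y => ?_, fun σ y => ?_, fun σ τ => ?_, (pL hK0.p0).mul (pR hK0.p0), fun σ => ?_, fun σ τ => ?_⟩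
    · refine (((hK0.d1 (L y)).comp y L.hasFDerivAt).fun_mul ((hK0.d1 (R y)).comp y R.hasFDerivAt)).congr_fderiv
        (ContinuousLinearMap.ext fun u => ?_)
      simp [L, R, K1, Fintype.sum_sum_type, Finset.mul_sum]
      rw [add_comm]
      congr 1 <;> exact Finset.sum_congr rfl fun _ _ => by ring
    · rcases σ with σ | σ
      · refine (((hK0.d2 σ (L y)).comp y L.hasFDerivAt).fun_mul ((hK0.d1 (R y)).comp y R.hasFDerivAt)).congr_fderiv
          (ContinuousLinearMap.ext fun u => ?_)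
        simp [L, R, K2, Fintype.sum_sum_type, Finset.mul_sum]
        rw [add_comm]
        congr 1 <;> exact Finset.sum_congr rfl fun _ _ => by ring
      · refine (((hK0.d1 (L y)).comp y L.hasFDerivAt).fun_mul ((hK0.d2 σ (R y)).comp y R.hasFDerivAt)).congr_fderiv
          (ContinuousLinearMap.ext fun u => ?_)
        simp [L, R, K2, Fintype.sum_sum_type, Finset.mul_sum]
        rw [add_comm]
        congr 1 <;> exact Finset.sum_congr rfl fun _ _ => by ring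
    · rcases σ with σ | σ <;> rcases τ with τ | τ <;> simp only [K2, Sum.elim_inl, Sum.elim_inr]
      · exact ((hK0.c2 σ τ).comp hLc).mul (hK0.cont.comp hRc)
      · exact ((hK0.cont1 σ).comp hLc).mul ((hK0.cont1 τ).comp hRc)
      · exact ((hK0.cont1 τ).comp hLc).mul ((hK0.cont1 σ).comp hRc)
      · exact (hK0.cont.comp hLc).mul ((hK0.c2 σ τ).comp hRc)
    · rcases σ with σ | σ <;> simp only [K1, Sum.elim_inl, Sum.elim_inr]
      · exact (pL (hK0.p1 σ)).mul (pR hK0.p0)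
      · exact (pL hK0.p0).mul (pR (hK0.p1 σ))
    · rcases σ with σ | σ <;> rcases τ with τ | τ <;> simp only [K2, Sum.elim_inl, Sum.elim_inr]
      · exact (pL (hK0.p2 σ τ)).mul (pR hK0.p0)
      · exact (pL (hK0.p1 σ)).mul (pR (hK0.p1 τ))
      · exact (pL (hK0.p1 τ)).mul (pR (hK0.p1 σ))
      · exact (pL hK0.p0).mul (pR (hK0.p2 σ τ))
  set c0 : S ⊕ S → κ ⊕ κ → ℝ := Sum.elim (fun σ => Sum.elim (c σ) fun _ => 0) (fun σ => Sum.elim (fun _ => 0) (c σ))
  set c1 : S ⊕ S → κ ⊕ κ → ℝ := Sum.elim (fun σ => Sum.elim (c σ) fun _ => 0) (fun σ => Sum.elim (c σ) fun _ => 0)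
  have e1 : phi K c0 c1 1 = ∫ x, lse θ (lin c x) * lse θ (lin c x) ∂gauss κ := by
    rw [phi_one hK, ← integral_inl (κ := κ) (κ' := κ) (F := fun y => lse θ (lin c y) * lse θ (lin c y))
      ((hK0.cont.comp (continuous_lin c)).mul (hK0.cont.comp (continuous_lin c)))]
    refine integral_congr_ae (.of_forall fun x => ?_)
    have hl : L (lin c1 x) = lin c fun i => x (Sum.inl i) := by
      funext σ; simp [L, c1, lin, Fintype.sum_sum_type]
    have hr : R (lin c1 x) = lin c fun i => x (Sum.inl i) := by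
      funext σ; simp [R, c1, lin, Fintype.sum_sum_type]
    simp only [K, hl, hr]
  have e0 : phi K c0 c1 0 = (∫ x, lse θ (lin c x) ∂gauss κ) ^ 2 := by
    rw [phi_zero hK]
    have hmp : MeasurePreserving (fun x : κ ⊕ κ → ℝ => ((fun i => x (Sum.inl i)), fun i => x (Sum.inr i)))
        (gauss (κ ⊕ κ)) ((gauss κ).prod (gauss κ)) :=
      measurePreserving_sumPiEquivProdPi (X := fun _ : κ ⊕ κ => ℝ) (fun _ => gaussianReal 0 1)
    have hf : Continuous fun p : (κ → ℝ) × (κ → ℝ) => lse θ (lin c p.1) * lse θ (lin c p.2) :=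
      (hK0.cont.comp ((continuous_lin c).comp continuous_fst)).mul
        (hK0.cont.comp ((continuous_lin c).comp continuous_snd))
    rw [sq, ← integral_prod_mul, ← hmp.map_eq, integral_map hmp.measurable.aemeasurable hf.aestronglyMeasurable]
    refine integral_congr_ae (.of_forall fun x => ?_)
    have hl : L (lin c0 x) = lin c fun i => x (Sum.inl i) := by
      funext σ; simp [L, c0, lin, Fintype.sum_sum_type]
    have hr : R (lin c0 x) = lin c fun i => x (Sum.inr i) := by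
      funext σ; simp [R, c0, lin, Fintype.sum_sum_type]
    simp only [K, hl, hr]
  obtain ⟨u, hu, hs⟩ := exists_hasDerivAt_eq_slope (phi K c0 c1) _ zero_lt_one (continuousOn_phi hK)
    (fun u hu => hasDerivAt_phi hK hu)
  suffices hb : ∑ σ, ∑ τ, (cov c1 σ τ - cov c0 σ τ) *
      ∫ x, K2 σ τ (lin (ct c0 c1 u) x) ∂gauss ((κ ⊕ κ) ⊕ (κ ⊕ κ)) ≤ 2 * θ ^ 2 by
    rw [sub_zero, div_one, e0, e1] at hs
    linarith
  have hd : ∀ σ τ, cov c1 (Sum.inl σ) (Sum.inl τ) - cov c0 (Sum.inl σ) (Sum.inl τ) = 0 ∧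
      cov c1 (Sum.inr σ) (Sum.inr τ) - cov c0 (Sum.inr σ) (Sum.inr τ) = 0 ∧
      cov c1 (Sum.inl σ) (Sum.inr τ) - cov c0 (Sum.inl σ) (Sum.inr τ) = cov c σ τ ∧
      cov c1 (Sum.inr σ) (Sum.inl τ) - cov c0 (Sum.inr σ) (Sum.inl τ) = cov c σ τ := fun σ τ => by
    simp [cov, c0, c1, Fintype.sum_sum_type]
  simp only [Fintype.sum_sum_type, fun σ τ => (hd σ τ).1, fun σ τ => (hd σ τ).2.1, fun σ τ => (hd σ τ).2.2.1,
    fun σ τ => (hd σ τ).2.2.2, zero_mul, Finset.sum_const_zero, zero_add, add_zero, K2, Sum.elim_inl,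
    Sum.elim_inr]
  set y := fun x => lin (ct c0 c1 u) x
  have bound : ∀ F : (S ⊕ S → ℝ) → S → S → ℝ, (∀ σ τ, Continuous fun y => F y σ τ) →
      (∀ y σ τ, |F y σ τ| ≤ θ ^ 2 * (P.p w σ (L y) * P.p w τ (R y))) ∨
        (∀ y σ τ, |F y σ τ| ≤ θ ^ 2 * (P.p w τ (L y) * P.p w σ (R y))) →
      ∑ σ, ∑ τ, cov c σ τ * ∫ x, F (y x) σ τ ∂gauss ((κ ⊕ κ) ⊕ (κ ⊕ κ)) ≤ θ ^ 2 := by
    intro F hFc hF
    have hF1 : ∀ y σ τ, |F y σ τ| ≤ θ ^ 2 := fun y σ τ => by
      have a := P.p_le w wS_pos; have b := P.p_pos w wS_pos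
      rcases hF with h | h <;> refine (h y σ τ).trans (mul_le_of_le_one_right (sq_nonneg θ) ?_) <;>
        exact mul_le_one₀ (a _ _) (b _ _).le (a _ _)
    have hi : ∀ σ τ, Integrable (fun x => cov c σ τ * F (y x) σ τ) (gauss ((κ ⊕ κ) ⊕ (κ ⊕ κ))) := fun σ τ =>
      (Integrable.mono' (integrable_const (θ ^ 2)) ((hFc σ τ).comp (continuous_lin _)).aestronglyMeasurable
        (.of_forall fun x => by rw [Real.norm_eq_abs]; exact hF1 _ σ τ)).const_mul _
    simp only [← integral_const_mul, ← integral_finsetSum _ fun τ _ => hi _ τ]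
    rw [← integral_finsetSum _ fun σ _ => integrable_finsetSum _ fun τ _ => hi σ τ]
    refine (integral_mono (integrable_finsetSum _ fun σ _ => integrable_finsetSum _ fun τ _ => hi σ τ)
      (integrable_const (θ ^ 2)) fun x => ?_).trans (by simp)
    have hp := fun z => P.sum_p w wS_pos z
    have hle : ∀ σ τ, cov c σ τ * F (y x) σ τ ≤ |F (y x) σ τ| := fun σ τ => by
      refine (le_abs_self _).trans ?_
      rw [abs_mul]; exact mul_le_of_le_one_left (abs_nonneg _) (hc σ τ)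
    refine (Finset.sum_le_sum fun σ _ => Finset.sum_le_sum fun τ _ => hle σ τ).trans ?_
    rcases hF with h | h
    · refine (Finset.sum_le_sum fun σ _ => Finset.sum_le_sum fun τ _ => h (y x) σ τ).trans (le_of_eq ?_)
      simp only [← Finset.mul_sum, hp, mul_one]
    · refine (Finset.sum_le_sum fun σ _ => Finset.sum_le_sum fun τ _ => h (y x) σ τ).trans (le_of_eq ?_)
      simp only [← Finset.mul_sum, ← Finset.sum_mul, hp, one_mul, mul_one]
  have hq : ∀ σ τ (a b : S → ℝ), |P.q w σ a * P.q w τ b| ≤ θ ^ 2 * (P.p w σ a * P.p w τ b) := fun σ τ a b => by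
    have := P.p_pos w wS_pos σ a; have := P.p_pos w wS_pos τ b
    simp only [Pot.q, P, linPot]
    rw [mul_mul_mul_comm, ← sq, abs_mul, abs_of_nonneg (sq_nonneg θ), abs_of_nonneg (by positivity)]
  have b1 := bound (fun y σ τ => P.q w σ (L y) * P.q w τ (R y))
    (fun σ τ => ((hK0.cont1 σ).comp hLc).mul ((hK0.cont1 τ).comp hRc)) (Or.inl fun y σ τ => hq σ τ _ _)
  have b2 := bound (fun y σ τ => P.q w τ (L y) * P.q w σ (R y))
    (fun σ τ => ((hK0.cont1 τ).comp hLc).mul ((hK0.cont1 σ).comp hRc)) (Or.inr fun y σ τ => hq τ σ _ _)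
  simp only [y] at b1 b2
  linarith

end Vale.Agent.P166.Pattern
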