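import Vale.Agent.P166.Pattern.Gauss

/-!
Gaussian interpolation between two families of linear forms.
-/

open MeasureTheory ProbabilityTheory Filter Set
open scoped Topology

noncomputable section

namespace Vale.Agent.P166.Pattern

variable {S κ κ' : Type*} [Fintype S] [Fintype κ] [Fintype κ']

/-- a finite family of linear forms -/
def lin (c : S → κ → ℝ) (x : κ → ℝ) : S → ℝ := fun σ => ∑ k, c σ k * x k

/-- covariance of a family of linear forms -/
def cov (c : S → κ → ℝ) (σ τ : S) : ℝ := ∑ k, c σ k * c τ k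

lemma continuous_lin (c : S → κ → ℝ) : Continuous (lin c) := by unfold lin; fun_prop

lemma norm_lin_le (c : S → κ → ℝ) {L : ℝ} (hL : ∀ σ, ∑ k, |c σ k| ≤ L) (hL0 : 0 ≤ L) (x : κ → ℝ) :
    ‖lin c x‖ ≤ L * ‖x‖ := by
  refine (pi_norm_le_iff_of_nonneg (by positivity)).2 fun σ => ?_
  rw [Real.norm_eq_abs]
  refine (Finset.abs_sum_le_sum_abs _ _).trans ?_
  refine le_trans (Finset.sum_le_sum fun k _ => ?_)
    (le_of_eq_of_le (Finset.sum_mul _ (fun k => |c σ k|) ‖x‖).symm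
      (mul_le_mul_of_nonneg_right (hL σ) (norm_nonneg x)))
  rw [abs_mul]
  exact mul_le_mul_of_nonneg_left (norm_le_pi_norm x k) (abs_nonneg _)

lemma poly_lin (c : S → κ → ℝ) {F : (S → ℝ) → ℝ} (hF : Poly F) : Poly fun x => F (lin c x) := by
  refine hF.comp (∑ σ, ∑ k, |c σ k|) fun x => ?_
  refine (norm_lin_le c (L := ∑ σ, ∑ k, |c σ k|) (fun σ => Finset.single_le_sum
    (f := fun σ => ∑ k, |c σ k|) (fun _ _ => by positivity) (Finset.mem_univ σ)) (by positivity) x).trans ?_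
  exact mul_le_mul_of_nonneg_left (by linarith) (by positivity)

lemma integrable_lin (c : S → κ → ℝ) {F : (S → ℝ) → ℝ} (hc : Continuous F) (hF : Poly F) :
    Integrable (fun x => F (lin c x)) (gauss κ) :=
  integrable_poly (hc.comp (continuous_lin c)) (poly_lin c hF)

/-- a function with two derivatives of polynomial growth -/
structure Smooth2 (K : (S → ℝ) → ℝ) (K1 : S → (S → ℝ) → ℝ) (K2 : S → S → (S → ℝ) → ℝ) : Prop where
  d1 : ∀ y, HasFDerivAt K
    (∑ σ, K1 σ y • (ContinuousLinearMap.proj σ : (S → ℝ) →L[ℝ] ℝ)) y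
  d2 : ∀ σ y, HasFDerivAt (K1 σ)
    (∑ τ, K2 σ τ y • (ContinuousLinearMap.proj τ : (S → ℝ) →L[ℝ] ℝ)) y
  c2 : ∀ σ τ, Continuous (K2 σ τ)
  p0 : Poly K
  p1 : ∀ σ, Poly (K1 σ)
  p2 : ∀ σ τ, Poly (K2 σ τ)

namespace Smooth2

variable {K : (S → ℝ) → ℝ} {K1 : S → (S → ℝ) → ℝ} {K2 : S → S → (S → ℝ) → ℝ}

lemma cont (h : Smooth2 K K1 K2) : Continuous K :=
  continuous_iff_continuousAt.2 fun y => (h.d1 y).continuousAt

lemma cont1 (h : Smooth2 K K1 K2) (σ : S) : Continuous (K1 σ) :=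
  continuous_iff_continuousAt.2 fun y => (h.d2 σ y).continuousAt

lemma deriv_curve (h : Smooth2 K K1 K2) {y : ℝ → S → ℝ} {y' : S → ℝ} {t : ℝ}
    (hy : ∀ σ, HasDerivAt (fun u => y u σ) (y' σ) t) :
    HasDerivAt (fun u => K (y u)) (∑ σ, K1 σ (y t) * y' σ) t := by
  have hy' : HasDerivAt y y' t := hasDerivAt_pi.2 hy
  exact ((h.d1 (y t)).comp_hasDerivAt t hy').congr_deriv (by simp)

lemma deriv1_curve (h : Smooth2 K K1 K2) (σ : S) {y : ℝ → S → ℝ} {y' : S → ℝ} {t : ℝ}
    (hy : ∀ τ, HasDerivAt (fun u => y u τ) (y' τ) t) :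
    HasDerivAt (fun u => K1 σ (y u)) (∑ τ, K2 σ τ (y t) * y' τ) t := by
  have hy' : HasDerivAt y y' t := hasDerivAt_pi.2 hy
  exact ((h.d2 σ (y t)).comp_hasDerivAt t hy').congr_deriv (by simp)

end Smooth2

/-- interpolation coefficients -/
def ct (c0 c1 : S → κ → ℝ) (t : ℝ) : S → κ ⊕ κ → ℝ :=
  fun σ => Sum.elim (fun k => √(1 - t) * c0 σ k) (fun k => √t * c1 σ k)

/-- interpolated expectation -/
def phi (K : (S → ℝ) → ℝ) (c0 c1 : S → κ → ℝ) (t : ℝ) : ℝ :=
  ∫ x, K (lin (ct c0 c1 t) x) ∂gauss (κ ⊕ κ)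

variable {c0 c1 : S → κ → ℝ} {K : (S → ℝ) → ℝ} {K1 : S → (S → ℝ) → ℝ} {K2 : S → S → (S → ℝ) → ℝ}

lemma ct_abs_le (c0 c1 : S → κ → ℝ) {t : ℝ} (ht : t ∈ Icc (0:ℝ) 1) (σ : S) :
    ∑ k, |ct c0 c1 t σ k| ≤ ∑ τ, ∑ k, (|c0 τ k| + |c1 τ k|) := by
  refine le_trans ?_ (Finset.single_le_sum (f := fun τ => ∑ k, (|c0 τ k| + |c1 τ k|))
    (fun _ _ => by positivity) (Finset.mem_univ σ))
  rw [Fintype.sum_sum_type, Finset.sum_add_distrib]
  refine add_le_add (Finset.sum_le_sum fun k _ => ?_) (Finset.sum_le_sum fun k _ => ?_) <;>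
    simp only [ct, Sum.elim_inl, Sum.elim_inr, abs_mul, abs_of_nonneg (Real.sqrt_nonneg _)] <;>
    refine mul_le_of_le_one_left (abs_nonneg _) ?_ <;>
    rw [Real.sqrt_le_one] <;> linarith [ht.1, ht.2]

lemma uniform_bound {F : (S → ℝ) → ℝ} (hF : Poly F) (c0 c1 : S → κ → ℝ) :
    ∃ G : (κ ⊕ κ → ℝ) → ℝ, Continuous G ∧ Poly G ∧
      ∀ t ∈ Icc (0:ℝ) 1, ∀ x, |F (lin (ct c0 c1 t) x)| ≤ G x := by
  obtain ⟨C, n, hC, h⟩ := hF.pos
  set L := ∑ τ, ∑ k, (|c0 τ k| + |c1 τ k|)
  have hL : 0 ≤ L := by positivity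
  refine ⟨fun x => C * (1 + L * ‖x‖) ^ n, by fun_prop, ⟨C * (1 + L) ^ n, n, fun x => ?_⟩, fun t ht x => ?_⟩
  · rw [abs_of_nonneg (by positivity), mul_assoc, ← mul_pow]
    refine mul_le_mul_of_nonneg_left (pow_le_pow_left₀ (by positivity) ?_ n) hC
    nlinarith [norm_nonneg x]
  · refine (h _).trans (mul_le_mul_of_nonneg_left (pow_le_pow_left₀ (by positivity) ?_ n) hC)
    linarith [norm_lin_le _ (fun σ => ct_abs_le c0 c1 ht σ) hL x]

lemma continuousOn_phi (h : Smooth2 K K1 K2) : ContinuousOn (phi K c0 c1) (Icc (0:ℝ) 1) := by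
  obtain ⟨G, hGc, hGp, hG⟩ := uniform_bound h.p0 c0 c1
  refine continuousOn_of_dominated (fun t _ => (h.cont.comp (continuous_lin _)).aestronglyMeasurable)
    (fun t ht => .of_forall fun x => (Real.norm_eq_abs _).le.trans (hG t ht x))
    (integrable_poly hGc hGp) (.of_forall fun x => Continuous.continuousOn ?_)
  refine h.cont.comp (continuous_pi fun σ => ?_)
  refine continuous_finset_sum _ fun k _ => Continuous.mul ?_ continuous_const
  rcases k with k | k <;> simp only [ct, Sum.elim_inl, Sum.elim_inr] <;> fun_prop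

/-- derivative of the interpolation -/
theorem hasDerivAt_phi (h : Smooth2 K K1 K2) {t : ℝ} (ht : t ∈ Ioo (0:ℝ) 1) :
    HasDerivAt (phi K c0 c1)
      ((1 / 2) * ∑ σ, ∑ τ, (cov c1 σ τ - cov c0 σ τ) * ∫ x, K2 σ τ (lin (ct c0 c1 t) x) ∂gauss (κ ⊕ κ)) t := by
  classical
  set dc : ℝ → S → κ ⊕ κ → ℝ := fun u σ =>
    Sum.elim (fun k => -(1 / (2 * √(1 - u))) * c0 σ k) (fun k => 1 / (2 * √u) * c1 σ k) with hdc
  have hder : ∀ u ∈ Ioo (0:ℝ) 1, ∀ x σ,
      HasDerivAt (fun v => lin (ct c0 c1 v) x σ) (lin (dc u) x σ) u := by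
    intro u hu x σ
    unfold lin
    refine HasDerivAt.fun_sum fun k _ => HasDerivAt.mul_const ?_ _
    rcases k with k | k <;> simp only [ct, hdc, Sum.elim_inl, Sum.elim_inr]
    · refine HasDerivAt.mul_const ?_ _
      exact (((hasDerivAt_id u).const_sub 1).sqrt (by simp only [id]; linarith [hu.2])).congr_deriv
        (by simp only [id]; ring)
    · refine HasDerivAt.mul_const ?_ _
      exact ((hasDerivAt_id u).sqrt (by simp only [id]; linarith [hu.1])).congr_deriv (by simp only [id])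
  set I := Ioo (t / 2) ((1 + t) / 2)
  have hI : I ⊆ Ioo (0:ℝ) 1 := Ioo_subset_Ioo (by linarith [ht.1]) (by linarith [ht.2])
  set B := 1 / (2 * √(t / 2)) + 1 / (2 * √((1 - t) / 2))
  set L := ∑ τ, ∑ k, (|c0 τ k| + |c1 τ k|)
  have hL : 0 ≤ L := by positivity
  have ht1 : 0 < t / 2 := by linarith [ht.1]
  have ht2 : 0 < (1 - t) / 2 := by linarith [ht.2]
  have hB : ∀ u ∈ I, ∀ σ, ∑ k, |dc u σ k| ≤ B * L := by
    intro u hu σ
    have a1 : 1 / (2 * √(1 - u)) ≤ B := by
      have : 1 / (2 * √(1 - u)) ≤ 1 / (2 * √((1 - t) / 2)) :=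
        one_div_le_one_div_of_le (by positivity)
          (mul_le_mul_of_nonneg_left (Real.sqrt_le_sqrt (by linarith [hu.2])) zero_le_two)
      linarith [show (0:ℝ) ≤ 1 / (2 * √(t / 2)) by positivity]
    have a2 : 1 / (2 * √u) ≤ B := by
      have : 1 / (2 * √u) ≤ 1 / (2 * √(t / 2)) :=
        one_div_le_one_div_of_le (by positivity)
          (mul_le_mul_of_nonneg_left (Real.sqrt_le_sqrt (by linarith [hu.1])) zero_le_two)
      linarith [show (0:ℝ) ≤ 1 / (2 * √((1 - t) / 2)) by positivity]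
    have b1 : ∑ k, (|c0 σ k| + |c1 σ k|) ≤ L :=
      Finset.single_le_sum (f := fun τ => ∑ k, (|c0 τ k| + |c1 τ k|)) (fun _ _ => by positivity)
        (Finset.mem_univ σ)
    refine le_trans ?_ (mul_le_mul_of_nonneg_left b1 (by positivity))
    rw [Fintype.sum_sum_type, Finset.sum_add_distrib, mul_add, Finset.mul_sum, Finset.mul_sum]
    refine add_le_add (Finset.sum_le_sum fun k _ => ?_) (Finset.sum_le_sum fun k _ => ?_) <;>
      simp only [hdc, Sum.elim_inl, Sum.elim_inr, abs_mul, abs_neg]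
    · rw [← abs_mul, abs_mul, abs_of_nonneg (show (0:ℝ) ≤ 1 / (2 * √(1 - u)) by positivity)]
      exact mul_le_mul_of_nonneg_right a1 (abs_nonneg _)
    · rw [← abs_mul, abs_mul, abs_of_nonneg (show (0:ℝ) ≤ 1 / (2 * √u) by positivity)]
      exact mul_le_mul_of_nonneg_right a2 (abs_nonneg _)
  choose G hGc hGp hG using fun σ => uniform_bound (h.p1 σ) c0 c1
  have hpn : Poly (fun x : κ ⊕ κ → ℝ => ‖x‖) := ⟨1, 1, fun x => by simp⟩
  have hd := hasDerivAt_integral_of_dominated_loc_of_deriv_le (μ := gauss (κ ⊕ κ))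
    (F := fun u x => K (lin (ct c0 c1 u) x))
    (F' := fun u x => ∑ σ, K1 σ (lin (ct c0 c1 u) x) * lin (dc u) x σ)
    (bound := fun x => ∑ σ, G σ x * (B * L * ‖x‖))
    (Ioo_mem_nhds (show t / 2 < t by linarith [ht.1]) (show t < (1 + t) / 2 by linarith [ht.2]))
    (.of_forall fun u => (h.cont.comp (continuous_lin _)).aestronglyMeasurable)
    (integrable_lin _ h.cont h.p0)
    (Continuous.aestronglyMeasurable (continuous_finset_sum _ fun σ _ =>
      ((h.cont1 σ).comp (continuous_lin _)).mul ((continuous_apply σ).comp (continuous_lin _))))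
    (.of_forall fun x u hu => ?_)
    (integrable_poly (by fun_prop)
      (Poly.sum _ fun σ _ => (hGp σ).mul ((Poly.const (B * L)).mul hpn)))
    (.of_forall fun x u hu => h.deriv_curve (hder u (hI hu) x))
  rotate_left
  · rw [Real.norm_eq_abs]
    refine (Finset.abs_sum_le_sum_abs _ _).trans (Finset.sum_le_sum fun σ _ => ?_)
    rw [abs_mul]
    refine mul_le_mul (hG σ u ⟨(hI hu).1.le, (hI hu).2.le⟩ x) ?_ (abs_nonneg _)
      ((abs_nonneg _).trans (hG σ u ⟨(hI hu).1.le, (hI hu).2.le⟩ x))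
    exact (norm_le_pi_norm (lin (dc u) x) σ).trans
      (norm_lin_le _ (hB u hu) (by positivity) x)
  refine hd.2.congr_deriv ?_
  set C := ct c0 c1 t
  set dct := dc t
  have hxk : ∀ σ k, Integrable (fun x => x k * K1 σ (lin C x)) (gauss (κ ⊕ κ)) := fun σ k =>
    integrable_poly ((continuous_apply k).mul ((h.cont1 σ).comp (continuous_lin _)))
      ((poly_coord k).mul (poly_lin _ (h.p1 σ)))
  have hK2 : ∀ σ τ, Integrable (fun x => K2 σ τ (lin C x)) (gauss (κ ⊕ κ)) := fun σ τ =>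
    integrable_lin _ (h.c2 σ τ) (h.p2 σ τ)
  have hibp : ∀ σ k, ∫ x, x k * K1 σ (lin C x) ∂gauss (κ ⊕ κ) =
      ∑ τ, C τ k * ∫ x, K2 σ τ (lin C x) ∂gauss (κ ⊕ κ) := by
    intro σ k
    simp only [← integral_const_mul]
    rw [← integral_finsetSum _ fun τ _ => (hK2 σ τ).const_mul _]
    refine ibp k (fun x => ?_) ((h.cont1 σ).comp (continuous_lin _))
      (continuous_finset_sum _ fun τ _ => continuous_const.mul ((h.c2 σ τ).comp (continuous_lin _)))
      (poly_lin _ (h.p1 σ)) (Poly.sum _ fun τ _ => (poly_lin _ (h.p2 σ τ)).const_mul _)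
    have hy : ∀ τ, HasDerivAt (fun u => lin C (Function.update x k u) τ) (C τ k) (x k) := fun τ => by
      have e : ∀ u, lin C (Function.update x k u) τ = lin C x τ + C τ k * (u - x k) := fun u => by
        simp only [lin, ← Finset.add_sum_erase _ _ (Finset.mem_univ k), Function.update_self]
        rw [Finset.sum_congr rfl fun j hj => by rw [Function.update_of_ne (Finset.ne_of_mem_erase hj)]]
        ring
      simp only [e]
      simpa using (((hasDerivAt_id (x k)).sub_const (x k)).const_mul (C τ k)).const_add (lin C x τ)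
    have := h.deriv1_curve σ hy
    rw [Function.update_eq_self] at this
    exact this.congr_deriv (Finset.sum_congr rfl fun τ _ => mul_comm _ _)
  have expand : ∀ x, (∑ σ, K1 σ (lin C x) * lin dct x σ) =
      ∑ σ, ∑ k, dct σ k * (x k * K1 σ (lin C x)) := fun x => by
    simp only [lin, Finset.mul_sum]
    exact Finset.sum_congr rfl fun σ _ => Finset.sum_congr rfl fun k _ => by ring
  simp only [expand]
  rw [integral_finsetSum _ fun σ _ => integrable_finsetSum _ fun k _ => (hxk σ k).const_mul _,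
    Finset.mul_sum]
  refine Finset.sum_congr rfl fun σ _ => ?_
  rw [integral_finsetSum _ fun k _ => (hxk σ k).const_mul _, Finset.mul_sum]
  simp only [integral_const_mul, hibp, Finset.mul_sum]
  rw [Finset.sum_comm]
  refine Finset.sum_congr rfl fun τ _ => ?_
  rw [← mul_assoc]
  simp only [← mul_assoc]
  rw [← Finset.sum_mul]
  congr 1
  have s0 : √(1 - t) ≠ 0 := (Real.sqrt_pos.2 (by linarith [ht.2])).ne'
  have s1 : √t ≠ 0 := (Real.sqrt_pos.2 ht.1).ne'
  simp only [dct, C, hdc, ct, Fintype.sum_sum_type, Sum.elim_inl, Sum.elim_inr, cov,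
    ← Finset.sum_sub_distrib, Finset.mul_sum, ← Finset.sum_add_distrib]
  refine Finset.sum_congr rfl fun k _ => ?_
  field_simp
  ring

lemma measurePreserving_inr : MeasurePreserving (fun x : κ ⊕ κ' → ℝ => fun i => x (Sum.inr i))
    (gauss (κ ⊕ κ')) (gauss κ') := by
  classical
  have hm : Measurable fun x : κ ⊕ κ' → ℝ => fun i => x (Sum.inr i) := by fun_prop
  refine ⟨hm, Eq.symm <| Measure.pi_eq fun s hs => ?_⟩
  rw [Measure.map_apply hm (MeasurableSet.univ_pi hs)]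
  have hpre : (fun x : κ ⊕ κ' → ℝ => fun i => x (Sum.inr i)) ⁻¹' Set.univ.pi s =
      Set.univ.pi (Sum.elim (fun _ => Set.univ) s) := by
    ext x; simp [Sum.forall]
  rw [hpre, gauss, Measure.pi_pi, Fintype.prod_sum_type]
  simp

lemma integral_inr {F : (κ' → ℝ) → ℝ} (hF : Continuous F) :
    ∫ x, F (fun i => x (Sum.inr i)) ∂gauss (κ ⊕ κ') = ∫ x, F x ∂gauss κ' := by
  have h := measurePreserving_inr (κ := κ) (κ' := κ')
  rw [← h.map_eq, integral_map h.measurable.aemeasurable hF.aestronglyMeasurable]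

lemma lin_elim_left (c : S → κ → ℝ) (x : κ ⊕ κ' → ℝ) :
    lin (fun σ => Sum.elim (c σ) fun _ => 0) x = lin c fun i => x (Sum.inl i) := by
  funext σ; simp [lin, Fintype.sum_sum_type]

lemma lin_elim_right (c : S → κ' → ℝ) (x : κ ⊕ κ' → ℝ) :
    lin (fun σ => Sum.elim (fun _ : κ => 0) (c σ)) x = lin c fun i => x (Sum.inr i) := by
  funext σ; simp [lin, Fintype.sum_sum_type]

lemma phi_zero (h : Smooth2 K K1 K2) : phi K c0 c1 0 = ∫ x, K (lin c0 x) ∂gauss κ := by
  rw [phi, ← integral_inl (κ := κ) (κ' := κ) (F := fun y => K (lin c0 y)) (h.cont.comp (continuous_lin _))]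
  simp only [← lin_elim_left]
  have e : ct c0 c1 0 = fun σ => Sum.elim (c0 σ) fun _ => 0 := by
    funext σ k; rcases k with k | k <;> simp [ct]
  rw [e]

lemma phi_one (h : Smooth2 K K1 K2) : phi K c0 c1 1 = ∫ x, K (lin c1 x) ∂gauss κ := by
  rw [phi, ← integral_inr (κ := κ) (κ' := κ) (F := fun y => K (lin c1 y)) (h.cont.comp (continuous_lin _))]
  simp only [← lin_elim_right]
  have e : ct c0 c1 1 = fun σ => Sum.elim (fun _ => 0) (c1 σ) := by
    funext σ k; rcases k with k | k <;> simp [ct]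
  rw [e]

/-- two families with the same covariance give the same expectation -/
theorem eq_of_cov (h : Smooth2 K K1 K2) (a : S → κ → ℝ) (b : S → κ' → ℝ)
    (hab : ∀ σ τ, cov a σ τ = cov b σ τ) :
    ∫ x, K (lin a x) ∂gauss κ = ∫ x, K (lin b x) ∂gauss κ' := by
  set c0 : S → κ ⊕ κ' → ℝ := fun σ => Sum.elim (a σ) fun _ => 0
  set c1 : S → κ ⊕ κ' → ℝ := fun σ => Sum.elim (fun _ => 0) (b σ)
  have e0 : phi K c0 c1 0 = ∫ x, K (lin a x) ∂gauss κ := by
    rw [phi_zero h, ← integral_inl (κ := κ) (κ' := κ') (F := fun y => K (lin a y)) (h.cont.comp (continuous_lin a))]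
    simp only [c0, lin_elim_left]
  have e1 : phi K c0 c1 1 = ∫ x, K (lin b x) ∂gauss κ' := by
    rw [phi_one h, ← integral_inr (κ := κ) (κ' := κ') (F := fun y => K (lin b y)) (h.cont.comp (continuous_lin b))]
    simp only [c1, lin_elim_right]
  obtain ⟨u, hu, hs⟩ := exists_hasDerivAt_eq_slope (phi K c0 c1) _ zero_lt_one (continuousOn_phi h)
    (fun u hu => hasDerivAt_phi h hu)
  have hz : ∀ σ τ, cov c1 σ τ - cov c0 σ τ = 0 := fun σ τ => by
    simp [cov, c0, c1, Fintype.sum_sum_type, sub_eq_zero]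
    simpa [cov] using (hab σ τ).symm
  simp only [hz, zero_mul, Finset.sum_const_zero, mul_zero, sub_zero, div_one] at hs
  linarith

end Vale.Agent.P166.Pattern
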