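import Vale.Agent.P166.Pattern.Spectral

/-!
A deterministic sequence of Wishart spectra and its limiting law (Marchenko-Pastur).
-/

open MeasureTheory ProbabilityTheory Filter Matrix
open scoped Topology

noncomputable section

namespace Vale.Agent.P166.Pattern

/-- outcomes along which countably many asymptotically negligible functions all tend to zero -/
lemma exists_selection {Ω : ℕ → Type*} [∀ N, MeasurableSpace (Ω N)] (P : ∀ N, Measure (Ω N))
    [∀ N, IsProbabilityMeasure (P N)] (F : ℕ → ∀ N, Ω N → ℝ) (hF0 : ∀ j N x, 0 ≤ F j N x)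
    (hF : ∀ j, ∀ ε : ℝ, 0 < ε → Tendsto (fun N => (P N).real {x | ε ≤ F j N x}) atTop (𝓝 0)) :
    ∃ ω : ∀ N, Ω N, ∀ j, Tendsto (fun N => F j N (ω N)) atTop (𝓝 0) := by
  classical
  set B : ∀ _j : ℕ, ∀ N, Set (Ω N) := fun j N => ⋃ i ∈ Finset.range (j + 1), {x | 1 / ((j:ℝ) + 1) ≤ F i N x}
  have hB : ∀ j, Tendsto (fun N => (P N).real (B j N)) atTop (𝓝 0) := fun j => by
    refine squeeze_zero (fun N => measureReal_nonneg)
      (fun N => measureReal_biUnion_finset_le (Finset.range (j + 1)) _) ?_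
    simpa using tendsto_finsetSum (Finset.range (j + 1)) fun i _ => hF i (1 / ((j:ℝ) + 1)) (by positivity)
  set J : ℕ → ℕ := fun N => Nat.findGreatest (fun j => (P N).real (B j N) < 1) N
  have hne : ∀ N, ∃ x : Ω N, (P N).real (B (J N) N) < 1 → x ∉ B (J N) N := fun N => by
    have : Nonempty (Ω N) := nonempty_of_isProbabilityMeasure (P N)
    by_cases h : (P N).real (B (J N) N) < 1
    · obtain ⟨x, hx⟩ : ∃ x, x ∉ B (J N) N := by
        by_contra hc
        push Not at hc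
        rw [Set.eq_univ_of_forall hc, probReal_univ] at h
        exact lt_irrefl _ h
      exact ⟨x, fun _ => hx⟩
    · exact ⟨Classical.arbitrary _, fun hh => absurd hh h⟩
  choose ω hω using hne
  refine ⟨ω, fun j => ?_⟩
  rw [Metric.tendsto_nhds]
  intro ε hε
  obtain ⟨m, hm⟩ := exists_nat_one_div_lt hε
  set k := max j m
  filter_upwards [(hB k).eventually (eventually_lt_nhds zero_lt_one), eventually_ge_atTop k] with N hN hkN
  have hJ : k ≤ J N := Nat.le_findGreatest hkN hN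
  have hJ1 : (P N).real (B (J N) N) < 1 := Nat.findGreatest_spec (P := fun j => (P N).real (B j N) < 1) hkN hN
  have h := hω N hJ1
  simp only [B, Set.mem_iUnion, not_exists, Finset.mem_range] at h
  have h1 : F j N (ω N) < 1 / ((J N : ℝ) + 1) := by
    have := h j (by omega)
    simpa using this
  rw [Real.dist_eq, sub_zero, abs_of_nonneg (hF0 j N _)]
  refine (h1.trans_le ?_).trans hm
  refine one_div_le_one_div_of_le (by positivity) ?_
  have : (m:ℝ) ≤ J N := by exact_mod_cast (le_max_right j m).trans hJ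
  linarith

/-- a deterministic sequence of spectra with the Marchenko-Pastur moments and upper edge -/
structure Spec (α : ℝ) (lam : ∀ N : ℕ, Fin N → ℝ) : Prop where
  nonneg : ∀ N k, 0 ≤ lam N k
  moment : ∀ k : ℕ, Tendsto (fun N : ℕ => (∑ i, lam N i ^ k) / (N:ℝ)) atTop (𝓝 (mom α k))
  top : ∀ δ : ℝ, 0 < δ → ∀ᶠ N : ℕ in atTop, ∀ i, lam N i ≤ (1 + √α) ^ 2 + δ

theorem exists_spec {α : ℝ} (hα : 0 < α)
    (Ψ : ∀ N : ℕ, (Fin ⌊α * (N:ℝ)⌋₊ × Fin N → ℝ) → ℝ) (hm : ∀ N, Measurable (Ψ N))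
    (h01 : ∀ N g, 0 ≤ Ψ N g ∧ Ψ N g ≤ 1)
    (hlim : Tendsto (fun N : ℕ => ∫ g, Ψ N g ∂gauss (Fin ⌊α * (N:ℝ)⌋₊ × Fin N)) atTop (𝓝 0)) :
    ∃ (g : ∀ N : ℕ, Fin ⌊α * (N:ℝ)⌋₊ × Fin N → ℝ) (lam : ∀ N : ℕ, Fin N → ℝ), Spec α lam ∧
      Tendsto (fun N => Ψ N (g N)) atTop (𝓝 0) ∧
      ∀ N, ∃ Q : Matrix (Fin N) (Fin N) ℝ, Q ∈ Matrix.orthogonalGroup (Fin N) ℝ ∧
        WM (g N) = Qᵀ * Matrix.diagonal (lam N) * Q := by
  classical
  set P : ∀ N : ℕ, Measure (Fin ⌊α * (N:ℝ)⌋₊ × Fin N → ℝ) := fun N => gauss _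
  set E : ℕ → ∀ N : ℕ, Set (Fin ⌊α * (N:ℝ)⌋₊ × Fin N → ℝ) := fun i N => {g | ∃ v : Fin N → ℝ, ∑ j, v j ^ 2 = 1 ∧
    (√(⌊α * (N:ℝ)⌋₊ : ℝ) + √(N:ℝ) + 1 + 1 / ((i:ℝ) + 1) * √(N:ℝ)) ^ 2 < ∑ m, (∑ j, g (m, j) * v j) ^ 2}
  set G : Option (ℕ ⊕ ℕ) → ∀ N : ℕ, (Fin ⌊α * (N:ℝ)⌋₊ × Fin N → ℝ) → ℝ := fun o N g => match o with
    | none => Ψ N g
    | some (Sum.inl k) => |tau k g - mom α k|
    | some (Sum.inr i) => (E i N).indicator (fun _ => (1:ℝ)) g
  obtain ⟨e, he⟩ := exists_surjective_nat (Option (ℕ ⊕ ℕ))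
  have hG0 : ∀ o N g, 0 ≤ G o N g := by
    rintro (_ | k | i) N g
    · exact (h01 N g).1
    · exact abs_nonneg _
    · exact Set.indicator_nonneg (fun _ _ => zero_le_one) g
  have hMN : ∀ᶠ N : ℕ in atTop, 0 < ⌊α * (N:ℝ)⌋₊ := by
    filter_upwards [eventually_ge_atTop ⌈1 / α⌉₊] with N hN
    refine Nat.floor_pos.2 ?_
    have h1 : 1 / α ≤ N := (Nat.le_ceil _).trans (by exact_mod_cast hN)
    rwa [div_le_iff₀ hα, mul_comm] at h1
  have hG : ∀ o, ∀ ε : ℝ, 0 < ε → Tendsto (fun N => (P N).real {x | ε ≤ G o N x}) atTop (𝓝 0) := by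
    intro o ε hε
    rcases o with _ | k | i
    · refine squeeze_zero (fun N => measureReal_nonneg) (fun N => ?_)
        (by simpa using hlim.div_const ε)
      rw [le_div_iff₀ hε, mul_comm]
      refine mul_meas_ge_le_integral_of_nonneg (.of_forall fun g => (h01 N g).1) ?_ ε
      exact Integrable.of_bound (hm N).aestronglyMeasurable 1
        (.of_forall fun g => by rw [Real.norm_eq_abs, abs_of_nonneg (h01 N g).1]; exact (h01 N g).2)
    · refine squeeze_zero (fun N => measureReal_nonneg) (fun N => ?_)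
        (by simpa using (tendsto_tau_var hα.le k).div_const (ε ^ 2))
      rw [le_div_iff₀ (by positivity), mul_comm]
      have hi : Integrable (fun g => (tau k g - mom α k) ^ 2) (P N) :=
        integrable_poly (((cp_tau k).1.sub continuous_const).pow 2) (((cp_tau k).2.sub (Poly.const _)).pow 2)
      refine le_trans ?_ (mul_meas_ge_le_integral_of_nonneg (.of_forall fun g => sq_nonneg _) hi (ε ^ 2))
      refine mul_le_mul_of_nonneg_left (measureReal_mono fun g (hg : ε ≤ |tau k g - mom α k|) => ?_) (sq_nonneg _)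
      show ε ^ 2 ≤ (tau k g - mom α k) ^ 2
      rw [← sq_abs (tau k g - mom α k)]
      gcongr
    · have h1 : Tendsto (fun N : ℕ => ((i:ℝ) + 1) ^ 2 / (N:ℝ)) atTop (𝓝 0) :=
        tendsto_const_nhds.div_atTop tendsto_natCast_atTop_atTop
      refine squeeze_zero' (.of_forall fun N => measureReal_nonneg) ?_ h1
      filter_upwards [hMN, eventually_gt_atTop 0] with N hM hN
      have hN' : (0:ℝ) < N := by exact_mod_cast hN
      refine le_trans (measureReal_mono fun g (hg : ε ≤ (E i N).indicator (fun _ => (1:ℝ)) g) => ?_)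
        ((tail_norm hM hN (t := 1 / ((i:ℝ) + 1) * √(N:ℝ)) (by positivity)).trans_eq ?_)
      · by_contra hc
        rw [Set.indicator_of_notMem hc] at hg
        linarith
      · rw [mul_pow, Real.sq_sqrt hN'.le]
        field_simp
  obtain ⟨g, hg⟩ := exists_selection P (fun j => G (e j)) (fun j => hG0 _) fun j => hG _
  have hgo : ∀ o, Tendsto (fun N => G o N (g N)) atTop (𝓝 0) := fun o => by
    obtain ⟨j, rfl⟩ := he o
    exact hg j
  choose lam Q hQ hW htau h0 htop using fun N => exists_eig (g N)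
  refine ⟨g, lam, ⟨fun N => h0 N, fun k => ?_, fun δ hδ => ?_⟩, hgo none, fun N => ⟨Q N, hQ N, hW N⟩⟩
  · have h1 : Tendsto (fun N => tau k (g N) - mom α k) atTop (𝓝 0) :=
      (tendsto_zero_iff_abs_tendsto_zero _).2 (hgo (some (Sum.inl k)))
    refine (show Tendsto (fun N => tau k (g N)) atTop (𝓝 (mom α k)) by simpa using h1.add_const (mom α k)).congr
      fun N => htau N k
  · obtain ⟨η, hη, hη'⟩ : ∃ η : ℝ, 0 < η ∧ (√α + 1 + η) ^ 2 < (1 + √α) ^ 2 + δ := by
      have hc : Tendsto (fun η : ℝ => (√α + 1 + η) ^ 2) (𝓝[>] 0) (𝓝 ((√α + 1) ^ 2)) := by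
        have : Continuous fun η : ℝ => (√α + 1 + η) ^ 2 := by fun_prop
        simpa using (this.tendsto 0).mono_left nhdsWithin_le_nhds
      obtain ⟨η, a, b⟩ := ((hc.eventually (eventually_lt_nhds
        (show (√α + 1) ^ 2 < (1 + √α) ^ 2 + δ by linarith [show (√α + 1) ^ 2 = (1 + √α) ^ 2 by ring]))).and self_mem_nhdsWithin).exists
      exact ⟨η, b, a⟩
    obtain ⟨i, hi⟩ := exists_nat_one_div_lt (half_pos hη)
    have hsn : ∀ᶠ N : ℕ in atTop, 1 / √(N:ℝ) < η / 2 :=
      ((tendsto_const_nhds (x := (1:ℝ))).div_atTop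
        (Real.tendsto_sqrt_atTop.comp tendsto_natCast_atTop_atTop)).eventually (eventually_lt_nhds (half_pos hη))
    filter_upwards [(hgo (some (Sum.inr i))).eventually (eventually_lt_nhds one_pos), hsn,
      eventually_gt_atTop 0] with N hN hs hN0
    have hN' : (0:ℝ) < N := by exact_mod_cast hN0
    have hnot : g N ∉ E i N := fun hmem => by
      simp only [G, Set.indicator_of_mem hmem] at hN
      exact lt_irrefl _ hN
    intro j
    refine (htop N _ (fun v hv => le_of_not_gt fun hlt => hnot ⟨v, hv, hlt⟩) j).trans ?_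
    refine le_trans ?_ hη'.le
    set s := √(N:ℝ)
    have hs0 : 0 < s := Real.sqrt_pos.2 hN'
    have hMs : √(⌊α * (N:ℝ)⌋₊ : ℝ) ≤ √α * s := by
      rw [← Real.sqrt_mul hα.le]
      exact Real.sqrt_le_sqrt (Nat.floor_le (by positivity))
    have hss : s * s = N := Real.mul_self_sqrt hN'.le
    have h1s : 1 ≤ η / 2 * s := by rw [div_lt_iff₀ hs0] at hs; linarith
    rw [div_le_iff₀ hN']
    refine le_trans (pow_le_pow_left₀ (by positivity) (show _ ≤ (√α + 1 + η) * s from ?_) 2)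
      (le_of_eq (by rw [mul_pow, sq s, hss]))
    linarith [mul_le_mul_of_nonneg_right hi.le hs0.le]

lemma Spec.mom_nonneg {α : ℝ} {lam : ∀ N : ℕ, Fin N → ℝ} (h : Spec α lam) (k : ℕ) : 0 ≤ mom α k :=
  ge_of_tendsto (h.moment k) (.of_forall fun N =>
    div_nonneg (Finset.sum_nonneg fun i _ => pow_nonneg (h.nonneg N i) k) (Nat.cast_nonneg _))

lemma Spec.mom_le {α : ℝ} {lam : ∀ N : ℕ, Fin N → ℝ} (h : Spec α lam) (k : ℕ) :
    mom α k ≤ ((1 + √α) ^ 2) ^ k := by
  have hc : Tendsto (fun δ : ℝ => ((1 + √α) ^ 2 + δ) ^ k) (𝓝[>] 0) (𝓝 (((1 + √α) ^ 2) ^ k)) := by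
    have : Continuous fun δ : ℝ => ((1 + √α) ^ 2 + δ) ^ k := by fun_prop
    simpa using (this.tendsto 0).mono_left nhdsWithin_le_nhds
  refine ge_of_tendsto hc ?_
  filter_upwards [self_mem_nhdsWithin] with δ hδ
  refine le_of_tendsto (h.moment k) ?_
  filter_upwards [h.top δ hδ, eventually_gt_atTop 0] with N hN hN0
  rw [div_le_iff₀ (by exact_mod_cast hN0)]
  refine (Finset.sum_le_card_nsmul _ _ _ fun i _ => pow_le_pow_left₀ (h.nonneg N i) (hN i) k).trans_eq ?_
  simp [mul_comm]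

/-- moments determine the weak limit on a bounded interval -/
lemma weak_of_moments {μ : Measure ℝ} [IsProbabilityMeasure μ] {L : ℝ} (hL : ∀ᵐ x ∂μ, x ∈ Set.Icc 0 L)
    {lam : ∀ N : ℕ, Fin N → ℝ} (h0 : ∀ N k, 0 ≤ lam N k) (hb : ∀ᶠ N : ℕ in atTop, ∀ i, lam N i ≤ L)
    (hm : ∀ k : ℕ, Tendsto (fun N : ℕ => (∑ i, lam N i ^ k) / (N:ℝ)) atTop (𝓝 (∫ x, x ^ k ∂μ)))
    (g : BoundedContinuousFunction ℝ ℝ) :
    Tendsto (fun N : ℕ => (∑ i, g (lam N i)) / (N:ℝ)) atTop (𝓝 (∫ x, g x ∂μ)) := by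
  rw [Metric.tendsto_nhds]
  intro ε hε
  obtain ⟨p, hp⟩ := exists_polynomial_near_of_continuousOn 0 L g g.continuous.continuousOn (ε / 4) (by linarith)
  have hpow : ∀ k : ℕ, Integrable (fun x : ℝ => x ^ k) μ := fun k =>
    Integrable.of_bound (continuous_pow k).aestronglyMeasurable (L ^ k) (hL.mono fun x hx => by
      rw [Real.norm_eq_abs, abs_of_nonneg (pow_nonneg hx.1 _)]
      exact pow_le_pow_left₀ hx.1 hx.2 k)
  have hpi : Integrable (fun x => p.eval x) μ := by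
    simp only [Polynomial.eval_eq_sum_range]
    exact integrable_finsetSum _ fun k _ => (hpow k).const_mul _
  have hpe : Tendsto (fun N : ℕ => (∑ i, p.eval (lam N i)) / (N:ℝ)) atTop (𝓝 (∫ x, p.eval x ∂μ)) := by
    simp only [Polynomial.eval_eq_sum_range]
    rw [integral_finsetSum _ fun k _ => (hpow k).const_mul _]
    refine (tendsto_finsetSum _ fun k _ => ?_).congr (f₁ := fun N : ℕ =>
      ∑ k ∈ Finset.range (p.natDegree + 1), p.coeff k * ((∑ i, lam N i ^ k) / (N:ℝ))) fun N => ?_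
    · rw [integral_const_mul]; exact (hm k).const_mul _
    · rw [Finset.sum_comm, Finset.sum_div]
      exact Finset.sum_congr rfl fun k _ => by rw [← mul_div_assoc, Finset.mul_sum]
  have hint : |∫ x, g x ∂μ - ∫ x, p.eval x ∂μ| ≤ ε / 4 := by
    rw [← integral_sub (g.integrable μ) hpi, ← Real.norm_eq_abs]
    refine (norm_integral_le_of_norm_le_const (C := ε / 4) (hL.mono fun x hx => ?_)).trans_eq (by simp)
    rw [Real.norm_eq_abs, abs_sub_comm]
    exact (hp x hx).le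
  filter_upwards [hb, Metric.tendsto_nhds.1 hpe (ε / 4) (by linarith), eventually_gt_atTop 0] with N hN h2 hN0
  have hN' : (0:ℝ) < N := by exact_mod_cast hN0
  have h3 : |(∑ i, g (lam N i)) / (N:ℝ) - (∑ i, p.eval (lam N i)) / (N:ℝ)| ≤ ε / 4 := by
    rw [← sub_div, ← Finset.sum_sub_distrib, abs_div, abs_of_pos hN', div_le_iff₀ hN']
    refine (Finset.abs_sum_le_sum_abs _ _).trans ((Finset.sum_le_card_nsmul _ _ (ε / 4) fun i _ => ?_).trans_eq ?_)
    · rw [abs_sub_comm]; exact (hp _ ⟨h0 N i, hN i⟩).le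
    · simp [mul_comm]
  rw [Real.dist_eq] at h2 ⊢
  have a1 := abs_le.1 hint
  have a2 := abs_le.1 h3
  have a3 := abs_lt.1 h2
  rw [abs_lt]
  constructor <;> linarith

/-- the law with the limiting moments: compactly supported, with top `(1 + √α) ^ 2` -/
theorem exists_law {α : ℝ} (hα : 0 < α) {lam : ∀ N : ℕ, Fin N → ℝ} (h : Spec α lam) :
    ∃ μ : Measure ℝ, IsProbabilityMeasure μ ∧ IsCompact μ.support ∧
      μ.support ⊆ Set.Icc 0 ((1 + √α) ^ 2) ∧ sSup μ.support = (1 + √α) ^ 2 ∧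
      ∀ k : ℕ, ∫ x, x ^ k ∂μ = mom α k := by
  classical
  set b0 := (1 + √α) ^ 2
  have hb0 : 0 ≤ b0 := sq_nonneg _
  set K := Set.Icc (0:ℝ) (b0 + 1)
  have hK : (0:ℝ) ≤ b0 + 1 := by linarith
  set f : ∀ N : ℕ, Fin N → K := fun N i => Set.projIcc 0 (b0 + 1) hK (lam N i)
  set η : ℕ → ProbabilityMeasure K := fun N =>
    if hN : 0 < N then
      haveI : Nonempty (Fin N) := ⟨⟨0, hN⟩⟩
      ⟨(PMF.uniformOfFintype (Fin N)).toMeasure.map (f N),
        Measure.isProbabilityMeasure_map (measurable_of_countable _).aemeasurable⟩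
    else ⟨Measure.dirac ⟨0, le_rfl, hK⟩, inferInstance⟩
  obtain ⟨x, -, hx⟩ := isCompact_univ.ultrafilter_le_nhds
    ((Ultrafilter.of (atTop : Filter ℕ)).map η) (by simp)
  have hconv : Tendsto η (Ultrafilter.of (atTop : Filter ℕ) : Filter ℕ) (𝓝 x) := hx
  set ν : Measure K := (x : Measure K)
  set μ : Measure ℝ := ν.map Subtype.val
  have hμp : IsProbabilityMeasure μ := Measure.isProbabilityMeasure_map (by fun_prop)
  have hmom : ∀ k : ℕ, ∫ y, y ^ k ∂μ = mom α k := by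
    intro k
    set F : BoundedContinuousFunction K ℝ := BoundedContinuousFunction.mkOfCompact ⟨fun y => (y:ℝ) ^ k, by fun_prop⟩
    rw [integral_map (by fun_prop) (by fun_prop)]
    show ∫ y, F y ∂(x : Measure K) = _
    refine tendsto_nhds_unique
      ((ProbabilityMeasure.continuous_integral_boundedContinuousFunction F).continuousAt.tendsto.comp hconv)
      (((h.moment k).mono_left (Ultrafilter.of_le atTop)).congr' ?_)
    refine Filter.Eventually.filter_mono (Ultrafilter.of_le atTop) ?_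
    filter_upwards [h.top 1 one_pos, eventually_gt_atTop 0] with N hN hN0
    have : Nonempty (Fin N) := ⟨⟨0, hN0⟩⟩
    show _ = ∫ y, F y ∂((η N : ProbabilityMeasure K) : Measure K)
    have he : ((η N : ProbabilityMeasure K) : Measure K) =
        (PMF.uniformOfFintype (Fin N)).toMeasure.map (f N) := by
      simp [η, hN0]
    rw [he]
    rw [integral_map (measurable_of_countable _).aemeasurable F.continuous.aestronglyMeasurable,
      PMF.integral_eq_sum, Finset.sum_div]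
    refine Finset.sum_congr rfl fun i _ => ?_
    simp [F, f, Set.projIcc_of_mem hK (show lam N i ∈ Set.Icc 0 (b0 + 1) from ⟨h.nonneg N i, hN i⟩),
      div_eq_inv_mul]
  have hKae : ∀ᵐ y ∂μ, y ∈ K :=
    (ae_map_iff (by fun_prop) measurableSet_Icc).2 (.of_forall fun y => y.2)
  have hint : ∀ k : ℕ, Integrable (fun y : ℝ => y ^ k) μ := fun k =>
    Integrable.of_bound (continuous_pow k).aestronglyMeasurable ((b0 + 1) ^ k) (hKae.mono fun y hy => by
      rw [Real.norm_eq_abs, abs_of_nonneg (pow_nonneg hy.1 _)]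
      exact pow_le_pow_left₀ hy.1 hy.2 k)
  have htail : ∀ r, b0 < r → μ (Set.Ioi r) = 0 := by
    intro r hr
    have hr0 : 0 < r := hb0.trans_lt hr
    have hle : ∀ k : ℕ, μ.real (Set.Ioi r) ≤ (b0 / r) ^ k := fun k => by
      rw [div_pow, le_div_iff₀ (pow_pos hr0 k), mul_comm]
      refine le_trans (le_trans ?_ (mul_meas_ge_le_integral_of_nonneg
        (hKae.mono fun y hy => pow_nonneg hy.1 k) (hint k) (r ^ k))) ((hmom k).le.trans (h.mom_le k))
      exact mul_le_mul_of_nonneg_left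
        (measureReal_mono fun y (hy : r < y) => pow_le_pow_left₀ hr0.le hy.le k) (pow_nonneg hr0.le k)
    have h0 : μ.real (Set.Ioi r) ≤ 0 := ge_of_tendsto
      (tendsto_pow_atTop_nhds_zero_of_lt_one (by positivity) ((div_lt_one hr0).2 hr)) (.of_forall hle)
    exact (measureReal_eq_zero_iff).1 (le_antisymm h0 measureReal_nonneg)
  have hsupp : μ.support ⊆ Set.Icc 0 b0 := by
    refine Measure.support_subset_of_isClosed isClosed_Icc ?_
    have h2 : ∀ᵐ y ∂μ, ∀ n : ℕ, y ≤ b0 + 1 / ((n:ℝ) + 1) := ae_all_iff.2 fun n => by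
      rw [ae_iff]
      have h1 : (0:ℝ) < 1 / ((n:ℝ) + 1) := by positivity
      rw [show {y : ℝ | ¬y ≤ b0 + 1 / ((n:ℝ) + 1)} = Set.Ioi (b0 + 1 / ((n:ℝ) + 1)) by ext y; simp]
      exact htail _ (by linarith)
    filter_upwards [hKae, h2] with y hy hy2
    refine ⟨hy.1, le_of_forall_pos_le_add fun d hd => ?_⟩
    obtain ⟨n, hn⟩ := exists_nat_one_div_lt hd
    linarith [hy2 n]
  have hne : μ.support.Nonempty := Measure.nonempty_support (IsProbabilityMeasure.ne_zero μ)
  refine ⟨μ, hμp, isCompact_Icc.of_isClosed_subset Measure.isClosed_support hsupp, hsupp, ?_, hmom⟩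
  refine le_antisymm (csSup_le hne fun y hy => (hsupp hy).2) ?_
  by_contra hlt
  push Not at hlt
  set s := sSup μ.support
  have hs0 : 0 ≤ s := by
    obtain ⟨y, hy⟩ := hne
    exact (hsupp hy).1.trans (le_csSup (bddAbove_Icc.mono hsupp) hy)
  refine mom_growth hα hs0 hlt h.mom_nonneg fun k => ?_
  rw [← hmom k]
  calc ∫ y, y ^ k ∂μ ≤ ∫ _y, s ^ k ∂μ := by
        refine integral_mono_ae (hint k) (integrable_const _) ?_
        filter_upwards [Measure.support_mem_ae (μ := μ)] with y hy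
        exact pow_le_pow_left₀ (hsupp hy).1 (le_csSup (bddAbove_Icc.mono hsupp) hy) k
    _ = s ^ k := by simp

end Vale.Agent.P166.Pattern
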