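import Vale.Agent.P166.Pattern.Model

/-!
Superadditivity of the mean log partition function and existence of its limit.
-/

open MeasureTheory ProbabilityTheory Filter Set
open scoped Topology

noncomputable section

namespace Vale.Agent.P166.Pattern

variable {ι : Type*} [Fintype ι] [DecidableEq ι]

/-- uniform weights on configurations -/
def w0 (ι : Type*) [Fintype ι] : (ι → Bool) → ℝ := fun _ => ((2:ℝ) ^ Fintype.card ι)⁻¹

/-- uniform weights on sites -/
def unif (ι : Type*) [Fintype ι] : ι → ℝ := fun _ => (Fintype.card ι : ℝ)⁻¹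

lemma w0_pos (σ : ι → Bool) : 0 < w0 ι σ := by unfold w0; positivity

lemma sum_w0 : ∑ σ, w0 ι σ = 1 := by
  simp [w0, Finset.card_univ, Fintype.card_fun]

omit [DecidableEq ι] in
lemma unif_mem (h : 0 < Fintype.card ι) : unif ι ∈ Simplex ι := by
  refine ⟨fun i => by unfold unif; positivity, ?_⟩
  simp only [unif, Finset.sum_const, Finset.card_univ, nsmul_eq_mul]
  exact mul_inv_cancel₀ (by positivity)

/-- pull-back along an injection preserves products of one probability measure -/
lemma mp_inj {α β Y : Type*} [Fintype α] [Fintype β] [MeasurableSpace Y] (μ : Measure Y)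
    [IsProbabilityMeasure μ] {e : α → β} (he : Function.Injective e) :
    MeasurePreserving (fun x : β → Y => fun a => x (e a))
      (Measure.pi fun _ : β => μ) (Measure.pi fun _ : α => μ) := by
  classical
  have hm : Measurable fun x : β → Y => fun a => x (e a) :=
    measurable_pi_lambda _ fun a => measurable_pi_apply (e a)
  refine ⟨hm, Eq.symm <| Measure.pi_eq fun s hs => ?_⟩
  rw [Measure.map_apply hm (MeasurableSet.univ_pi hs)]
  have hpre : (fun x : β → Y => fun a => x (e a)) ⁻¹' Set.univ.pi s =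
      Set.univ.pi (Function.extend e s fun _ => Set.univ) := by
    ext x
    simp only [Set.mem_preimage, Set.mem_univ_pi]
    refine ⟨fun h b => ?_, fun h a => ?_⟩
    · by_cases hb : ∃ a, e a = b
      · obtain ⟨a, rfl⟩ := hb
        rw [he.extend_apply]; exact h a
      · rw [Function.extend_apply' _ _ _ hb]; trivial
    · simpa [he.extend_apply] using h (e a)
  rw [hpre, Measure.pi_pi, ← Finset.prod_subset (Finset.subset_univ (Finset.univ.image e)) fun b _ hb => ?_,
    Finset.prod_image fun a _ a' _ h => he h]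
  · exact Finset.prod_congr rfl fun a _ => by rw [he.extend_apply]
  · rw [Function.extend_apply' _ _ _ (by simpa using hb), measure_univ]

/-- restriction to a block of sites and to a set of patterns -/
lemma mp_restrict {κ : Type*} [Fintype κ] {M c : ℕ} {e : Fin c → Fin M} (he : Function.Injective e)
    {f : κ → ι} (hf : Function.Injective f) :
    MeasurePreserving (fun g : Fin M → ι → ℝ => fun j i => g (e j) (f i)) (pats ι M) (pats κ c) := by
  have h2 : MeasurePreserving (fun g : Fin c → ι → ℝ => fun j i => g j (f i)) (pats ι c) (pats κ c) :=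
    measurePreserving_pi (fun _ : Fin c => gauss ι) (fun _ : Fin c => gauss κ)
      fun _ => mp_inj (gaussianReal 0 1) hf
  exact h2.comp (mp_inj (gauss ι) he)

/-- mean log partition function of the uniform system -/
def fN (b : ℝ) (n M : ℕ) : ℝ := Fw b (w0 (Fin n)) (fun _ : Fin M => unif (Fin n))

lemma Fw_congr (b : ℝ) {n : ℕ} (e : Fin n ≃ ι) (M : ℕ) :
    Fw b (w0 ι) (fun _ : Fin M => unif ι) = fN b n M := by
  have hc : Fintype.card ι = n := by rw [← Fintype.card_congr e, Fintype.card_fin]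
  have hmp : MeasurePreserving (fun g : Fin M → ι → ℝ => fun j i => g j (e i)) (pats ι M) (pats (Fin n) M) :=
    mp_restrict (fun _ _ h => h) e.injective
  rw [fN, Fw, Fw, ← hmp.map_eq, integral_map hmp.measurable.aemeasurable
    (continuous_Lw b w0_pos _).aestronglyMeasurable]
  refine integral_congr_ae (.of_forall fun g => ?_)
  simp only [Lw]
  congr 1
  refine Fintype.sum_equiv (e.arrowCongr (Equiv.refl Bool)).symm _ _ fun σ => ?_
  have hx : ∀ k, X (unif ι) (g k) σ = X (unif (Fin n)) (fun i => g k (e i)) fun i => σ (e i) := fun k => by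
    simp only [X, lin, co, unif, hc, Fintype.card_fin]
    exact (Fintype.sum_equiv e _ _ fun i => rfl).symm
  simp only [en, hx, w0, hc, Fintype.card_fin]
  rfl

/-- cost of one pattern -/
def cb (b : ℝ) : ℝ := (√(1 - b))⁻¹ - 1

lemma cb_nonneg {b : ℝ} (hb0 : 0 ≤ b) (hb : b < 1) : 0 ≤ cb b := by
  rw [cb, sub_nonneg]
  exact one_le_inv_iff₀.2 ⟨Real.sqrt_pos.2 (by linarith), Real.sqrt_le_one.2 (by linarith)⟩

lemma psi_bounds {b : ℝ} (hb0 : 0 ≤ b) (hb : b < 1) {w : (ι → Bool) → ℝ} (hw : ∀ σ, 0 < w σ)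
    {v : ι → ℝ} (hv : v ∈ Simplex ι) :
    Real.log (∑ σ, w σ) ≤ psi b w v ∧ psi b w v ≤ Real.log (∑ σ, w σ) + cb b := by
  have hW : 0 < ∑ σ, w σ := Finset.sum_pos (fun σ _ => hw σ) Finset.univ_nonempty
  set W := ∑ σ, w σ
  set Y := fun g => ∑ σ, w σ / W * Real.exp (b / 2 * X v g σ ^ 2) with hY
  have hYpos : ∀ g, 0 < Y g := fun g =>
    Finset.sum_pos (fun σ _ => mul_pos (div_pos (hw σ) hW) (Real.exp_pos _)) Finset.univ_nonempty
  have hY1 : ∀ g, 1 ≤ Y g := fun g => by
    calc (1:ℝ) = ∑ σ, w σ / W * 1 := by simp [← Finset.sum_div, W, div_self hW.ne']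
      _ ≤ _ := Finset.sum_le_sum fun σ _ =>
          mul_le_mul_of_nonneg_left (Real.one_le_exp (by positivity)) (div_pos (hw σ) hW).le
  have he : ∀ g, Real.log (∑ σ, w σ * Real.exp (b / 2 * X v g σ ^ 2)) = Real.log W + Real.log (Y g) := fun g => by
    rw [← Real.log_mul hW.ne' (hYpos g).ne', hY, Finset.mul_sum]
    congr 1; exact Finset.sum_congr rfl fun σ _ => by field_simp
  have hu : ∀ σ, ∑ i, co v σ i ^ 2 = 1 := fun σ => by
    rw [← cov_co_self hv σ]; exact Finset.sum_congr rfl fun k _ => sq _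
  have hi : ∀ σ, Integrable (fun g => Real.exp (b / 2 * X v g σ ^ 2)) (gauss ι) := fun σ =>
    integrable_linear (co v σ) (hu σ) (F := fun t => Real.exp (b / 2 * t ^ 2)) (integrable_exp_sq (by linarith))
  have hYi : Integrable Y (gauss ι) := integrable_finsetSum _ fun σ _ => (hi σ).const_mul _
  have hYc : Continuous Y := by
    have := fun σ => continuous_X v σ
    fun_prop
  have hYv : ∫ g, Y g ∂gauss ι = (√(1 - b))⁻¹ := by
    rw [hY, integral_finsetSum _ fun σ _ => (hi σ).const_mul _]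
    have h1 : ∀ σ, ∫ g, Real.exp (b / 2 * X v g σ ^ 2) ∂gauss ι = (√(1 - b))⁻¹ := fun σ => by
      rw [show (∫ g, Real.exp (b / 2 * X v g σ ^ 2) ∂gauss ι) = ∫ t, Real.exp (b / 2 * t ^ 2) ∂gaussianReal 0 1
        from integral_linear (co v σ) (hu σ) (F := fun t => Real.exp (b / 2 * t ^ 2)) (by fun_prop),
        integral_exp_sq (by linarith), show 1 - 2 * (b / 2) = 1 - b by ring]
    simp only [integral_const_mul, h1, ← Finset.sum_mul, ← Finset.sum_div, W, div_self hW.ne', one_mul]
  have hl : Integrable (fun g => Real.log (Y g)) (gauss ι) :=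
    Integrable.mono' hYi (hYc.log fun g => (hYpos g).ne').aestronglyMeasurable (.of_forall fun g => by
      rw [Real.norm_eq_abs, abs_of_nonneg (Real.log_nonneg (hY1 g))]
      linarith [Real.log_le_sub_one_of_pos (hYpos g)])
  have e : psi b w v = Real.log W + ∫ g, Real.log (Y g) ∂gauss ι := by
    simp only [psi, he]
    rw [integral_add (integrable_const _) hl]; simp
  rw [e]
  refine ⟨le_add_of_nonneg_right (integral_nonneg fun g => Real.log_nonneg (hY1 g)), add_le_add le_rfl ?_⟩
  refine (integral_mono hl (hYi.sub (integrable_const 1)) fun g => Real.log_le_sub_one_of_pos (hYpos g)).trans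
    (le_of_eq ?_)
  simp only [Pi.sub_apply]
  rw [integral_sub hYi (integrable_const _), hYv]
  simp [cb]

lemma fN_succ {b : ℝ} (hb0 : 0 ≤ b) (hb : b < 1) {n : ℕ} (hn : 0 < n) (k : ℕ) :
    fN b n k ≤ fN b n (k + 1) ∧ fN b n (k + 1) ≤ fN b n k + cb b := by
  set v := unif (Fin n)
  have hv : v ∈ Simplex (Fin n) := unif_mem (by simpa using hn)
  have hc : (fun _ : Fin (k + 1) => v) = Fin.cons v (fun _ : Fin k => v) := by
    funext j; refine Fin.cases ?_ (fun i => ?_) j <;> simp
  have h := (Fw_cons hb0 (w := w0 (Fin n)) w0_pos v (fun _ : Fin k => v))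
  have e : fN b n (k + 1) =
      ∫ g, psi b (fun σ => w0 (Fin n) σ * Real.exp (en b (fun _ : Fin k => v) g σ)) v ∂pats (Fin n) k := by
    rw [fN, hc]; exact h.2.1
  have hp := fun g : Fin k → Fin n → ℝ =>
    psi_bounds hb0 hb (fun σ => mul_pos (w0_pos σ) (Real.exp_pos (en b (fun _ => v) g σ))) hv
  have hL : Integrable (fun g => Real.log (∑ σ, w0 (Fin n) σ * Real.exp (en b (fun _ => v) g σ)))
      (pats (Fin n) k) := integrable_Lw hb0 w0_pos _
  rw [e]
  refine ⟨integral_mono hL h.2.2.2 fun g => (hp g).1, ?_⟩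
  refine (integral_mono h.2.2.2 (hL.add (integrable_const (cb b))) fun g => (hp g).2).trans (le_of_eq ?_)
  simp only [Pi.add_apply]
  rw [integral_add hL (integrable_const _)]
  simp [fN, Fw, Lw, v]

lemma fN_lip {b : ℝ} (hb0 : 0 ≤ b) (hb : b < 1) {n : ℕ} (hn : 0 < n) (k j : ℕ) :
    fN b n k - cb b * |(j:ℝ) - k| ≤ fN b n j := by
  have hc := cb_nonneg hb0 hb
  have up : ∀ k d, fN b n k ≤ fN b n (k + d) ∧ fN b n (k + d) ≤ fN b n k + d * cb b := by
    intro k d
    induction d with
    | zero => simp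
    | succ d ih =>
      obtain ⟨a, c⟩ := fN_succ hb0 hb hn (k + d)
      push_cast; rw [← add_assoc]
      constructor <;> linarith
  rcases le_total k j with h | h
  · obtain ⟨d, rfl⟩ := Nat.exists_eq_add_of_le h
    nlinarith [(up k d).1, abs_nonneg ((↑(k + d) : ℝ) - k)]
  · obtain ⟨d, rfl⟩ := Nat.exists_eq_add_of_le h
    have := (up j d).2
    push_cast
    rw [show (j:ℝ) - (j + d) = -(d:ℝ) by ring, abs_neg, Nat.abs_cast]
    linarith

lemma fN_zero (b : ℝ) (n : ℕ) : fN b n 0 = 0 := by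
  simp [fN, Fw, Lw, en, sum_w0]

lemma fN_nonneg {b : ℝ} (hb0 : 0 ≤ b) (n k : ℕ) : 0 ≤ fN b n k := by
  refine integral_nonneg fun g => ?_
  have := (Lw_bounds hb0 (w0_pos (ι := Fin n)) (fun _ : Fin k => unif (Fin n)) g).1
  rwa [sum_w0, Real.log_one] at this

lemma fN_le {b : ℝ} (hb0 : 0 ≤ b) (hb : b < 1) {n : ℕ} (hn : 0 < n) : ∀ k : ℕ, fN b n k ≤ k * cb b
  | 0 => by simp [fN_zero]
  | k + 1 => by
    have := fN_le hb0 hb hn k
    push_cast
    linarith [(fN_succ hb0 hb hn k).2]

section blocks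

variable {A : Type*} [Fintype A] [DecidableEq A]

/-- number of patterns assigned to `a` -/
def cnt {M : ℕ} (s : Fin M → A) (a : A) : ℕ := (Finset.univ.filter fun k => s k = a).card

/-- weights supported on one block -/
def ub (n : A → ℕ) (a : A) : (Σ a, Fin (n a)) → ℝ := fun i => if i.1 = a then ((n a : ℝ))⁻¹ else 0

lemma ub_mem {n : A → ℕ} (hn : ∀ a, 0 < n a) (a : A) : ub n a ∈ Simplex (Σ a, Fin (n a)) := by
  refine ⟨fun i => by unfold ub; positivity, ?_⟩
  rw [Fintype.sum_sigma, Finset.sum_eq_single a]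
  · simp only [ub, if_true, Finset.sum_const, Finset.card_univ, Fintype.card_fin, nsmul_eq_mul]
    exact mul_inv_cancel₀ (by exact_mod_cast (hn a).ne')
  · intro a' _ h; simp [ub, h]
  · simp

lemma Fw_blocks {b : ℝ} (hb0 : 0 ≤ b) (n : A → ℕ) {M : ℕ} (s : Fin M → A) :
    Fw b (w0 (Σ a, Fin (n a))) (fun k => ub n (s k)) = ∑ a, fN b (n a) (cnt s a) := by
  classical
  set e : ∀ a, Fin (cnt s a) → Fin M := fun a => (Finset.univ.filter fun k => s k = a).orderEmbOfFin rfl
  have he : ∀ a, Function.Injective (e a) := fun a => ((Finset.univ.filter fun k => s k = a).orderEmbOfFin rfl).injective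
  set R : ∀ a, (Fin M → (Σ a, Fin (n a)) → ℝ) → Fin (cnt s a) → Fin (n a) → ℝ :=
    fun a g j i => g (e a j) ⟨a, i⟩
  have hmp : ∀ a, MeasurePreserving (R a) (pats (Σ a, Fin (n a)) M) (pats (Fin (n a)) (cnt s a)) := fun a =>
    mp_restrict (he a) fun i j h => by simpa using h
  have key : ∀ g, Lw b (w0 (Σ a, Fin (n a))) (fun k => ub n (s k)) g =
      ∑ a, Lw b (w0 (Fin (n a))) (fun _ => unif (Fin (n a))) (R a g) := by
    intro g
    simp only [Lw]
    rw [← Real.log_prod (fun a _ => (sum_w_pos (w0_pos (ι := Fin (n a))) _).ne')]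
    congr 1
    rw [Fintype.prod_sum]
    refine Fintype.sum_equiv (Equiv.piCurry fun a (_ : Fin (n a)) => Bool) _ _ fun σ => ?_
    rw [Finset.prod_mul_distrib, ← Real.exp_sum]
    congr 1
    · simp only [w0]
      rw [Finset.prod_inv_distrib, Finset.prod_pow_eq_pow_sum, Fintype.card_sigma]
    · congr 1
      simp only [en]
      rw [← Finset.sum_fiberwise Finset.univ s]
      refine Finset.sum_congr rfl fun a _ => ?_
      conv_lhs => rw [← Finset.map_orderEmbOfFin_univ (Finset.univ.filter fun k => s k = a) rfl, Finset.sum_map]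
      refine Finset.sum_congr rfl fun j _ => ?_
      have hs : s (e a j) = a := (Finset.mem_filter.1 (Finset.orderEmbOfFin_mem _ rfl j)).2
      have hx : X (ub n (s (e a j))) (g (e a j)) σ =
          X (unif (Fin (n a))) (R a g j) (fun i => σ ⟨a, i⟩) := by
        rw [hs]
        simp only [X, lin, co, R]
        rw [Fintype.sum_sigma, Finset.sum_eq_single a]
        · simp [ub, unif]
        · intro a' _ h; simp [ub, h]
        · simp
      change b / 2 * X (ub n (s (e a j))) (g (e a j)) σ ^ 2 = _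
      rw [hx]; rfl
  have hint : ∀ a, Integrable (fun g => Lw b (w0 (Fin (n a))) (fun _ => unif (Fin (n a))) (R a g))
      (pats (Σ a, Fin (n a)) M) := fun a =>
    ((hmp a).integrable_comp (continuous_Lw b w0_pos _).aestronglyMeasurable).2 (integrable_Lw hb0 w0_pos _)
  simp only [Fw, key]
  rw [integral_finsetSum _ fun a _ => hint a]
  refine Finset.sum_congr rfl fun a _ => ?_
  rw [fN, Fw, ← (hmp a).map_eq, integral_map (hmp a).measurable.aemeasurable
    (continuous_Lw b w0_pos _).aestronglyMeasurable]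

lemma moments (lam : A → ℝ) (hl : ∑ a, lam a = 1) (a : A) : ∀ M : ℕ,
    (∑ s : Fin M → A, ∏ k, lam (s k) = 1) ∧
    (∑ s : Fin M → A, (∏ k, lam (s k)) * ((cnt s a : ℝ) - lam a * M) = 0) ∧
    (∑ s : Fin M → A, (∏ k, lam (s k)) * ((cnt s a : ℝ) - lam a * M) ^ 2 = M * (lam a * (1 - lam a))) := by
  intro M
  induction M with
  | zero => simp [cnt]
  | succ M ih =>
    obtain ⟨h0, h1, h2⟩ := ih
    have hc : ∀ (c : A) (s : Fin M → A), (cnt (Fin.cons (α := fun _ => A) c s) a : ℝ) =
        (if c = a then 1 else 0) + cnt s a := fun c s => by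
      simp only [cnt, ← Finset.sum_boole, Fin.sum_univ_succ, Fin.cons_zero, Fin.cons_succ]
    have hp : ∀ (c : A) (s : Fin M → A),
        ∏ k, lam (Fin.cons (α := fun _ => A) c s k) = lam c * ∏ k, lam (s k) :=
      fun c s => by simp [Fin.prod_univ_succ]
    simp only [← (Fin.consEquiv fun _ : Fin (M + 1) => A).sum_comp, Fintype.sum_prod_type]
    simp only [Fin.consEquiv, Equiv.coe_fn_mk, hc, hp, Nat.cast_succ]
    have key : ∀ x y : ℝ, ∀ c : A, ∑ s : Fin M → A, lam c * (∏ k, lam (s k)) *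
        (x + y * ((cnt s a : ℝ) - lam a * M) + (((cnt s a : ℝ) - lam a * M)) ^ 2 * 0) = lam c * x := by
      intro x y c
      simp only [mul_zero, add_zero, mul_add, Finset.sum_add_distrib]
      rw [← Finset.sum_mul, ← Finset.mul_sum, h0,
        show ∑ s : Fin M → A, lam c * (∏ k, lam (s k)) * (y * ((cnt s a : ℝ) - lam a * M)) =
          lam c * y * ∑ s : Fin M → A, (∏ k, lam (s k)) * ((cnt s a : ℝ) - lam a * M) by
            rw [Finset.mul_sum]; exact Finset.sum_congr rfl fun s _ => by ring, h1]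
      ring
    refine ⟨?_, ?_, ?_⟩
    · simp only [← Finset.mul_sum, h0, mul_one, hl]
    · have := fun c => key ((if c = a then (1:ℝ) else 0) - lam a) 1 c
      simp only [mul_zero, add_zero, one_mul] at this
      have e : ∀ (c : A) (s : Fin M → A), (if c = a then (1:ℝ) else 0) + cnt s a - lam a * (M + 1) =
          (if c = a then (1:ℝ) else 0) - lam a + ((cnt s a : ℝ) - lam a * M) := fun c s => by ring
      simp only [e, this]
      simp only [mul_sub, mul_ite, mul_one, mul_zero, Finset.sum_sub_distrib, Finset.sum_ite_eq',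
        Finset.mem_univ, if_true, ← Finset.sum_mul, hl, one_mul, sub_self]
    · have e : ∀ (c : A) (s : Fin M → A),
          lam c * (∏ k, lam (s k)) * ((if c = a then (1:ℝ) else 0) + cnt s a - lam a * (M + 1)) ^ 2 =
          lam c * (∏ k, lam (s k)) * (((if c = a then (1:ℝ) else 0) - lam a) ^ 2 +
            2 * ((if c = a then (1:ℝ) else 0) - lam a) * ((cnt s a : ℝ) - lam a * M) +
            ((cnt s a : ℝ) - lam a * M) ^ 2 * 0) +
          lam c * ((∏ k, lam (s k)) * ((cnt s a : ℝ) - lam a * M) ^ 2) := fun c s => by ring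
      simp only [e, Finset.sum_add_distrib, key, ← Finset.mul_sum, h2]
      rw [← Finset.sum_mul, hl, one_mul]
      have e3 : ∀ c, lam c * ((if c = a then (1:ℝ) else 0) - lam a) ^ 2 =
          (if c = a then lam c * (1 - 2 * lam a) else 0) + lam c * lam a ^ 2 := fun c => by
        split <;> ring
      simp only [e3, Finset.sum_add_distrib, Finset.sum_ite_eq', Finset.mem_univ, if_true,
        ← Finset.sum_mul, hl]
      ring

theorem superadd {b : ℝ} (hb0 : 0 ≤ b) (hb : b ≤ 1 / 10) (n : A → ℕ) (hn : ∀ a, 0 < n a) (M : ℕ)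
    [Nonempty A] :
    ∑ s : Fin M → A, (∏ k, (n (s k) : ℝ) / (∑ a, n a : ℕ)) * ∑ a, fN b (n a) (cnt s a) ≤
      fN b (∑ a, n a) M := by
  set ι' := Σ a, Fin (n a)
  have hc : Fintype.card ι' = ∑ a, n a := by simp [ι', Fintype.card_sigma]
  have hN : (0:ℝ) < ((∑ a, n a : ℕ) : ℝ) := by
    exact_mod_cast Finset.sum_pos (fun a _ => hn a) Finset.univ_nonempty
  have hsum : ∑ a, (n a : ℝ) / ((∑ a, n a : ℕ) : ℝ) = 1 := by
    rw [← Finset.sum_div, ← Nat.cast_sum, div_self hN.ne']
  have h := mixture hb0 hb (fun a => (n a : ℝ) / ((∑ a, n a : ℕ) : ℝ)) (fun a => by positivity) hsum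
    (ub n) (ub_mem hn) M (w0 ι') w0_pos
  simp only [ι', Fw_blocks hb0] at h
  refine h.trans (le_of_eq ?_)
  have hmix : ∑ a, ((n a : ℝ) / ((∑ a, n a : ℕ) : ℝ)) • ub n a = unif ι' := by
    funext i
    simp only [Finset.sum_apply, Pi.smul_apply, smul_eq_mul, ub, mul_ite, mul_zero, Finset.sum_ite_eq,
      Finset.mem_univ, if_true, unif, hc]
    have : (n i.1 : ℝ) ≠ 0 := by exact_mod_cast (hn i.1).ne'
    field_simp
  rw [hmix]
  exact Fw_congr b (Fintype.equivFinOfCardEq hc).symm M

end blocks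

theorem blocks_bound {b α : ℝ} (hb0 : 0 ≤ b) (hb : b ≤ 1 / 10) (hα : 0 < α) {m q r : ℕ} (hm : 0 < m)
    (hr : 0 < r) :
    (q : ℝ) * (fN b m ⌊α * m⌋₊ - cb b * (√(α * m) + 2)) ≤
      fN b (q * m + r) ⌊α * ((q * m + r : ℕ) : ℝ)⌋₊ := by
  set n : Option (Fin q) → ℕ := fun a => a.elim r fun _ => m
  have hn : ∀ a, 0 < n a := fun a => by cases a <;> assumption
  have hsum : ∑ a, n a = q * m + r := by simp [n, Fintype.sum_option, add_comm]
  have h := superadd hb0 hb n hn ⌊α * ((q * m + r : ℕ) : ℝ)⌋₊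
  rw [hsum] at h
  refine le_trans ?_ h
  set N : ℝ := ((q * m + r : ℕ) : ℝ) with hNdef
  set M := ⌊α * N⌋₊
  have hN0 : (0:ℝ) < N := by rw [hNdef]; exact_mod_cast Nat.add_pos_right _ hr
  set lam : Option (Fin q) → ℝ := fun a => (n a : ℝ) / N
  have hl : ∑ a, lam a = 1 := by
    rw [← Finset.sum_div, ← Nat.cast_sum, hsum, ← hNdef, div_self hN0.ne']
  have hl0 : ∀ s : Fin M → Option (Fin q), 0 ≤ ∏ k, lam (s k) := fun s =>
    Finset.prod_nonneg fun k _ => by positivity
  have hc := cb_nonneg hb0 (show b < 1 by linarith)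
  set S := √(α * m)
  have hS : 0 < S := Real.sqrt_pos.2 (by positivity)
  set M0 := ⌊α * (m:ℝ)⌋₊
  calc (q:ℝ) * (fN b m M0 - cb b * (S + 2))
      = ∑ _a : Fin q, (fN b m M0 - cb b * (S + 2)) := by
        rw [Finset.sum_const, Finset.card_univ, Fintype.card_fin, nsmul_eq_mul]
    _ ≤ ∑ a : Fin q, ∑ s : Fin M → Option (Fin q), (∏ k, lam (s k)) * fN b m (cnt s (some a)) := by
        refine Finset.sum_le_sum fun a _ => ?_
        obtain ⟨m0, m1, m2⟩ := moments lam hl (some a) M
        set mu := lam (some a) * M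
        have hla : lam (some a) = (m:ℝ) / N := rfl
        have hMle : (M:ℝ) ≤ α * N := Nat.floor_le (by positivity)
        have hMge : α * N < M + 1 := Nat.lt_floor_add_one _
        have hmu : mu ≤ α * m := by
          simp only [mu, hla]; rw [div_mul_eq_mul_div, div_le_iff₀ hN0]; nlinarith
        have hmu' : α * m - 1 ≤ mu := by
          simp only [mu, hla]
          rw [div_mul_eq_mul_div, le_div_iff₀ hN0]
          have hmN : (m:ℝ) ≤ N := by
            rw [hNdef]; push_cast
            have : (1:ℝ) ≤ r := by exact_mod_cast hr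
            rcases Nat.eq_zero_or_pos q with h0 | h0
            · subst h0; exact absurd a.2 (Nat.not_lt_zero _)
            · have : (1:ℝ) ≤ q := by exact_mod_cast h0
              nlinarith
          nlinarith
        have h0 : (M0:ℝ) ≤ α * m := Nat.floor_le (by positivity)
        have h0' : α * m < M0 + 1 := Nat.lt_floor_add_one _
        have hpt : ∀ K : ℕ, fN b m M0 - cb b * (((K:ℝ) - mu) ^ 2 / (2 * S) + S / 2 + 2) ≤ fN b m K := by
          intro K
          have hl' := fN_lip hb0 (show b < 1 by linarith) hm M0 K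
          have hd : |(K:ℝ) - M0| ≤ ((K:ℝ) - mu) ^ 2 / (2 * S) + S / 2 + 2 := by
            have h3 : |(K:ℝ) - mu| ≤ ((K:ℝ) - mu) ^ 2 / (2 * S) + S / 2 := by
              rw [div_add_div _ _ (by positivity) two_ne_zero, le_div_iff₀ (by positivity)]
              nlinarith [sq_nonneg (|(K:ℝ) - mu| - S), sq_abs ((K:ℝ) - mu)]
            have := abs_sub_le (K:ℝ) mu M0
            have : |mu - M0| ≤ 2 := abs_le.2 ⟨by linarith, by linarith⟩
            linarith
          nlinarith [mul_le_mul_of_nonneg_left hd hc]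
        refine le_trans ?_ (Finset.sum_le_sum fun s _ => mul_le_mul_of_nonneg_left (hpt _) (hl0 s))
        have e : ∀ s : Fin M → Option (Fin q), (∏ k, lam (s k)) *
            (fN b m M0 - cb b * (((cnt s (some a):ℝ) - mu) ^ 2 / (2 * S) + S / 2 + 2)) =
            (∏ k, lam (s k)) * (fN b m M0 - cb b * (S / 2 + 2)) -
            cb b / (2 * S) * ((∏ k, lam (s k)) * ((cnt s (some a):ℝ) - mu) ^ 2) := fun s => by field_simp; ring
        simp only [e, Finset.sum_sub_distrib, ← Finset.sum_mul, ← Finset.mul_sum, m0, one_mul, mu, m2]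
        have hv : (M:ℝ) * (lam (some a) * (1 - lam (some a))) ≤ S * S := by
          rw [Real.mul_self_sqrt (by positivity)]
          nlinarith [mul_nonneg (Nat.cast_nonneg M : (0:ℝ) ≤ M) (sq_nonneg (lam (some a)))]
        have : cb b / (2 * S) * ((M:ℝ) * (lam (some a) * (1 - lam (some a)))) ≤ cb b * (S / 2) := by
          calc _ ≤ cb b / (2 * S) * (S * S) := mul_le_mul_of_nonneg_left hv (by positivity)
            _ = _ := by field_simp
        linarith
    _ = ∑ s : Fin M → Option (Fin q), (∏ k, lam (s k)) * ∑ a : Fin q, fN b m (cnt s (some a)) := by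
        rw [Finset.sum_comm]; simp only [Finset.mul_sum]
    _ ≤ _ := by
        refine Finset.sum_le_sum fun s _ => mul_le_mul_of_nonneg_left ?_ (hl0 s)
        rw [Fintype.sum_option]
        simp only [n, Option.elim_some, Option.elim_none]
        exact le_add_of_nonneg_left (fN_nonneg hb0 _ _)

/-- the normalised mean log partition function converges -/
theorem exists_limit {b α : ℝ} (hb0 : 0 ≤ b) (hb : b ≤ 1 / 10) (hα : 0 < α) :
    ∃ p : ℝ, Tendsto (fun N : ℕ => fN b N ⌊α * N⌋₊ / N) atTop (𝓝 p) := by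
  have hb1 : b < 1 := by linarith
  have hc := cb_nonneg hb0 hb1
  set u := fun N : ℕ => fN b N ⌊α * N⌋₊ / N
  set e := fun N : ℕ => cb b * (√(α * N) + 2) / N
  set T := fun N : ℕ => u N - e N
  have he : Tendsto e atTop (𝓝 0) := by
    have h1 : Tendsto (fun N : ℕ => (√(N:ℝ))⁻¹) atTop (𝓝 0) :=
      tendsto_inv_atTop_zero.comp (Real.tendsto_sqrt_atTop.comp tendsto_natCast_atTop_atTop)
    have h2 : Tendsto (fun N : ℕ => (2:ℝ) / N) atTop (𝓝 0) := tendsto_const_div_atTop_nhds_zero_nat 2
    have h3 : Tendsto (fun N : ℕ => cb b * (√α * (√(N:ℝ))⁻¹ + 2 / N)) atTop (𝓝 0) := by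
      simpa using ((h1.const_mul √α).add h2).const_mul (cb b)
    refine h3.congr' ?_
    filter_upwards [eventually_gt_atTop 0] with N hN
    have hs : (√(N:ℝ)) ≠ 0 := (Real.sqrt_pos.2 (by exact_mod_cast hN)).ne'
    have hN' : (N:ℝ) ≠ 0 := by exact_mod_cast hN.ne'
    simp only [e, Real.sqrt_mul hα.le]
    field_simp
    linear_combination (-(cb b * √α)) * Real.mul_self_sqrt (Nat.cast_nonneg (α := ℝ) N)
  have hTle : ∀ N, 0 < N → T N ≤ α * cb b := fun N hN => by
    have h1 := fN_le hb0 hb1 hN ⌊α * (N:ℝ)⌋₊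
    have h2 : (⌊α * (N:ℝ)⌋₊ : ℝ) ≤ α * N := Nat.floor_le (by positivity)
    have hN' : (0:ℝ) < N := by exact_mod_cast hN
    have h3 : u N ≤ α * cb b := by
      simp only [u]; rw [div_le_iff₀ hN']; nlinarith
    have : 0 ≤ e N := by simp only [e]; positivity
    simp only [T]; linarith
  have hbdd : BddAbove (Set.range fun m : ℕ => T (m + 1)) :=
    ⟨α * cb b, by rintro _ ⟨m, rfl⟩; exact hTle _ m.succ_pos⟩
  set p := sSup (Set.range fun m : ℕ => T (m + 1))
  have low : ∀ m, 0 < m → ∀ N, m < N → T m * (1 - (m:ℝ) / N) ≤ u N ∨ T m ≤ 0 := by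
    intro m hm N hN
    by_cases hT : T m ≤ 0
    · exact Or.inr hT
    left
    obtain ⟨r, q, hr, hrm, rfl⟩ : ∃ r q, 0 < r ∧ r ≤ m ∧ N = q * m + r :=
      ⟨(N - 1) % m + 1, (N - 1) / m, by omega, Nat.mod_lt _ hm,
        by have := Nat.div_add_mod' (N - 1) m; omega⟩
    have h := blocks_bound hb0 hb hα (q := q) hm hr
    set NN : ℝ := ((q * m + r : ℕ) : ℝ) with hNN
    have hN0 : (0:ℝ) < NN := by rw [hNN]; exact_mod_cast Nat.add_pos_right _ hr
    have hm0 : (0:ℝ) < m := by exact_mod_cast hm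
    have e1 : (q:ℝ) * (fN b m ⌊α * m⌋₊ - cb b * (√(α * m) + 2)) = q * m * T m := by
      simp only [T, u, e]; field_simp
    rw [e1] at h
    show T m * (1 - (m:ℝ) / NN) ≤ fN b (q * m + r) ⌊α * NN⌋₊ / NN
    rw [le_div_iff₀ hN0, show T m * (1 - (m:ℝ) / NN) * NN = T m * (NN - m) by field_simp]
    have hqm : NN - m ≤ q * m := by
      rw [hNN]; push_cast
      have : (r:ℝ) ≤ m := by exact_mod_cast hrm
      linarith
    nlinarith [mul_le_mul_of_nonneg_left hqm (le_of_lt (not_le.1 hT))]
  refine ⟨p, Metric.tendsto_atTop.2 fun ε hε => ?_⟩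
  obtain ⟨_, ⟨m, rfl⟩, hm⟩ := exists_lt_of_lt_csSup (Set.range_nonempty _)
    (show p - ε / 2 < p by linarith)
  have hd : Tendsto (fun N : ℕ => T (m + 1) * (((m + 1 : ℕ):ℝ) / N)) atTop (𝓝 0) := by
    simpa using (tendsto_const_div_atTop_nhds_zero_nat ((m + 1 : ℕ):ℝ)).const_mul (T (m + 1))
  obtain ⟨N0, hN0⟩ := eventually_atTop.1 ((he.eventually (eventually_lt_nhds hε)).and
    (hd.eventually (eventually_lt_nhds (half_pos hε))))
  refine ⟨max N0 (m + 2), fun N hN => ?_⟩
  obtain ⟨h1, h2⟩ := hN0 N (le_of_max_le_left hN)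
  have hN1 : m + 1 < N := by have := le_of_max_le_right hN; omega
  have upper : T N ≤ p := le_csSup hbdd ⟨N - 1, by simp only; congr; omega⟩
  have hu0 : 0 ≤ u N := div_nonneg (fN_nonneg hb0 _ _) (Nat.cast_nonneg _)
  rw [Real.dist_eq, abs_lt]
  constructor
  · rcases low (m + 1) m.succ_pos N hN1 with h | h
    · rw [mul_sub, mul_one] at h; linarith
    · linarith
  · simp only [T] at upper; linarith

end Vale.Agent.P166.Pattern
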