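import Vale.Agent.P166.Pattern.Quad

/-!
The quadratic pattern model: one-pattern concavity in the weight vector and the resulting
inequality for mixtures.
-/

open MeasureTheory ProbabilityTheory Filter Set
open scoped Topology

noncomputable section

namespace Vale.Agent.P166.Pattern

variable {ι : Type*} [Fintype ι] [DecidableEq ι]

/-- the value `±1` of a spin -/
def sg (s : Bool) : ℝ := if s then 1 else -1

omit [Fintype ι] [DecidableEq ι] in
lemma sg_mul_self (s : Bool) : sg s * sg s = 1 := by cases s <;> simp [sg]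

/-- coefficients of the field of a pattern with weights `v` -/
def co (v : ι → ℝ) : (ι → Bool) → ι → ℝ := fun σ i => √(v i) * sg (σ i)

/-- field of a pattern -/
def X (v g : ι → ℝ) (σ : ι → Bool) : ℝ := lin (co v) g σ

/-- probability weights on the sites -/
def Simplex (ι : Type*) [Fintype ι] : Set (ι → ℝ) := {v | (∀ i, 0 ≤ v i) ∧ ∑ i, v i = 1}

lemma cov_co {v : ι → ℝ} (hv : v ∈ Simplex ι) (σ τ : ι → Bool) :
    cov (co v) σ τ = ∑ i, v i * (sg (σ i) * sg (τ i)) := by
  refine Finset.sum_congr rfl fun i _ => ?_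
  have := Real.mul_self_sqrt (hv.1 i)
  simp only [co]
  linear_combination (sg (σ i) * sg (τ i)) * this

lemma cov_co_self {v : ι → ℝ} (hv : v ∈ Simplex ι) (σ : ι → Bool) : cov (co v) σ σ = 1 := by
  rw [cov_co hv, Finset.sum_congr rfl fun i _ => by rw [sg_mul_self, mul_one], hv.2]

lemma convex_simplex : Convex ℝ (Simplex ι) := by
  intro v hv w hw a b ha hb hab
  refine ⟨fun i => ?_, ?_⟩
  · simp only [Pi.add_apply, Pi.smul_apply, smul_eq_mul]
    exact add_nonneg (mul_nonneg ha (hv.1 i)) (mul_nonneg hb (hw.1 i))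
  · simp only [Pi.add_apply, Pi.smul_apply, smul_eq_mul, Finset.sum_add_distrib, ← Finset.mul_sum, hv.2, hw.2]
    linarith

/-- mean effect of one pattern on a log partition function with weights `w` -/
def psi (b : ℝ) (w : (ι → Bool) → ℝ) (v : ι → ℝ) : ℝ :=
  ∫ g, Real.log (∑ σ, w σ * Real.exp (b / 2 * X v g σ ^ 2)) ∂gauss ι

lemma quad_H (b : ℝ) {S : Type*} [Fintype S] (w : S → ℝ) (y : S → ℝ) :
    (quad b).H w y = Real.log (∑ σ, w σ * Real.exp (b / 2 * y σ ^ 2)) := by
  simp only [Pot.H, Pot.Z, quad]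
  congr 1; refine Finset.sum_congr rfl fun σ _ => ?_; ring_nf

theorem concaveOn_psi {b : ℝ} (hb0 : 0 ≤ b) (hb : b ≤ 1 / 10) {w : (ι → Bool) → ℝ}
    (hw : ∀ σ, 0 < w σ) : ConcaveOn ℝ (Simplex ι) (psi b w) := by
  refine ⟨convex_simplex, fun u hu v hv a c ha hc hac => ?_⟩
  have hW : 0 < ∑ σ, w σ := Finset.sum_pos (fun σ _ => hw σ) Finset.univ_nonempty
  set W := ∑ σ, w σ
  set w' := fun σ => w σ / W
  have hw' : ∀ σ, 0 < w' σ := fun σ => div_pos (hw σ) hW
  have hw1 : ∑ σ, w' σ = 1 := by simp only [w', ← Finset.sum_div]; exact div_self hW.ne'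
  have hsplit : ∀ z, psi b w z = Real.log W + ∫ g, (quad b).H w' (lin (co z) g) ∂gauss ι := by
    intro z
    have hi : Integrable (fun g => (quad b).H w' (lin (co z) g)) (gauss ι) :=
      integrable_lin _ ((quad b).smooth_H w' hw' hw1).cont ((quad b).smooth_H w' hw' hw1).p0
    rw [show Real.log W + ∫ g, (quad b).H w' (lin (co z) g) ∂gauss ι =
      ∫ g, (Real.log W + (quad b).H w' (lin (co z) g)) ∂gauss ι by
        rw [integral_add (integrable_const _) hi]; simp]
    refine integral_congr_ae (.of_forall fun g => ?_)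
    simp only [quad_H, X]
    rw [← Real.log_mul hW.ne' (Finset.sum_pos (fun σ _ => mul_pos (hw' σ) (Real.exp_pos _))
      Finset.univ_nonempty).ne', Finset.mul_sum]
    congr 1
    refine Finset.sum_congr rfl fun σ _ => ?_
    simp only [w']; field_simp
  have hm := convex_simplex hu hv ha hc hac
  have ha' : a = 1 - c := by linarith
  have key := (quad b).concave w' hw' hw1 (co u) (co v) (cov_co_self hu) (cov_co_self hv)
    (fun t ht σ τ => quad_pair_nonneg hb0 hb w' hw' hw1 _ (fun ρ => ?_) σ τ)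
    (co (a • u + c • v)) (t := c) ⟨hc, by linarith⟩ (fun σ τ => ?_)
  · simp only [smul_eq_mul, hsplit]
    rw [← ha'] at key
    have e : a * Real.log W + c * Real.log W = Real.log W := by rw [← add_mul, hac, one_mul]
    linarith
  · have a0 := Real.mul_self_sqrt (show 0 ≤ 1 - t by linarith [ht.2])
    have a1 := Real.mul_self_sqrt ht.1.le
    have e0 := cov_co_self hu ρ
    have e1 := cov_co_self hv ρ
    simp only [cov] at e0 e1
    simp only [cov, ct, Fintype.sum_sum_type, Sum.elim_inl, Sum.elim_inr]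
    have h3 : ∑ k, √(1 - t) * co u ρ k * (√(1 - t) * co u ρ k) = (1 - t) * ∑ k, co u ρ k * co u ρ k := by
      rw [Finset.mul_sum]
      exact Finset.sum_congr rfl fun k _ => by linear_combination (co u ρ k * co u ρ k) * a0
    have h4 : ∑ k, √t * co v ρ k * (√t * co v ρ k) = t * ∑ k, co v ρ k * co v ρ k := by
      rw [Finset.mul_sum]
      exact Finset.sum_congr rfl fun k _ => by linear_combination (co v ρ k * co v ρ k) * a1
    rw [h3, h4, e0, e1]
    ring
  · rw [cov_co hm, cov_co hu, cov_co hv, Finset.mul_sum, Finset.mul_sum, ← Finset.sum_add_distrib]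
    refine Finset.sum_congr rfl fun i _ => ?_
    simp only [Pi.add_apply, Pi.smul_apply, smul_eq_mul, ha']
    ring

/-- law of `M` patterns -/
def pats (ι : Type*) [Fintype ι] (M : ℕ) : Measure (Fin M → ι → ℝ) := Measure.pi fun _ => gauss ι

instance (M : ℕ) : IsProbabilityMeasure (pats ι M) := by unfold pats; infer_instance

/-- energy of a configuration -/
def en (b : ℝ) {M : ℕ} (v g : Fin M → ι → ℝ) (σ : ι → Bool) : ℝ := ∑ k, b / 2 * X (v k) (g k) σ ^ 2

/-- log partition function -/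
def Lw (b : ℝ) {M : ℕ} (w : (ι → Bool) → ℝ) (v g : Fin M → ι → ℝ) : ℝ :=
  Real.log (∑ σ, w σ * Real.exp (en b v g σ))

/-- mean log partition function -/
def Fw (b : ℝ) {M : ℕ} (w : (ι → Bool) → ℝ) (v : Fin M → ι → ℝ) : ℝ :=
  ∫ g, Lw b w v g ∂pats ι M

lemma continuous_X (v : ι → ℝ) (σ : ι → Bool) : Continuous fun g => X v g σ := by
  unfold X lin; fun_prop

lemma continuous_en (b : ℝ) {M : ℕ} (v : Fin M → ι → ℝ) (σ : ι → Bool) :
    Continuous fun g => en b v g σ := by
  unfold en X lin; fun_prop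

lemma en_nonneg {b : ℝ} (hb : 0 ≤ b) {M : ℕ} (v g : Fin M → ι → ℝ) (σ : ι → Bool) : 0 ≤ en b v g σ :=
  Finset.sum_nonneg fun k _ => by positivity

lemma sum_w_pos {w : (ι → Bool) → ℝ} (hw : ∀ σ, 0 < w σ) (h : (ι → Bool) → ℝ) :
    0 < ∑ σ, w σ * Real.exp (h σ) :=
  Finset.sum_pos (fun σ _ => mul_pos (hw σ) (Real.exp_pos _)) Finset.univ_nonempty

lemma Lw_bounds {b : ℝ} (hb : 0 ≤ b) {M : ℕ} {w : (ι → Bool) → ℝ} (hw : ∀ σ, 0 < w σ)
    (v g : Fin M → ι → ℝ) :
    Real.log (∑ σ, w σ) ≤ Lw b w v g ∧ Lw b w v g ≤ Real.log (∑ σ, w σ) + ∑ σ, en b v g σ := by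
  have hW : 0 < ∑ σ, w σ := Finset.sum_pos (fun σ _ => hw σ) Finset.univ_nonempty
  constructor
  · refine Real.log_le_log hW (Finset.sum_le_sum fun σ _ => ?_)
    exact le_mul_of_one_le_right (hw σ).le (Real.one_le_exp (en_nonneg hb v g σ))
  · rw [Lw, Real.log_le_iff_le_exp (sum_w_pos hw _), Real.exp_add, Real.exp_log hW, Finset.sum_mul]
    refine Finset.sum_le_sum fun σ _ => mul_le_mul_of_nonneg_left (Real.exp_le_exp.2 ?_) (hw σ).le
    exact Finset.single_le_sum (fun τ _ => en_nonneg hb v g τ) (Finset.mem_univ σ)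

lemma integrable_sq_X (v : ι → ℝ) (σ : ι → Bool) : Integrable (fun g => X v g σ ^ 2) (gauss ι) :=
  integrable_lin (co v) (F := fun y => y σ ^ 2) (by fun_prop)
    ((Pot.poly_eval (F := fun x => x) ⟨1, 1, fun x => by simp [Real.norm_eq_abs]⟩ σ).pow 2)

lemma integrable_en (b : ℝ) {M : ℕ} (v : Fin M → ι → ℝ) (σ : ι → Bool) :
    Integrable (fun g => en b v g σ) (pats ι M) :=
  integrable_finsetSum _ fun k _ =>
    ((measurePreserving_eval (fun _ : Fin M => gauss ι) k).integrable_comp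
      ((continuous_X (v k) σ).pow 2).aestronglyMeasurable).2 (integrable_sq_X (v k) σ) |>.const_mul (b / 2)

lemma continuous_Lw (b : ℝ) {M : ℕ} {w : (ι → Bool) → ℝ} (hw : ∀ σ, 0 < w σ) (v : Fin M → ι → ℝ) :
    Continuous (Lw b w v) := by
  have := continuous_en b v
  exact Continuous.log (by fun_prop) fun g => (sum_w_pos hw _).ne'

lemma integrable_Lw {b : ℝ} (hb : 0 ≤ b) {M : ℕ} {w : (ι → Bool) → ℝ} (hw : ∀ σ, 0 < w σ)
    (v : Fin M → ι → ℝ) : Integrable (Lw b w v) (pats ι M) := by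
  refine Integrable.mono' ((integrable_const |Real.log (∑ σ, w σ)|).add
    (integrable_finsetSum Finset.univ fun σ _ => integrable_en b v σ))
    (continuous_Lw b hw v).aestronglyMeasurable (.of_forall fun g => ?_)
  obtain ⟨l1, l2⟩ := Lw_bounds hb hw v g
  have := Finset.sum_nonneg (fun σ (_ : σ ∈ Finset.univ) => en_nonneg hb v g σ)
  rw [Real.norm_eq_abs, abs_le]
  simp only [Pi.add_apply]
  constructor <;> linarith [neg_abs_le (Real.log (∑ σ, w σ)), le_abs_self (Real.log (∑ σ, w σ))]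

lemma en_cons (b : ℝ) {M : ℕ} (v0 : ι → ℝ) (v : Fin M → ι → ℝ) (g0 : ι → ℝ) (g : Fin M → ι → ℝ)
    (σ : ι → Bool) :
    en b (Fin.cons v0 v) (Fin.cons g0 g) σ = b / 2 * X v0 g0 σ ^ 2 + en b v g σ := by
  simp only [en, Fin.sum_univ_succ, Fin.cons_zero, Fin.cons_succ]

lemma Lw_cons (b : ℝ) {M : ℕ} (w : (ι → Bool) → ℝ) (v0 : ι → ℝ) (v : Fin M → ι → ℝ) (g0 : ι → ℝ)
    (g : Fin M → ι → ℝ) :
    Lw b w (Fin.cons v0 v) (Fin.cons g0 g) =
      Lw b (fun σ => w σ * Real.exp (b / 2 * X v0 g0 σ ^ 2)) v g := by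
  simp only [Lw, en_cons, Real.exp_add, mul_assoc]

lemma Lw_cons' (b : ℝ) {M : ℕ} (w : (ι → Bool) → ℝ) (v0 : ι → ℝ) (v : Fin M → ι → ℝ) (g0 : ι → ℝ)
    (g : Fin M → ι → ℝ) :
    Lw b w (Fin.cons v0 v) (Fin.cons g0 g) =
      Real.log (∑ σ, w σ * Real.exp (en b v g σ) * Real.exp (b / 2 * X v0 g0 σ ^ 2)) := by
  simp only [Lw, en_cons, Real.exp_add]
  congr 1; exact Finset.sum_congr rfl fun σ _ => by ring

lemma mp_cons (ι : Type*) [Fintype ι] (M : ℕ) :
    MeasurePreserving (fun p : (ι → ℝ) × (Fin M → ι → ℝ) => (Fin.cons p.1 p.2 : Fin (M + 1) → ι → ℝ))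
      ((gauss ι).prod (pats ι M)) (pats ι (M + 1)) := by
  have h := (measurePreserving_piFinSuccAbove (fun _ : Fin (M + 1) => gauss ι) 0).symm
  have e : (fun p : (ι → ℝ) × (Fin M → ι → ℝ) => (Fin.cons p.1 p.2 : Fin (M + 1) → ι → ℝ)) =
      ⇑(MeasurableEquiv.piFinSuccAbove (fun _ : Fin (M + 1) => ι → ℝ) 0).symm := by
    funext p; simp [MeasurableEquiv.piFinSuccAbove_symm_apply, Fin.consEquiv]
  rw [e]
  exact h

lemma Fw_cons {b : ℝ} (hb : 0 ≤ b) {M : ℕ} {w : (ι → Bool) → ℝ} (hw : ∀ σ, 0 < w σ) (v0 : ι → ℝ)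
    (v : Fin M → ι → ℝ) :
    Fw b w (Fin.cons v0 v) =
        ∫ g0, Fw b (fun σ => w σ * Real.exp (b / 2 * X v0 g0 σ ^ 2)) v ∂gauss ι ∧
    Fw b w (Fin.cons v0 v) = ∫ g, psi b (fun σ => w σ * Real.exp (en b v g σ)) v0 ∂pats ι M ∧
    Integrable (fun g0 => Fw b (fun σ => w σ * Real.exp (b / 2 * X v0 g0 σ ^ 2)) v) (gauss ι) ∧
    Integrable (fun g => psi b (fun σ => w σ * Real.exp (en b v g σ)) v0) (pats ι M) := by
  have hmp := mp_cons ι M
  have hint : Integrable (fun p : (ι → ℝ) × (Fin M → ι → ℝ) => Lw b w (Fin.cons v0 v) (Fin.cons p.1 p.2))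
      ((gauss ι).prod (pats ι M)) :=
    (hmp.integrable_comp (continuous_Lw b hw _).aestronglyMeasurable).2 (integrable_Lw hb hw _)
  have e : Fw b w (Fin.cons v0 v) =
      ∫ p, Lw b w (Fin.cons v0 v) (Fin.cons p.1 p.2) ∂(gauss ι).prod (pats ι M) := by
    rw [Fw, ← hmp.map_eq, integral_map hmp.measurable.aemeasurable
      (continuous_Lw b hw _).aestronglyMeasurable]
  refine ⟨?_, ?_, ?_, ?_⟩
  · rw [e, integral_prod _ hint]
    exact integral_congr_ae (.of_forall fun g0 => by simp only [Lw_cons]; rfl)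
  · rw [e, integral_prod_symm _ hint]
    exact integral_congr_ae (.of_forall fun g => by simp only [Lw_cons']; rfl)
  · refine hint.integral_prod_left.congr (.of_forall fun g0 => ?_)
    simp only [Lw_cons]; rfl
  · refine hint.integral_prod_right.congr (.of_forall fun g => ?_)
    simp only [Lw_cons']; rfl

/-- splitting all patterns: the mixed system dominates the average over assignments -/
theorem mixture {A : Type*} [Fintype A] {b : ℝ} (hb0 : 0 ≤ b) (hb : b ≤ 1 / 10)
    (lam : A → ℝ) (hl0 : ∀ a, 0 ≤ lam a) (hl1 : ∑ a, lam a = 1) (u : A → ι → ℝ)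
    (hu : ∀ a, u a ∈ Simplex ι) :
    ∀ (M : ℕ) (w : (ι → Bool) → ℝ), (∀ σ, 0 < w σ) →
      ∑ s : Fin M → A, (∏ k, lam (s k)) * Fw b w (fun k => u (s k)) ≤
        Fw b w (fun _ : Fin M => ∑ a, lam a • u a) := by
  intro M
  induction M with
  | zero =>
    intro w hw
    simp [Fw, Lw, en]
  | succ M ih =>
    intro w hw
    set mix := ∑ a, lam a • u a with hmix
    have hw' : ∀ g0 σ, 0 < w σ * Real.exp (b / 2 * X mix g0 σ ^ 2) := fun g0 σ =>
      mul_pos (hw σ) (Real.exp_pos _)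
    rw [show (fun _ : Fin (M + 1) => mix) = Fin.cons mix (fun _ : Fin M => mix) by
      funext k; refine Fin.cases ?_ (fun j => ?_) k <;> simp, (Fw_cons hb0 hw mix _).1]
    refine le_trans ?_ (integral_mono (integrable_finsetSum _ fun s _ =>
      (Fw_cons hb0 hw mix fun k => u (s k)).2.2.1.const_mul (∏ k, lam (s k)))
      (Fw_cons hb0 hw mix _).2.2.1 fun g0 => ih _ (hw' g0))
    rw [integral_finsetSum _ fun s _ => (Fw_cons hb0 hw mix fun k => u (s k)).2.2.1.const_mul _]
    simp only [integral_const_mul]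
    rw [← (Fin.consEquiv fun _ : Fin (M + 1) => A).sum_comp, Fintype.sum_prod_type, Finset.sum_comm]
    refine Finset.sum_le_sum fun s _ => ?_
    simp only [Fin.consEquiv_apply, Fin.prod_univ_succ, Fin.cons_zero, Fin.cons_succ]
    have hc : ∀ a, (fun k : Fin (M + 1) => u (Fin.cons (α := fun _ => A) a s k)) =
        Fin.cons (u a) (fun k => u (s k)) := fun a => by
      funext k; refine Fin.cases ?_ (fun j => ?_) k <;> simp
    have hwe : ∀ g σ, 0 < w σ * Real.exp (en b (fun k => u (s k)) g σ) := fun g σ =>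
      mul_pos (hw σ) (Real.exp_pos _)
    rw [show ∫ g0, Fw b (fun σ => w σ * Real.exp (b / 2 * X mix g0 σ ^ 2)) (fun k => u (s k)) ∂gauss ι =
      ∫ g, psi b (fun σ => w σ * Real.exp (en b (fun k => u (s k)) g σ)) mix ∂pats ι M from
        (Fw_cons hb0 hw mix _).1.symm.trans (Fw_cons hb0 hw mix _).2.1]
    simp only [hc, fun a => (Fw_cons hb0 hw (u a) (fun k => u (s k))).2.1, mul_comm (lam _),
      mul_assoc, ← Finset.mul_sum]
    refine mul_le_mul_of_nonneg_left ?_ (Finset.prod_nonneg fun k _ => hl0 _)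
    simp only [← integral_mul_const]
    rw [← integral_finsetSum _ fun a _ => (Fw_cons hb0 hw (u a) _).2.2.2.mul_const _]
    refine integral_mono (integrable_finsetSum _ fun a _ => (Fw_cons hb0 hw (u a) _).2.2.2.mul_const _)
      (Fw_cons hb0 hw mix _).2.2.2 fun g => ?_
    have := (concaveOn_psi hb0 hb (hwe g)).le_map_sum (t := Finset.univ) (fun a _ => hl0 a) hl1
      (fun a _ => hu a)
    simpa [hmix, smul_eq_mul, mul_comm] using this

end Vale.Agent.P166.Pattern
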