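import Vale.Agent.P166.Pattern.Efron

/-!
Limits of all products of normalised traces of powers of a real Wishart matrix, by Gaussian
integration by parts.
-/

open MeasureTheory ProbabilityTheory Filter Matrix
open scoped Topology

noncomputable section

namespace Vale.Agent.P166.Pattern

variable {M N : ℕ}

/-- the pattern matrix -/
def XM (g : Fin M × Fin N → ℝ) : Matrix (Fin M) (Fin N) ℝ := Matrix.of fun m i => g (m, i)

/-- the Wishart matrix -/
def WM (g : Fin M × Fin N → ℝ) : Matrix (Fin N) (Fin N) ℝ := (N : ℝ)⁻¹ • ((XM g)ᵀ * XM g)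

/-- normalised trace of a power -/
def tau (k : ℕ) (g : Fin M × Fin N → ℝ) : ℝ := trace (WM g ^ k) / N

/-- product of normalised traces -/
def taus (L : List ℕ) (g : Fin M × Fin N → ℝ) : ℝ := (L.map fun l => tau l g).prod

lemma transpose_WM (g : Fin M × Fin N → ℝ) : (WM g)ᵀ = WM g := by
  simp [WM, Matrix.transpose_smul, Matrix.transpose_mul]

lemma transpose_WM_pow (g : Fin M × Fin N → ℝ) (k : ℕ) : (WM g ^ k)ᵀ = WM g ^ k := by
  rw [Matrix.transpose_pow, transpose_WM]

lemma XX_eq (hN : 0 < N) (g : Fin M × Fin N → ℝ) : (XM g)ᵀ * XM g = (N : ℝ) • WM g := by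
  rw [WM, smul_smul, mul_inv_cancel₀ (by exact_mod_cast hN.ne'), one_smul]

lemma taus_cons (l : ℕ) (L : List ℕ) (g : Fin M × Fin N → ℝ) : taus (l :: L) g = tau l g * taus L g := by
  simp [taus]

lemma tau_zero (hN : 0 < N) (g : Fin M × Fin N → ℝ) : tau 0 g = 1 := by
  have : (N : ℝ) ≠ 0 := by exact_mod_cast hN.ne'
  simp [tau, this]

/-- continuous with polynomial growth -/
def CP {E : Type*} [SeminormedAddCommGroup E] (F : E → ℝ) : Prop := Continuous F ∧ Poly F

namespace CP

variable {E : Type*} [SeminormedAddCommGroup E] {F G : E → ℝ}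

lemma const (c : ℝ) : CP fun _ : E => c := ⟨continuous_const, Poly.const c⟩
lemma add (hF : CP F) (hG : CP G) : CP fun x => F x + G x := ⟨hF.1.add hG.1, hF.2.add hG.2⟩
lemma mul (hF : CP F) (hG : CP G) : CP fun x => F x * G x := ⟨hF.1.mul hG.1, hF.2.mul hG.2⟩
lemma sum {ι : Type*} (s : Finset ι) {F : ι → E → ℝ} (h : ∀ i ∈ s, CP (F i)) :
    CP fun x => ∑ i ∈ s, F i x :=
  ⟨continuous_finsetSum _ fun i hi => (h i hi).1, Poly.sum _ fun i hi => (h i hi).2⟩

lemma integrable {κ : Type*} [Fintype κ] {F : (κ → ℝ) → ℝ} (hF : CP F) : Integrable F (gauss κ) :=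
  integrable_poly hF.1 hF.2

end CP

lemma cp_coord (p : Fin M × Fin N) : CP fun g : Fin M × Fin N → ℝ => g p := ⟨by fun_prop, poly_coord p⟩

lemma cp_WM (a b : Fin N) : CP fun g : Fin M × Fin N → ℝ => WM g a b := by
  simp only [WM, XM, Matrix.smul_apply, Matrix.mul_apply, Matrix.transpose_apply, Matrix.of_apply, smul_eq_mul]
  exact (CP.const _).mul (CP.sum _ fun m _ => (cp_coord _).mul (cp_coord _))

lemma cp_WM_pow : ∀ (k : ℕ) (a b : Fin N), CP fun g : Fin M × Fin N → ℝ => (WM g ^ k) a b
  | 0, a, b => by simp only [pow_zero]; exact CP.const _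
  | k + 1, a, b => by
    simp only [pow_succ, Matrix.mul_apply]
    exact CP.sum _ fun c _ => (cp_WM_pow k a c).mul (cp_WM c b)

lemma cp_XW (k : ℕ) (m : Fin M) (i : Fin N) :
    CP fun g : Fin M × Fin N → ℝ => (XM g * WM g ^ k) m i := by
  simp only [Matrix.mul_apply, XM, Matrix.of_apply]
  exact CP.sum _ fun c _ => (cp_coord _).mul (cp_WM_pow k c i)

lemma cp_tau (k : ℕ) : CP fun g : Fin M × Fin N → ℝ => tau k g := by
  simp only [tau, Matrix.trace, Matrix.diag_apply, div_eq_mul_inv]
  exact (CP.sum _ fun a _ => cp_WM_pow k a a).mul (CP.const _)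

lemma cp_taus : ∀ L : List ℕ, CP fun g : Fin M × Fin N → ℝ => taus L g
  | [] => by simp only [taus, List.map_nil, List.prod_nil]; exact CP.const _
  | l :: L => by simp only [taus_cons]; exact (cp_tau l).mul (cp_taus L)

/-- entrywise derivative of a matrix curve -/
def DM {a b : Type*} (A : ℝ → Matrix a b ℝ) (A' : Matrix a b ℝ) (t : ℝ) : Prop :=
  ∀ i j, HasDerivAt (fun u => A u i j) (A' i j) t

lemma DM.mul {a b c : Type*} [Fintype b] {A : ℝ → Matrix a b ℝ} {A' : Matrix a b ℝ}
    {B : ℝ → Matrix b c ℝ} {B' : Matrix b c ℝ} {t : ℝ} (hA : DM A A' t) (hB : DM B B' t) :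
    DM (fun u => A u * B u) (A' * B t + A t * B') t := fun i j => by
  simp only [Matrix.mul_apply, Matrix.add_apply, ← Finset.sum_add_distrib]
  exact HasDerivAt.fun_sum fun k _ => (hA i k).fun_mul (hB k j)

lemma DM.pow {a : Type*} [Fintype a] [DecidableEq a] {A : ℝ → Matrix a a ℝ} {A' : Matrix a a ℝ} {t : ℝ}
    (hA : DM A A' t) : ∀ k : ℕ,
    DM (fun u => A u ^ k) (∑ j ∈ Finset.range k, A t ^ j * A' * A t ^ (k - 1 - j)) t
  | 0 => fun i j => by simpa using hasDerivAt_const t ((1 : Matrix a a ℝ) i j)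
  | k + 1 => by
    have e : ∑ j ∈ Finset.range (k + 1), A t ^ j * A' * A t ^ (k + 1 - 1 - j) =
        (∑ j ∈ Finset.range k, A t ^ j * A' * A t ^ (k - 1 - j)) * A t + A t ^ k * A' := by
      rw [Finset.sum_range_succ, Finset.sum_mul, Nat.add_sub_cancel, Nat.sub_self, pow_zero, mul_one]
      congr 1
      refine Finset.sum_congr rfl fun j hj => ?_
      have := Finset.mem_range.1 hj
      rw [show k - j = (k - 1 - j) + 1 by omega, pow_succ]
      simp only [mul_assoc]
    rw [e]
    simpa only [pow_succ] using (DM.pow hA k).mul hA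

lemma trace_pow_deriv {a : Type*} [Fintype a] [DecidableEq a] (A A' : Matrix a a ℝ) (k : ℕ) :
    trace (∑ j ∈ Finset.range k, A ^ j * A' * A ^ (k - 1 - j)) = k * trace (A ^ (k - 1) * A') := by
  rw [Matrix.trace_sum, Finset.sum_congr rfl (g := fun _ => trace (A ^ (k - 1) * A')) fun j hj => ?_,
    Finset.sum_const, Finset.card_range, nsmul_eq_mul]
  have := Finset.mem_range.1 hj
  rw [Matrix.trace_mul_comm, ← mul_assoc, ← pow_add, show k - 1 - j + j = k - 1 by omega]

/-- the curve through `g` in the coordinate `p` -/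
lemma deriv_XM (g : Fin M × Fin N → ℝ) (m : Fin M) (i : Fin N) :
    DM (fun u => XM (Function.update g (m, i) u)) (Matrix.single m i (1:ℝ)) (g (m, i)) := by
  intro a b
  simp only [XM, Matrix.of_apply]
  by_cases h : (a, b) = (m, i)
  · obtain ⟨rfl, rfl⟩ := Prod.mk.inj h
    rw [show Matrix.single a b (1:ℝ) a b = 1 by simp]
    simp only [Function.update_self]
    exact hasDerivAt_id _
  · simp only [Function.update_of_ne h]
    have e : Matrix.single m i (1:ℝ) a b = 0 := by
      rw [Matrix.single_apply, if_neg]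
      rintro ⟨rfl, rfl⟩; exact h rfl
    rw [e]
    exact hasDerivAt_const _ _

lemma deriv_WM (g : Fin M × Fin N → ℝ) (m : Fin M) (i : Fin N) :
    DM (fun u => WM (Function.update g (m, i) u))
      ((N : ℝ)⁻¹ • ((Matrix.single m i (1:ℝ))ᵀ * XM g + (XM g)ᵀ * Matrix.single m i (1:ℝ))) (g (m, i)) := by
  intro a b
  have hX := deriv_XM g m i
  have hT : DM (fun u => (XM (Function.update g (m, i) u))ᵀ) (Matrix.single m i (1:ℝ))ᵀ (g (m, i)) :=
    fun a b => hX b a
  have h := hT.mul hX a b
  simp only [Function.update_eq_self] at h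
  simp only [WM, Matrix.smul_apply, smul_eq_mul]
  exact h.const_mul _

lemma single_mid {a b : Type*} [Fintype a] [Fintype b] [DecidableEq a] [DecidableEq b] {c d : Type*}
    (A : Matrix c a ℝ) (B : Matrix b d ℝ) (m : a) (i : b) (x : c) (y : d) :
    (A * Matrix.single m i (1:ℝ) * B) x y = A x m * B i y := by
  simp [Matrix.mul_apply, Matrix.single_apply, ite_and]

lemma single_trace {a b : Type*} [Fintype a] [Fintype b] [DecidableEq a] [DecidableEq b]
    (A : Matrix b a ℝ) (m : a) (i : b) : trace (A * Matrix.single m i (1:ℝ)) = A i m := by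
  simp [Matrix.trace, Matrix.mul_apply, Matrix.single_apply, ite_and]

lemma deriv_tau (g : Fin M × Fin N → ℝ) (m : Fin M) (i : Fin N) (l : ℕ) :
    HasDerivAt (fun u => tau l (Function.update g (m, i) u))
      (2 * l / (N:ℝ) ^ 2 * (XM g * WM g ^ (l - 1)) m i) (g (m, i)) := by
  have h := (deriv_WM g m i).pow l
  have h2 : HasDerivAt (fun u => tau l (Function.update g (m, i) u))
      (trace (∑ j ∈ Finset.range l, WM g ^ j *
        ((N : ℝ)⁻¹ • ((Matrix.single m i (1:ℝ))ᵀ * XM g + (XM g)ᵀ * Matrix.single m i (1:ℝ))) *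
        WM g ^ (l - 1 - j)) / N) (g (m, i)) := by
    simp only [tau, Matrix.trace, Matrix.diag_apply]
    have := HasDerivAt.fun_sum (u := (Finset.univ : Finset (Fin N))) fun a _ => h a a
    simp only [Function.update_eq_self] at this
    exact this.div_const _
  refine h2.congr_deriv ?_
  rw [trace_pow_deriv, Matrix.mul_smul, Matrix.trace_smul, Matrix.mul_add, Matrix.trace_add, smul_eq_mul]
  have e1 : trace (WM g ^ (l - 1) * ((XM g)ᵀ * Matrix.single m i (1:ℝ))) = (XM g * WM g ^ (l - 1)) m i := by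
    rw [← Matrix.mul_assoc, single_trace, ← Matrix.transpose_apply (WM g ^ (l - 1) * (XM g)ᵀ),
      Matrix.transpose_mul, Matrix.transpose_transpose, transpose_WM_pow]
  have e2 : trace (WM g ^ (l - 1) * ((Matrix.single m i (1:ℝ))ᵀ * XM g)) = (XM g * WM g ^ (l - 1)) m i := by
    rw [← Matrix.trace_transpose, Matrix.transpose_mul, Matrix.transpose_mul, Matrix.transpose_transpose,
      transpose_WM_pow, Matrix.trace_mul_comm, e1]
  rw [e1, e2]
  ring

/-- the extra terms produced by differentiating a product of traces -/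
def exL (k : ℕ) : List ℕ → List (ℕ × List ℕ)
  | [] => []
  | l :: L => (2 * l, (k + l) :: L) :: (exL k L).map fun p => (p.1, l :: p.2)

/-- value of a combination of products of traces -/
def exVal (E : List (ℕ × List ℕ)) (g : Fin M × Fin N → ℝ) : ℝ := (E.map fun p => (p.1:ℝ) * taus p.2 g).sum

lemma exVal_map (l : ℕ) (E : List (ℕ × List ℕ)) (g : Fin M × Fin N → ℝ) :
    exVal (E.map fun p => (p.1, l :: p.2)) g = tau l g * exVal E g := by
  induction E with
  | nil => simp [exVal]
  | cons a E ih =>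
    simp only [exVal, List.map_cons, List.sum_cons] at ih ⊢
    rw [ih, taus_cons]; ring

lemma exL_sum (k : ℕ) : ∀ (L : List ℕ), ∀ p ∈ exL k L, p.2.sum = k + L.sum
  | [], p, hp => by simp [exL] at hp
  | l :: L, p, hp => by
    simp only [exL, List.mem_cons, List.mem_map] at hp
    rcases hp with rfl | ⟨q, hq, rfl⟩
    · simp [add_assoc]
    · simp [exL_sum k L q hq]; ring

lemma sum_XW (hN : 0 < N) (g : Fin M × Fin N → ℝ) (a c : ℕ) :
    ∑ m, ∑ i, (XM g * WM g ^ a) m i * (XM g * WM g ^ c) m i = N * trace (WM g ^ (a + c + 1)) := by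
  have e : ∑ m, ∑ i, (XM g * WM g ^ a) m i * (XM g * WM g ^ c) m i =
      trace ((XM g * WM g ^ a)ᵀ * (XM g * WM g ^ c)) := by
    simp only [Matrix.trace, Matrix.diag_apply]
    rw [Finset.sum_comm]
    exact Finset.sum_congr rfl fun i _ => by rw [Matrix.mul_apply]; simp [Matrix.transpose_apply]
  rw [e, Matrix.transpose_mul, transpose_WM_pow,
    show WM g ^ a * (XM g)ᵀ * (XM g * WM g ^ c) = WM g ^ a * ((XM g)ᵀ * XM g) * WM g ^ c by
      simp only [Matrix.mul_assoc],
    XX_eq hN, Matrix.mul_smul, Matrix.smul_mul, Matrix.trace_smul, ← pow_succ, ← pow_add, smul_eq_mul,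
    show a + 1 + c = a + c + 1 by ring]

lemma deriv_taus (hN : 0 < N) (g : Fin M × Fin N → ℝ) (k : ℕ) : ∀ L : List ℕ, (∀ l ∈ L, 1 ≤ l) →
    ∃ D : Fin M → Fin N → ℝ,
      (∀ m i, HasDerivAt (fun u => taus L (Function.update g (m, i) u)) (D m i) (g (m, i))) ∧
      ∑ m, ∑ i, (XM g * WM g ^ k) m i * D m i = exVal (exL k L) g
  | [], _ => ⟨0, fun m i => by simpa [taus] using hasDerivAt_const (g (m, i)) (1:ℝ), by simp [exL, exVal]⟩
  | l :: L, hL => by
    obtain ⟨D, hD, hs⟩ := deriv_taus hN g k L fun x hx => hL x (List.mem_cons_of_mem _ hx)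
    have hl : 1 ≤ l := hL l List.mem_cons_self
    refine ⟨fun m i => 2 * l / (N:ℝ) ^ 2 * (XM g * WM g ^ (l - 1)) m i * taus L g + tau l g * D m i,
      fun m i => ?_, ?_⟩
    · have := (deriv_tau g m i l).fun_mul (hD m i)
      simp only [Function.update_eq_self] at this
      simpa only [taus_cons] using this
    · have e : ∀ m i, (XM g * WM g ^ k) m i *
          (2 * l / (N:ℝ) ^ 2 * (XM g * WM g ^ (l - 1)) m i * taus L g + tau l g * D m i) =
          2 * l / (N:ℝ) ^ 2 * taus L g * ((XM g * WM g ^ k) m i * (XM g * WM g ^ (l - 1)) m i) +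
            tau l g * ((XM g * WM g ^ k) m i * D m i) := fun m i => by ring
      simp only [e, Finset.sum_add_distrib, ← Finset.mul_sum, hs, sum_XW hN]
      rw [show k + (l - 1) + 1 = k + l by omega]
      simp only [exL]
      rw [show exVal ((2 * l, (k + l) :: L) :: (exL k L).map fun p => (p.1, l :: p.2)) g =
        ((2 * l : ℕ):ℝ) * taus ((k + l) :: L) g + exVal ((exL k L).map fun p => (p.1, l :: p.2)) g by
          simp [exVal], exVal_map, taus_cons]
      have : (N:ℝ) ≠ 0 := by exact_mod_cast hN.ne'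
      simp only [tau]
      push_cast
      field_simp

lemma cp_exVal : ∀ E : List (ℕ × List ℕ), CP fun g : Fin M × Fin N → ℝ => exVal E g
  | [] => by simp only [exVal, List.map_nil, List.sum_nil]; exact CP.const _
  | a :: E => by
    simp only [exVal, List.map_cons, List.sum_cons]
    exact ((CP.const _).mul (cp_taus _)).add (cp_exVal E)

/-- the loop equation -/
theorem loop_eq (hN : 0 < N) (k : ℕ) (L : List ℕ) (hL : ∀ l ∈ L, 1 ≤ l) :
    ∫ g, taus ((k + 1) :: L) g ∂gauss (Fin M × Fin N) =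
      ((M:ℝ) / N + (k:ℝ) / N) * ∫ g, taus (k :: L) g ∂gauss (Fin M × Fin N) +
      ∑ j : Fin k, ∫ g, taus (((j:ℕ) + 1) :: (k - 1 - (j:ℕ)) :: L) g ∂gauss (Fin M × Fin N) +
      (1 / (N:ℝ) ^ 2) * ∫ g, exVal (exL k L) g ∂gauss (Fin M × Fin N) := by
  classical
  set γ := gauss (Fin M × Fin N)
  have hN' : (N:ℝ) ≠ 0 := by exact_mod_cast hN.ne'
  choose D hD hDs using fun g : Fin M × Fin N → ℝ => deriv_taus hN g k L hL
  set DX := fun (m : Fin M) (i : Fin N) (g : Fin M × Fin N → ℝ) =>
    ((Matrix.single m i (1:ℝ)) * WM g ^ k + XM g * ∑ j ∈ Finset.range k, WM g ^ j *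
      ((N : ℝ)⁻¹ • ((Matrix.single m i (1:ℝ))ᵀ * XM g + (XM g)ᵀ * Matrix.single m i (1:ℝ))) *
        WM g ^ (k - 1 - j)) m i
  have hDX : ∀ m i g, HasDerivAt (fun u => (XM (Function.update g (m, i) u) * WM (Function.update g (m, i) u) ^ k) m i)
      (DX m i g) (g (m, i)) := fun m i g => by
    have h := (deriv_XM g m i).mul ((deriv_WM g m i).pow k) m i
    simp only [Function.update_eq_self] at h
    exact h
  have hDXcp : ∀ m i, CP fun g => DX m i g := fun m i => by
    simp only [DX, Matrix.add_apply, Matrix.mul_apply, Matrix.sum_apply, Matrix.smul_apply, smul_eq_mul,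
      Matrix.transpose_apply]
    refine (CP.sum _ fun c _ => (CP.const _).mul (cp_WM_pow _ _ _)).add (CP.sum _ fun c _ => ?_)
    refine (CP.mul ?_ ?_)
    · exact cp_coord (m, c)
    · refine CP.sum _ fun j _ => CP.sum _ fun e _ => CP.mul (CP.sum _ fun f _ => CP.mul (cp_WM_pow _ _ _)
        ((CP.const _).mul ((CP.sum _ fun _ _ => (CP.const _).mul (cp_coord _)).add
          (CP.sum _ fun _ _ => (cp_coord _).mul (CP.const _))))) (cp_WM_pow _ _ _)
  -- derivative of the product along coordinates, as a function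
  have hDcp : ∀ L' : List ℕ, ∃ D' : Fin M → Fin N → (Fin M × Fin N → ℝ) → ℝ,
      ∀ m i, CP (D' m i) ∧ ∀ g, HasDerivAt (fun u => taus L' (Function.update g (m, i) u)) (D' m i g) (g (m, i)) := by
    intro L'
    induction L' with
    | nil => exact ⟨fun _ _ _ => 0, fun m i => ⟨CP.const 0, fun g => by
        simpa [taus] using hasDerivAt_const (g (m, i)) (1:ℝ)⟩⟩
    | cons l L' ih =>
      obtain ⟨D', hD'⟩ := ih
      refine ⟨fun m i g => 2 * l / (N:ℝ) ^ 2 * (XM g * WM g ^ (l - 1)) m i * taus L' g + tau l g * D' m i g,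
        fun m i => ⟨(((CP.const _).mul (cp_XW _ _ _)).mul (cp_taus _)).add ((cp_tau l).mul (hD' m i).1),
          fun g => ?_⟩⟩
      have := (deriv_tau g m i l).fun_mul ((hD' m i).2 g)
      simp only [Function.update_eq_self] at this
      simpa only [taus_cons] using this
  obtain ⟨D', hD'⟩ := hDcp L
  have hDeq : ∀ g m i, D g m i = D' m i g := fun g m i => (hD g m i).unique ((hD' m i).2 g)
  have key : ∀ m i, ∫ g, g (m, i) * ((XM g * WM g ^ k) m i * taus L g) ∂γ =
      ∫ g, (DX m i g * taus L g + (XM g * WM g ^ k) m i * D g m i) ∂γ := by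
    intro m i
    simp only [hDeq]
    refine ibp (m, i) (fun g => ?_) ((cp_XW k m i).mul (cp_taus L)).1
      (((hDXcp m i).mul (cp_taus L)).add ((cp_XW k m i).mul (hD' m i).1)).1
      ((cp_XW k m i).mul (cp_taus L)).2
      (((hDXcp m i).mul (cp_taus L)).add ((cp_XW k m i).mul (hD' m i).1)).2
    have := (hDX m i g).fun_mul ((hD' m i).2 g)
    simp only [Function.update_eq_self] at this
    exact this
  have hsumDX : ∀ g, ∑ m, ∑ i, DX m i g =
      (M:ℝ) * N * tau k g + ∑ j ∈ Finset.range k, ((N:ℝ) * tau k g + (N:ℝ) ^ 2 * (tau (j + 1) g * tau (k - 1 - j) g)) := by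
    intro g
    have e : ∀ m i, DX m i g = (WM g ^ k) i i + ∑ j ∈ Finset.range k, (N:ℝ)⁻¹ *
        ((XM g * WM g ^ j) m i * (XM g * WM g ^ (k - 1 - j)) m i +
          (XM g * WM g ^ j * (XM g)ᵀ) m m * (WM g ^ (k - 1 - j)) i i) := by
      intro m i
      simp only [DX, Matrix.add_apply]
      congr 1
      · simp [Matrix.mul_apply, Matrix.single_apply]
      · rw [Matrix.mul_sum, Matrix.sum_apply]
        refine Finset.sum_congr rfl fun j _ => ?_
        rw [Matrix.mul_smul, Matrix.smul_mul, Matrix.mul_smul, Matrix.smul_apply, smul_eq_mul,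
          Matrix.mul_add, Matrix.add_mul, Matrix.mul_add, Matrix.add_apply, Matrix.transpose_single,
          show XM g * (WM g ^ j * (Matrix.single i m (1:ℝ) * XM g) * WM g ^ (k - 1 - j)) =
            (XM g * WM g ^ j) * Matrix.single i m (1:ℝ) * (XM g * WM g ^ (k - 1 - j)) by
              simp only [Matrix.mul_assoc],
          show XM g * (WM g ^ j * ((XM g)ᵀ * Matrix.single m i (1:ℝ)) * WM g ^ (k - 1 - j)) =
            (XM g * WM g ^ j * (XM g)ᵀ) * Matrix.single m i (1:ℝ) * WM g ^ (k - 1 - j) by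
              simp only [Matrix.mul_assoc],
          single_mid, single_mid]
    simp only [e, Finset.sum_add_distrib]
    congr 1
    · rw [Finset.sum_const, Finset.card_univ, Fintype.card_fin, nsmul_eq_mul]
      simp only [tau, Matrix.trace, Matrix.diag_apply]
      field_simp
    · rw [Finset.sum_congr rfl fun m _ => Finset.sum_comm, Finset.sum_comm, ← Finset.sum_add_distrib]
      refine Finset.sum_congr rfl fun j hj => ?_
      have := Finset.mem_range.1 hj
      simp only [← Finset.mul_sum, Finset.sum_add_distrib, sum_XW hN]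
      rw [← Finset.sum_mul, show j + (k - 1 - j) + 1 = k by omega,
        show ∑ m, (XM g * WM g ^ j * (XM g)ᵀ) m m = trace (XM g * WM g ^ j * (XM g)ᵀ) from rfl,
        show ∑ i, (WM g ^ (k - 1 - j)) i i = trace (WM g ^ (k - 1 - j)) from rfl,
        Matrix.trace_mul_comm, ← Matrix.mul_assoc, XX_eq hN, Matrix.smul_mul, ← pow_succ', Matrix.trace_smul,
        smul_eq_mul]
      simp only [tau]
      field_simp
  have hXX : ∀ g : Fin M × Fin N → ℝ, ∑ m, ∑ i, g (m, i) * (XM g * WM g ^ k) m i = (N:ℝ) ^ 2 * tau (k + 1) g := by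
    intro g
    have := sum_XW hN g 0 k
    simp only [pow_zero, Matrix.mul_one, zero_add] at this
    rw [show ∑ m, ∑ i, g (m, i) * (XM g * WM g ^ k) m i = ∑ m, ∑ i, XM g m i * (XM g * WM g ^ k) m i from rfl,
      this]
    simp only [tau]; field_simp
  have hi1 : ∀ m i, Integrable (fun g => g (m, i) * ((XM g * WM g ^ k) m i * taus L g)) γ := fun m i =>
    ((cp_coord (m, i)).mul ((cp_XW k m i).mul (cp_taus L))).integrable
  have hi2 : ∀ m i, Integrable (fun g => DX m i g * taus L g + (XM g * WM g ^ k) m i * D g m i) γ := fun m i => by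
    simp only [hDeq]
    exact (((hDXcp m i).mul (cp_taus L)).add ((cp_XW k m i).mul (hD' m i).1)).integrable
  have main : ∫ g, (N:ℝ) ^ 2 * taus ((k + 1) :: L) g ∂γ = ∫ g, ((M:ℝ) * N * taus (k :: L) g +
      ∑ j ∈ Finset.range k, ((N:ℝ) * taus (k :: L) g + (N:ℝ) ^ 2 * taus ((j + 1) :: (k - 1 - j) :: L) g) +
      exVal (exL k L) g) ∂γ := by
    calc ∫ g, (N:ℝ) ^ 2 * taus ((k + 1) :: L) g ∂γ
        = ∫ g, ∑ m, ∑ i, g (m, i) * ((XM g * WM g ^ k) m i * taus L g) ∂γ := by
          refine integral_congr_ae (.of_forall fun g => ?_)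
          simp only [← mul_assoc, ← Finset.sum_mul, hXX, taus_cons]
      _ = ∑ m, ∑ i, ∫ g, (DX m i g * taus L g + (XM g * WM g ^ k) m i * D g m i) ∂γ := by
          rw [integral_finsetSum _ fun m _ => integrable_finsetSum _ fun i _ => hi1 m i]
          refine Finset.sum_congr rfl fun m _ => ?_
          rw [integral_finsetSum _ fun i _ => hi1 m i]
          exact Finset.sum_congr rfl fun i _ => key m i
      _ = ∫ g, ∑ m, ∑ i, (DX m i g * taus L g + (XM g * WM g ^ k) m i * D g m i) ∂γ := by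
          rw [integral_finsetSum _ fun m _ => integrable_finsetSum _ fun i _ => hi2 m i]
          exact Finset.sum_congr rfl fun m _ => (integral_finsetSum _ fun i _ => hi2 m i).symm
      _ = _ := by
          refine integral_congr_ae (.of_forall fun g => ?_)
          have e : ∑ m, ∑ i, DX m i g * taus L g = (∑ m, ∑ i, DX m i g) * taus L g := by
            rw [Finset.sum_mul]; exact Finset.sum_congr rfl fun m _ => (Finset.sum_mul _ _ _).symm
          simp only [Finset.sum_add_distrib, e, hsumDX, hDs, taus_cons, add_mul, Finset.sum_mul]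
          simp only [mul_assoc]
  have i0 : ∀ L', Integrable (fun g : Fin M × Fin N → ℝ => taus L' g) γ := fun L' => (cp_taus L').integrable
  have i4 : ∀ j ∈ Finset.range k, Integrable (fun g =>
      (N:ℝ) * taus (k :: L) g + (N:ℝ) ^ 2 * taus ((j + 1) :: (k - 1 - j) :: L) g) γ := fun j _ =>
    ((i0 _).const_mul _).add ((i0 _).const_mul _)
  have i5 : Integrable (fun g => (M:ℝ) * N * taus (k :: L) g +
      ∑ j ∈ Finset.range k, ((N:ℝ) * taus (k :: L) g + (N:ℝ) ^ 2 * taus ((j + 1) :: (k - 1 - j) :: L) g)) γ :=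
    ((i0 _).const_mul _).add (integrable_finsetSum _ i4)
  rw [integral_const_mul, integral_add i5 (cp_exVal _).integrable,
    integral_add ((i0 _).const_mul _) (integrable_finsetSum _ i4), integral_const_mul,
    integral_finsetSum _ i4, Finset.sum_congr rfl fun j _ =>
      integral_add ((i0 _).const_mul _) ((i0 _).const_mul _), Finset.sum_add_distrib] at main
  simp only [integral_const_mul, Finset.sum_const, Finset.card_range, nsmul_eq_mul, ← Finset.mul_sum] at main
  rw [Fin.sum_univ_eq_sum_range (fun j => ∫ g, taus ((j + 1) :: (k - 1 - j) :: L) g ∂γ) k]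
  field_simp
  linarith

/-- limiting moments -/
def mom (α : ℝ) : ℕ → ℝ
  | 0 => 1
  | k + 1 => α * mom α k + ∑ j : Fin k, mom α (j.val + 1) * mom α (k - 1 - j.val)
termination_by k => k
decreasing_by all_goals omega

lemma tendsto_ratio {α : ℝ} (hα : 0 ≤ α) :
    Tendsto (fun N : ℕ => (⌊α * (N:ℝ)⌋₊ : ℝ) / N) atTop (𝓝 α) := by
  have h := (tendsto_nat_floor_mul_div_atTop (R := ℝ) hα).comp tendsto_natCast_atTop_atTop
  exact h

theorem tendsto_taus {α : ℝ} (hα : 0 ≤ α) : ∀ (S : ℕ) (L : List ℕ), L.sum ≤ S →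
    Tendsto (fun N : ℕ => ∫ g, taus L g ∂gauss (Fin ⌊α * (N:ℝ)⌋₊ × Fin N)) atTop (𝓝 (L.map (mom α)).prod) := by
  intro S
  induction S using Nat.strong_induction_on with
  | _ S ih =>
    intro L hS
    have strip : ∀ L : List ℕ, ∀ N : ℕ, 0 < N → ∀ g : Fin ⌊α * (N:ℝ)⌋₊ × Fin N → ℝ,
        taus (L.filter (1 ≤ ·)) g = taus L g := by
      intro L N hN g
      induction L with
      | nil => rfl
      | cons l L ihL =>
        rcases Nat.eq_zero_or_pos l with rfl | hl
        · rw [List.filter_cons_of_neg (by simp), ihL, taus_cons, tau_zero hN, one_mul]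
        · rw [List.filter_cons_of_pos (by simp; omega), taus_cons, taus_cons, ihL]
    have hmom : ∀ L : List ℕ, ((L.filter (1 ≤ ·)).map (mom α)).prod = (L.map (mom α)).prod := by
      intro L
      induction L with
      | nil => rfl
      | cons l L ihL =>
        rcases Nat.eq_zero_or_pos l with rfl | hl
        · rw [List.filter_cons_of_neg (by simp), ihL, List.map_cons, List.prod_cons, mom, one_mul]
        · rw [List.filter_cons_of_pos (by simp; omega), List.map_cons, List.prod_cons, List.map_cons,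
            List.prod_cons, ihL]
    have hsum : ∀ L : List ℕ, (L.filter (1 ≤ ·)).sum = L.sum := by
      intro L
      induction L with
      | nil => rfl
      | cons l L ihL =>
        rcases Nat.eq_zero_or_pos l with rfl | hl
        · rw [List.filter_cons_of_neg (by simp), ihL]; simp
        · rw [List.filter_cons_of_pos (by simp; omega), List.sum_cons, List.sum_cons, ihL]
    rw [← hmom]
    refine Tendsto.congr' (f₁ := fun N : ℕ => ∫ g, taus (L.filter (1 ≤ ·)) g ∂gauss (Fin ⌊α * (N:ℝ)⌋₊ × Fin N)) ?_ ?_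
    · filter_upwards [eventually_gt_atTop 0] with N hN
      exact integral_congr_ae (.of_forall fun g => strip L N hN g)
    · have hS' : (L.filter (1 ≤ ·)).sum ≤ S := (hsum L).trans_le hS
      have hpos : ∀ l ∈ L.filter (1 ≤ ·), 1 ≤ l := fun l hl => by simpa using (List.mem_filter.1 hl).2
      generalize L.filter (1 ≤ ·) = L' at hS' hpos
      cases L' with
      | nil => simp [taus]
      | cons l L'' =>
        obtain ⟨k, rfl⟩ := Nat.exists_eq_add_of_le' (hpos l List.mem_cons_self)
        have hL'' : ∀ x ∈ L'', 1 ≤ x := fun x hx => hpos x (List.mem_cons_of_mem _ hx)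
        simp only [List.sum_cons] at hS'
        have h1 := ih (k + L''.sum) (by omega) (k :: L'') (by simp)
        have h2 : ∀ j : Fin k, Tendsto (fun N : ℕ =>
            ∫ g, taus (((j:ℕ) + 1) :: (k - 1 - (j:ℕ)) :: L'') g ∂gauss (Fin ⌊α * (N:ℝ)⌋₊ × Fin N))
            atTop (𝓝 ((((j:ℕ) + 1) :: (k - 1 - (j:ℕ)) :: L'').map (mom α)).prod) := fun j =>
          ih (k + L''.sum) (by omega) _ (by simp only [List.sum_cons]; omega)
        have h3 : Tendsto (fun N : ℕ => (1 / (N:ℝ) ^ 2) *
            ∫ g, exVal (exL k L'') g ∂gauss (Fin ⌊α * (N:ℝ)⌋₊ × Fin N)) atTop (𝓝 0) := by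
          have hz : Tendsto (fun N : ℕ => 1 / (N:ℝ) ^ 2) atTop (𝓝 0) :=
            tendsto_const_nhds.div_atTop ((tendsto_pow_atTop two_ne_zero).comp tendsto_natCast_atTop_atTop)
          have hE : ∀ E : List (ℕ × List ℕ), (∀ p ∈ E, p.2.sum ≤ k + L''.sum) → ∃ c, Tendsto (fun N : ℕ =>
              ∫ g, exVal E g ∂gauss (Fin ⌊α * (N:ℝ)⌋₊ × Fin N)) atTop (𝓝 c) := by
            intro E
            induction E with
            | nil => exact fun _ => ⟨0, by simp [exVal]⟩
            | cons a E ihE =>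
              intro hp
              obtain ⟨c, hc⟩ := ihE fun p hp' => hp p (List.mem_cons_of_mem _ hp')
              have ha := ih (k + L''.sum) (by omega) a.2 (hp a List.mem_cons_self)
              refine ⟨_, ((ha.const_mul (a.1:ℝ)).add hc).congr fun N => ?_⟩
              rw [← integral_const_mul, ← integral_add ((cp_taus _).integrable.const_mul _) (cp_exVal E).integrable]
              simp [exVal]
          obtain ⟨c, hc⟩ := hE _ fun p hp => (exL_sum k L'' p hp).le
          simpa using hz.mul hc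
        have hk0 : Tendsto (fun N : ℕ => (k:ℝ) / N) atTop (𝓝 0) := tendsto_const_div_atTop_nhds_zero_nat _
        have hlim := ((((tendsto_ratio hα).add hk0).mul h1).add (tendsto_finsetSum Finset.univ fun j _ => h2 j)).add h3
        have e : (((k + 1) :: L'').map (mom α)).prod = (α + 0) * ((k :: L'').map (mom α)).prod +
            ∑ j : Fin k, ((((j:ℕ) + 1) :: (k - 1 - (j:ℕ)) :: L'').map (mom α)).prod + 0 := by
          simp only [List.map_cons, List.prod_cons, add_zero]
          rw [mom, add_mul, Finset.sum_mul]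
          simp only [mul_assoc]
        rw [e]
        refine hlim.congr' ?_
        filter_upwards [eventually_gt_atTop 0] with N hN
        rw [loop_eq hN k L'' hL'']

lemma tendsto_tau_var {α : ℝ} (hα : 0 ≤ α) (k : ℕ) :
    Tendsto (fun N : ℕ => ∫ g, (tau k g - mom α k) ^ 2 ∂gauss (Fin ⌊α * (N:ℝ)⌋₊ × Fin N)) atTop (𝓝 0) := by
  have h1 := tendsto_taus hα k [k] (by simp)
  have h2 := tendsto_taus hα (k + k) [k, k] (by simp)
  have h := (h2.sub (h1.const_mul (2 * mom α k))).add_const (mom α k ^ 2)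
  have h' : Tendsto (fun N : ℕ => (∫ g, taus [k, k] g ∂gauss (Fin ⌊α * (N:ℝ)⌋₊ × Fin N)) -
      2 * mom α k * ∫ g, taus [k] g ∂gauss (Fin ⌊α * (N:ℝ)⌋₊ × Fin N) + mom α k ^ 2) atTop (𝓝 0) := by
    convert h using 2
    simp; ring
  refine h'.congr fun N => ?_
  have i1 : Integrable (fun g : Fin ⌊α * (N:ℝ)⌋₊ × Fin N → ℝ => taus [k, k] g) (gauss _) := (cp_taus _).integrable
  have i2 : Integrable (fun g : Fin ⌊α * (N:ℝ)⌋₊ × Fin N → ℝ => 2 * mom α k * taus [k] g) (gauss _) :=
    ((cp_taus _).integrable).const_mul _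
  have i3 : Integrable (fun g : Fin ⌊α * (N:ℝ)⌋₊ × Fin N → ℝ => taus [k, k] g - 2 * mom α k * taus [k] g)
      (gauss _) := i1.sub i2
  rw [show (fun g : Fin ⌊α * (N:ℝ)⌋₊ × Fin N → ℝ => (tau k g - mom α k) ^ 2) =
      fun g => taus [k, k] g - 2 * mom α k * taus [k] g + mom α k ^ 2 by funext g; simp [taus]; ring,
    integral_add i3 (integrable_const _), integral_sub i1 i2, integral_const_mul]
  simp

end Vale.Agent.P166.Pattern
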