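import Vale.Agent.P166.Pattern.Concave

/-!
The quadratic potential `b x²/2` with `0 ≤ b ≤ 1/10` satisfies the two-point positivity condition.
-/

open MeasureTheory ProbabilityTheory Filter Set
open scoped Topology

noncomputable section

namespace Vale.Agent.P166.Pattern

lemma exp_sq_eq (θ t : ℝ) :
    gaussianPDFReal 0 1 t * Real.exp (θ * t ^ 2) = (√(2 * Real.pi))⁻¹ * Real.exp (-(1 / 2 - θ) * t ^ 2) := by
  rw [gaussianPDFReal_def]
  simp only [NNReal.coe_one, mul_one, sub_zero]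
  rw [mul_assoc, ← Real.exp_add]
  congr 2
  ring

lemma integrable_exp_sq {θ : ℝ} (h : θ < 1 / 2) :
    Integrable (fun t => Real.exp (θ * t ^ 2)) (gaussianReal 0 1) := by
  rw [gaussianReal_of_var_ne_zero _ one_ne_zero, integrable_withDensity_iff_integrable_smul'
    (measurable_gaussianPDF _ _) (.of_forall fun _ => gaussianPDF_lt_top)]
  simp only [gaussianPDF, ENNReal.toReal_ofReal (gaussianPDFReal_nonneg _ _ _), smul_eq_mul, exp_sq_eq]
  exact (integrable_exp_neg_mul_sq (by linarith)).const_mul _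

lemma integral_exp_sq {θ : ℝ} (h : θ < 1 / 2) :
    ∫ t, Real.exp (θ * t ^ 2) ∂gaussianReal 0 1 = (√(1 - 2 * θ))⁻¹ := by
  rw [integral_gaussianReal_eq_integral_smul one_ne_zero]
  simp only [smul_eq_mul, exp_sq_eq]
  rw [integral_const_mul, integral_gaussian, ← Real.sqrt_inv, ← Real.sqrt_inv,
    ← Real.sqrt_mul (by positivity)]
  congr 1
  have hb : (1 / 2 - θ) ≠ 0 := by linarith
  field_simp

/-- the potential `b x²/2` -/
def quad (b : ℝ) : Pot where
  f x := b * x ^ 2 / 2
  f1 x := b * x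
  f2 _ := b
  f3 _ := 0
  h1 x := (((hasDerivAt_pow 2 x).const_mul b).div_const 2).congr_deriv (by push_cast; ring)
  h2 x := by simpa using (hasDerivAt_id x).const_mul b
  h3 x := hasDerivAt_const x b
  c3 := continuous_const
  p0 := ⟨|b|, 2, fun x => by
    rw [abs_div, abs_mul, abs_of_nonneg (sq_nonneg x), abs_two, Real.norm_eq_abs]
    nlinarith [abs_nonneg b, abs_nonneg x, sq_abs x, mul_nonneg (abs_nonneg b) (abs_nonneg x)]⟩
  p1 := ⟨|b|, 1, fun x => by
    rw [abs_mul, pow_one, Real.norm_eq_abs]; nlinarith [abs_nonneg b, abs_nonneg x]⟩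
  p2 := Poly.const b
  p3 := Poly.const 0

variable {S κ : Type*} [Fintype S] [Fintype κ]

theorem quad_pair_nonneg {b : ℝ} (hb0 : 0 ≤ b) (hb : b ≤ 1 / 10) (w : S → ℝ) (hw : ∀ σ, 0 < w σ)
    [Nonempty S] (hw1 : ∑ σ, w σ = 1) (c : S → κ → ℝ) (hc : ∀ σ, cov c σ σ = 1) (σ τ : S) :
    0 ≤ ∫ x, (quad b).pair w σ τ (lin c x) ∂gauss κ := by
  set P := quad b
  have hunit : ∀ ρ, ∑ k, c ρ k ^ 2 = 1 := fun ρ => by
    rw [← hc ρ]; exact Finset.sum_congr rfl fun k _ => sq (c ρ k)
  set X := fun ρ x => lin c x ρ with hX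
  set Z := fun x => P.Z w (lin c x) with hZd
  set Q := fun x => 1 / Z x ^ 2 with hQd
  set E := fun ρ x => Real.exp ((3 / 10) * X ρ x ^ 2) with hEd
  have hexp : ∀ ρ x, P.f (X ρ x) = b * X ρ x ^ 2 / 2 := fun ρ x => rfl
  have hZ1 : ∀ x, 1 ≤ Z x := fun x => by
    show 1 ≤ ∑ ρ, w ρ * Real.exp (b * (lin c x ρ) ^ 2 / 2)
    calc (1:ℝ) = ∑ ρ, w ρ * 1 := by simp [hw1]
      _ ≤ _ := Finset.sum_le_sum fun ρ _ =>
          mul_le_mul_of_nonneg_left (Real.one_le_exp (by positivity)) (hw ρ).le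
  -- the pointwise bound
  have key : ∀ x, 2 * b ^ 2 * (w σ * w τ) * (Q x - (3 / 4) * (E σ x + E τ x - 2)) ≤
      P.pair w σ τ (lin c x) := by
    intro x
    set y := lin c x σ
    set z := lin c x τ
    set u := b * y ^ 2
    set u' := b * z ^ 2
    have hu : 0 ≤ u := by positivity
    have hu' : 0 ≤ u' := by positivity
    have e : P.pair w σ τ (lin c x) = 2 * b ^ 2 * (w σ * w τ) *
        (Real.exp ((u + u') / 2) * Q x * (1 - (u + u') - 3 * (u * u'))) := by
      have hA : ∀ t : ℝ, P.A t = b * (1 + b * t ^ 2) := fun t => by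
        simp only [Pot.A, P, quad]; ring
      have hf1 : ∀ t : ℝ, P.f1 t = b * t := fun t => rfl
      have habs : ∀ t : ℝ, |b * (1 + b * t ^ 2)| = b * (1 + b * t ^ 2) :=
        fun t => abs_of_nonneg (by positivity)
      simp only [Pot.pair, hA, hf1, habs, Pot.p, hexp, X, Q, Z, hexp]
      rw [show (u + u') / 2 = b * y ^ 2 / 2 + b * z ^ 2 / 2 by simp only [u, u']; ring, Real.exp_add]
      simp only [u, u', y, z]
      field_simp
      ring
    rw [e]
    refine mul_le_mul_of_nonneg_left ?_ (by have := hw σ; have := hw τ; positivity)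
    set v := (2 / 10) * y ^ 2
    set v' := (2 / 10) * z ^ 2
    have huv : u ≤ v / 2 := by simp only [u, v]; nlinarith [sq_nonneg y]
    have huv' : u' ≤ v' / 2 := by simp only [u', v']; nlinarith [sq_nonneg z]
    have hR : ∀ a e : ℝ, 0 ≤ a → a ≤ e / 2 → a + 3 / 2 * a ^ 2 ≤ 3 / 4 * (Real.exp e - 1) := by
      intro a e ha hae
      have h2 := Real.quadratic_le_exp_of_nonneg (show 0 ≤ e by linarith)
      nlinarith
    have h1 : (u + u') + 3 * (u * u') ≤ 3 / 4 * (Real.exp v + Real.exp v' - 2) := by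
      linarith [hR u v hu huv, hR u' v' hu' huv', sq_nonneg (u - u'),
        show 3 * (u * u') ≤ 3 / 2 * u ^ 2 + 3 / 2 * u' ^ 2 by nlinarith [sq_nonneg (u - u')]]
    have hW : 1 ≤ Real.exp ((u + u') / 2) := Real.one_le_exp (by linarith)
    have hW2 : Real.exp ((u + u') / 2) ≤ Real.exp (v / 4 + v' / 4) :=
      Real.exp_le_exp.2 (by linarith)
    have amgm : ∀ a e : ℝ, Real.exp (5 / 6 * a + 1 / 6 * e) ≤ 5 / 6 * Real.exp a + 1 / 6 * Real.exp e := by
      intro a e
      simpa using convexOn_exp.2 (mem_univ a) (mem_univ e) (show (0:ℝ) ≤ 5 / 6 by norm_num)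
        (show (0:ℝ) ≤ 1 / 6 by norm_num) (by norm_num)
    have m1 := amgm ((3 / 2) * v) ((3 / 2) * v')
    have m2 := amgm ((3 / 2) * v') ((3 / 2) * v)
    rw [show 5 / 6 * ((3 / 2) * v) + 1 / 6 * ((3 / 2) * v') = v + (v / 4 + v' / 4) by ring,
      Real.exp_add] at m1
    rw [show 5 / 6 * ((3 / 2) * v') + 1 / 6 * ((3 / 2) * v) = v' + (v / 4 + v' / 4) by ring,
      Real.exp_add] at m2
    have hEσ : E σ x = Real.exp ((3 / 2) * v) := by
      simp only [E, X, v, y]; congr 1; ring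
    have hEτ : E τ x = Real.exp ((3 / 2) * v') := by
      simp only [E, X, v', z]; congr 1; ring
    have hev : 0 ≤ Real.exp v + Real.exp v' - 2 := by
      linarith [Real.one_le_exp (show 0 ≤ v by positivity), Real.one_le_exp (show 0 ≤ v' by positivity)]
    have hB : 1 ≤ Real.exp (v / 4 + v' / 4) := Real.one_le_exp (by positivity)
    have h3 : Real.exp (v / 4 + v' / 4) * (Real.exp v + Real.exp v' - 2) ≤
        Real.exp ((3 / 2) * v) + Real.exp ((3 / 2) * v') - 2 := by nlinarith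
    have hQ0 : 0 ≤ Q x := by simp only [Q]; positivity
    have hQ1 : Q x ≤ 1 := by
      simp only [Q]
      rw [div_le_one (by have := hZ1 x; positivity)]
      nlinarith [hZ1 x]
    rw [hEσ, hEτ]
    set W := Real.exp ((u + u') / 2)
    have hW0 : 0 ≤ W := (Real.exp_pos _).le
    have h4 : W * ((u + u') + 3 * (u * u')) ≤
        3 / 4 * (Real.exp ((3 / 2) * v) + Real.exp ((3 / 2) * v') - 2) := by
      refine (mul_le_mul hW2 h1 (by positivity) (Real.exp_pos _).le).trans ?_
      nlinarith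
    have h5 : Q x * (W * ((u + u') + 3 * (u * u'))) ≤ W * ((u + u') + 3 * (u * u')) :=
      mul_le_of_le_one_left (by positivity) hQ1
    nlinarith [mul_nonneg hQ0 (sub_nonneg.2 hW)]
  -- expectations
  have hEi : ∀ ρ, Integrable (E ρ) (gauss κ) := fun ρ =>
    integrable_linear (c ρ) (hunit ρ) (integrable_exp_sq (θ := 3 / 10) (by norm_num))
  have hEv : ∀ ρ, ∫ x, E ρ x ∂gauss κ ≤ 16 / 10 := fun ρ => by
    rw [show (∫ x, E ρ x ∂gauss κ) = ∫ t, Real.exp ((3 / 10) * t ^ 2) ∂gaussianReal 0 1 from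
      integral_linear (c ρ) (hunit ρ) (F := fun t => Real.exp ((3 / 10) * t ^ 2)) (by fun_prop), integral_exp_sq (by norm_num)]
    rw [inv_le_comm₀ (by positivity) (by norm_num), Real.le_sqrt (by norm_num) (by norm_num)]
    norm_num
  set m := (√(1 - b))⁻¹ with hm
  have hm0 : 0 < m := inv_pos.2 (Real.sqrt_pos.2 (by linarith))
  have hm2 : 1 / m ^ 2 = 1 - b := by
    rw [hm, inv_pow, one_div, inv_inv, Real.sq_sqrt (by linarith)]
  have hgi : ∀ ρ, Integrable (fun x => Real.exp (b * X ρ x ^ 2 / 2)) (gauss κ) := fun ρ =>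
    integrable_linear (c ρ) (hunit ρ) (F := fun t => Real.exp (b * t ^ 2 / 2))
      ((integrable_exp_sq (θ := b / 2) (by linarith)).congr (.of_forall fun t => by simp only; ring_nf))
  have hZi : Integrable Z (gauss κ) := integrable_finsetSum _ fun ρ _ => (hgi ρ).const_mul (w ρ)
  have hZv : ∫ x, Z x ∂gauss κ = m := by
    show ∫ x, ∑ ρ, w ρ * Real.exp (b * X ρ x ^ 2 / 2) ∂gauss κ = m
    rw [integral_finsetSum _ fun ρ _ => (hgi ρ).const_mul (w ρ)]
    have h1 : ∀ ρ, ∫ x, Real.exp (b * X ρ x ^ 2 / 2) ∂gauss κ = m := fun ρ => by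
      rw [show (∫ x, Real.exp (b * X ρ x ^ 2 / 2) ∂gauss κ) = ∫ t, Real.exp (b * t ^ 2 / 2) ∂gaussianReal 0 1
        from integral_linear (c ρ) (hunit ρ) (F := fun t => Real.exp (b * t ^ 2 / 2)) (by fun_prop)]
      rw [show (fun t : ℝ => Real.exp (b * t ^ 2 / 2)) = fun t => Real.exp (b / 2 * t ^ 2) by
        funext t; congr 1; ring, integral_exp_sq (by linarith), hm]
      congr 2; ring
    simp only [integral_const_mul, h1, ← Finset.sum_mul, hw1, one_mul]
  have hZc : Continuous Z := (P.cont_Z w hw).comp (continuous_lin c)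
  have hQc : Continuous Q := continuous_const.div (hZc.pow 2) fun x => by have := hZ1 x; positivity
  have hQi : Integrable Q (gauss κ) := Integrable.mono' (integrable_const 1) hQc.aestronglyMeasurable
    (.of_forall fun x => by
      have := hZ1 x
      simp only [Q]
      rw [Real.norm_eq_abs, abs_of_nonneg (by positivity), div_le_one (by positivity)]
      nlinarith)
  have hQv : 1 - b ≤ ∫ x, Q x ∂gauss κ := by
    have hpt : ∀ x, 3 * (1 / m ^ 2) - 2 / m ^ 3 * Z x ≤ Q x := fun x => by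
      have hz := hZ1 x
      simp only [Q]
      rw [← sub_nonneg]
      have : 1 / Z x ^ 2 - (3 * (1 / m ^ 2) - 2 / m ^ 3 * Z x) =
          (Z x - m) ^ 2 * (2 * Z x + m) / (m ^ 3 * Z x ^ 2) := by field_simp; ring
      rw [this]; positivity
    have i1 : Integrable (fun _ : κ → ℝ => 3 * (1 / m ^ 2)) (gauss κ) := integrable_const _
    have i2 : Integrable (fun x => 2 / m ^ 3 * Z x) (gauss κ) := hZi.const_mul _
    have h6 : ∫ x, (3 * (1 / m ^ 2) - 2 / m ^ 3 * Z x) ∂gauss κ ≤ ∫ x, Q x ∂gauss κ :=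
      integral_mono (i1.sub i2) hQi hpt
    rw [integral_sub i1 i2, integral_const, probReal_univ, one_smul, integral_const_mul, hZv] at h6
    have e : 2 / m ^ 3 * m = 2 * (1 / m ^ 2) := by field_simp
    rw [e, hm2] at h6
    linarith
  have hEs : Integrable (fun x => (3 / 4) * (E σ x + E τ x - 2)) (gauss κ) :=
    (((hEi σ).add (hEi τ)).sub (integrable_const 2)).const_mul _
  refine le_trans ?_ (integral_mono ((hQi.sub hEs).const_mul _)
    (integrable_lin _ (P.cont_pair w hw σ τ) (P.poly_pair w hw σ τ)) key)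
  rw [integral_const_mul]
  refine mul_nonneg (by have := hw σ; have := hw τ; positivity) ?_
  simp only [Pi.sub_apply]
  have i3 : Integrable (fun x => E σ x + E τ x) (gauss κ) := (hEi σ).add (hEi τ)
  rw [integral_sub hQi hEs, integral_const_mul, integral_sub i3 (integrable_const _),
    integral_add (hEi σ) (hEi τ)]
  simp only [integral_const, probReal_univ, one_smul]
  linarith [hEv σ, hEv τ, hQv]

end Vale.Agent.P166.Pattern
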