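import Vale.Agent.P166.Pattern.Edge

/-!
Spectrum of the Wishart matrix: diagonalisation, the bound on the largest eigenvalue, and the
position of the top of the limiting law.
-/

open MeasureTheory ProbabilityTheory Filter Matrix
open scoped Topology

noncomputable section

namespace Vale.Agent.P166.Pattern

variable {M N : ℕ}

lemma integral_id_sq : ∫ t, t * t ∂gaussianReal 0 1 = 1 := by
  have h := ibp1 (F := fun t => t) (F' := fun _ => (1:ℝ)) (fun t => hasDerivAt_id t) continuous_const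
    ⟨1, 1, fun x => by simp [Real.norm_eq_abs]⟩ (Poly.const 1)
  simpa using h

lemma cp_sqrt_sq {κ : Type*} [Fintype κ] {M : ℕ} (e : Fin M → κ) :
    CP fun x : κ → ℝ => √(∑ i, x (e i) ^ 2) := by
  refine ⟨by fun_prop, ?_⟩
  refine (Poly.add (Poly.const (1:ℝ)) (Poly.sum Finset.univ fun i _ => (poly_coord (e i)).pow 2)).mono fun x => ?_
  have h0 : 0 ≤ ∑ i, x (e i) ^ 2 := Finset.sum_nonneg fun i _ => sq_nonneg _
  rw [abs_of_nonneg (Real.sqrt_nonneg _), abs_of_nonneg (by positivity), Real.sqrt_le_iff]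
  constructor <;> nlinarith

lemma integral_norm_le {κ : Type*} [Fintype κ] {M : ℕ} (hM : 0 < M) (e : Fin M → κ) :
    ∫ x, √(∑ i, x (e i) ^ 2) ∂gauss κ ≤ √(M : ℝ) := by
  set s := √(M : ℝ)
  have hs : 0 < s := Real.sqrt_pos.2 (by exact_mod_cast hM)
  have hi : ∀ i, Integrable (fun x : κ → ℝ => x (e i) ^ 2) (gauss κ) := fun i =>
    integrable_poly (by fun_prop) ((poly_coord (e i)).pow 2)
  have hv : ∀ i, ∫ x, x (e i) ^ 2 ∂gauss κ = 1 := fun i => by
    have h := measurePreserving_eval (fun _ : κ => gaussianReal 0 1) (e i)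
    rw [gauss, ← integral_map (φ := fun x : κ → ℝ => x (e i)) (f := fun t => t ^ 2) h.measurable.aemeasurable
      (by fun_prop)]
    rw [show Measure.map (fun x : κ → ℝ => x (e i)) (Measure.pi fun _ : κ => gaussianReal 0 1) = gaussianReal 0 1
      from h.map_eq]
    simpa [sq] using integral_id_sq
  have hS : Integrable (fun x : κ → ℝ => ((∑ i, x (e i) ^ 2) / s + s) / 2) (gauss κ) :=
    ((((integrable_finsetSum Finset.univ fun i _ => hi i)).div_const _).add (integrable_const _)).div_const _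
  refine (integral_mono ((cp_sqrt_sq e).integrable) hS fun x => ?_).trans (le_of_eq ?_)
  · have h0 : 0 ≤ ∑ i, x (e i) ^ 2 := Finset.sum_nonneg fun i _ => sq_nonneg _
    rw [le_div_iff₀ two_pos, div_add' _ _ _ hs.ne', le_div_iff₀ hs]
    nlinarith [sq_nonneg (√(∑ i, x (e i) ^ 2) - s), Real.sq_sqrt h0]
  · have i1 : Integrable (fun x : κ → ℝ => (∑ i, x (e i) ^ 2) / s) (gauss κ) :=
      (integrable_finsetSum Finset.univ fun i _ => hi i).div_const _
    rw [integral_div, integral_add i1 (integrable_const _), integral_div,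
      integral_finsetSum _ fun i _ => hi i]
    simp only [hv, Finset.sum_const, Finset.card_univ, Fintype.card_fin, nsmul_eq_mul, mul_one, integral_const,
      probReal_univ, one_smul]
    have : s * s = M := Real.mul_self_sqrt (Nat.cast_nonneg M)
    field_simp
    nlinarith

/-- bilinear form of the pattern matrix -/
def bil (g : Fin M × Fin N → ℝ) (u : Fin M → ℝ) (v : Fin N → ℝ) : ℝ := ∑ m, ∑ i, u m * g (m, i) * v i

lemma abs_dot_le_one {k : ℕ} {u v : Fin k → ℝ} (hu : ∑ i, u i ^ 2 = 1) (hv : ∑ i, v i ^ 2 = 1) :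
    |∑ i, u i * v i| ≤ 1 := by
  refine (Finset.abs_sum_le_sum_abs _ _).trans ?_
  calc ∑ i, |u i * v i| ≤ ∑ i, (u i ^ 2 + v i ^ 2) / 2 := Finset.sum_le_sum fun i _ => by
        rw [abs_mul]; nlinarith [sq_nonneg (|u i| - |v i|), sq_abs (u i), sq_abs (v i)]
    _ = 1 := by rw [← Finset.sum_div, Finset.sum_add_distrib, hu, hv]; norm_num

/-- tail bound for finitely many test vectors -/
lemma tail_finite (hM : 0 < M) (hN : 0 < N) {S : Type} [Fintype S] [Nonempty S]
    (u : S → Fin M → ℝ) (v : S → Fin N → ℝ) (hu : ∀ σ, ∑ i, u σ i ^ 2 = 1) (hv : ∀ σ, ∑ i, v σ i ^ 2 = 1)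
    {t : ℝ} (ht : 0 < t) :
    (gauss (Fin M × Fin N)).real {g | ∃ σ, √(M:ℝ) + √(N:ℝ) + 1 + t < bil g (u σ) (v σ)} ≤ 1 / t ^ 2 := by
  set θ : ℝ := Real.log (Fintype.card S) + 1
  have hl : 0 ≤ Real.log (Fintype.card S) := Real.log_natCast_nonneg _
  have hθ : 0 < θ := by simp only [θ]; linarith
  set a : S → Fin M × Fin N → ℝ := fun σ p => u σ p.1 * v σ p.2
  set b : S → Fin M ⊕ Fin N → ℝ := fun σ => Sum.elim (u σ) (v σ)
  have hbil : ∀ g σ, bil g (u σ) (v σ) = lin a g σ := fun g σ => by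
    simp only [bil, lin, a, Fintype.sum_prod_type]
    exact Finset.sum_congr rfl fun m _ => Finset.sum_congr rfl fun i _ => by ring
  have hca : ∀ σ τ, cov a σ τ = (∑ i, u σ i * u τ i) * ∑ i, v σ i * v τ i := fun σ τ => by
    simp only [cov, a, Fintype.sum_prod_type, Finset.sum_mul_sum]
    exact Finset.sum_congr rfl fun m _ => Finset.sum_congr rfl fun i _ => by ring
  have hcb : ∀ σ τ, cov b σ τ = (∑ i, u σ i * u τ i) + ∑ i, v σ i * v τ i := fun σ τ => by
    simp [cov, b, Fintype.sum_sum_type]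
  have h1 : ∀ σ, ∑ i, u σ i * u σ i = 1 := fun σ => by simpa [sq] using hu σ
  have h2 : ∀ σ, ∑ i, v σ i * v σ i = 1 := fun σ => by simpa [sq] using hv σ
  have hK := smooth_lse (S := S) θ
  have hcov : ∀ σ τ, |cov a σ τ| ≤ 1 := fun σ τ => by
    rw [hca, abs_mul]
    exact mul_le_one₀ (abs_dot_le_one (hu σ) (hu τ)) (abs_nonneg _) (abs_dot_le_one (hv σ) (hv τ))
  set E := ∫ x, lse θ (lin a x) ∂gauss (Fin M × Fin N)
  have hmean : E ≤ θ * (√(M:ℝ) + √(N:ℝ)) := by
    refine (lse_compare θ a b fun σ τ => ?_).trans ?_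
    · simp only [hca, hcb, h1, h2]
      nlinarith [mul_nonneg (sub_nonneg.2 (le_of_abs_le (abs_dot_le_one (hu σ) (hu τ))))
        (sub_nonneg.2 (le_of_abs_le (abs_dot_le_one (hv σ) (hv τ))))]
    · have i1 : Integrable (fun x : Fin M ⊕ Fin N → ℝ => θ * (√(∑ i, x (Sum.inl i) ^ 2) + √(∑ i, x (Sum.inr i) ^ 2)))
          (gauss (Fin M ⊕ Fin N)) :=
        (((cp_sqrt_sq Sum.inl).integrable).add ((cp_sqrt_sq Sum.inr).integrable)).const_mul θ
      refine (integral_mono (integrable_lin _ hK.cont hK.p0) i1 fun x => lse_le hθ.le _ fun σ => ?_).trans ?_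
      · have cs : ∀ {k : ℕ} (p q : Fin k → ℝ), ∑ i, p i ^ 2 = 1 → ∑ i, p i * q i ≤ √(∑ i, q i ^ 2) := by
          intro k p q hp
          have := Real.sum_mul_le_sqrt_mul_sqrt Finset.univ p q
          rwa [hp, Real.sqrt_one, one_mul] at this
        simp only [lin, b, Fintype.sum_sum_type, Sum.elim_inl, Sum.elim_inr]
        exact add_le_add (cs _ (fun i => x (Sum.inl i)) (hu σ)) (cs _ (fun i => x (Sum.inr i)) (hv σ))
      · rw [integral_const_mul, integral_add (cp_sqrt_sq Sum.inl).integrable (cp_sqrt_sq Sum.inr).integrable]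
        exact mul_le_mul_of_nonneg_left
          (add_le_add (integral_norm_le hM Sum.inl) (integral_norm_le hN Sum.inr)) hθ.le
  have hvar := lse_var θ a hcov
  have i0 : Integrable (fun x => lse θ (lin a x)) (gauss (Fin M × Fin N)) := integrable_lin _ hK.cont hK.p0
  have i1 : Integrable (fun x => lse θ (lin a x) * lse θ (lin a x)) (gauss (Fin M × Fin N)) :=
    integrable_lin _ (F := fun y => lse θ y * lse θ y) (hK.cont.mul hK.cont) (hK.p0.mul hK.p0)
  have i2 : Integrable (fun x => lse θ (lin a x) * lse θ (lin a x) - 2 * E * lse θ (lin a x))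
      (gauss (Fin M × Fin N)) := i1.sub (i0.const_mul _)
  have i3 : Integrable (fun x => (lse θ (lin a x) - E) ^ 2) (gauss (Fin M × Fin N)) :=
    (i2.add (integrable_const (E ^ 2))).congr (.of_forall fun x => by simp only [Pi.add_apply]; ring)
  have hv2 : ∫ x, (lse θ (lin a x) - E) ^ 2 ∂gauss (Fin M × Fin N) ≤ θ ^ 2 := by
    refine le_trans (le_of_eq ?_) hvar
    rw [show (fun x => (lse θ (lin a x) - E) ^ 2) = fun x =>
        lse θ (lin a x) * lse θ (lin a x) - 2 * E * lse θ (lin a x) + E ^ 2 by funext x; ring,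
      integral_add i2 (integrable_const _), integral_sub i1 (i0.const_mul _), integral_const_mul, integral_const]
    simp only [probReal_univ, one_smul, E]
    ring
  have hcheb := mul_meas_ge_le_integral_of_nonneg (.of_forall fun x => sq_nonneg _) i3 ((θ * t) ^ 2)
  have hsub : {g : Fin M × Fin N → ℝ | ∃ σ, √(M:ℝ) + √(N:ℝ) + 1 + t < bil g (u σ) (v σ)} ⊆
      {x | (θ * t) ^ 2 ≤ (lse θ (lin a x) - E) ^ 2} := by
    rintro g ⟨σ, hσ⟩
    rw [hbil] at hσ
    have h := le_lse θ (lin a g) σ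
    have h3 := mul_le_mul_of_nonneg_left hσ.le hθ.le
    show (θ * t) ^ 2 ≤ (lse θ (lin a g) - E) ^ 2
    refine pow_le_pow_left₀ (by positivity) ?_ 2
    simp only [θ] at h3 hmean h ⊢
    nlinarith
  have h4 : (gauss (Fin M × Fin N)).real {g | ∃ σ, √(M:ℝ) + √(N:ℝ) + 1 + t < bil g (u σ) (v σ)} ≤
      (gauss (Fin M × Fin N)).real {x | (θ * t) ^ 2 ≤ (lse θ (lin a x) - E) ^ 2} :=
    measureReal_mono hsub
  rw [le_div_iff₀ (by positivity)]
  have h5 := hcheb.trans hv2
  nlinarith [mul_le_mul_of_nonneg_left h4 (show 0 ≤ θ ^ 2 * t ^ 2 by positivity), sq_pos_of_pos hθ]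

/-- with high probability the pattern matrix has norm at most `√M + √N + 1 + t` -/
theorem tail_norm (hM : 0 < M) (hN : 0 < N) {t : ℝ} (ht : 0 < t) :
    (gauss (Fin M × Fin N)).real
      {g | ∃ v : Fin N → ℝ, ∑ i, v i ^ 2 = 1 ∧
        (√(M:ℝ) + √(N:ℝ) + 1 + t) ^ 2 < ∑ m, (∑ i, g (m, i) * v i) ^ 2} ≤ 1 / t ^ 2 := by
  set a := √(M:ℝ) + √(N:ℝ) + 1 + t
  have ha : 0 < a := by positivity
  have ne : ∀ {k : ℕ}, 0 < k → Nonempty {u : Fin k → ℝ // ∑ i, u i ^ 2 = 1} := fun {k} hk =>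
    ⟨⟨(Pi.single (⟨0, hk⟩ : Fin k) (1:ℝ) : Fin k → ℝ), by simp [Pi.single_apply]⟩⟩
  have := ne hM; have := ne hN
  obtain ⟨q, hq⟩ := TopologicalSpace.exists_dense_seq
    ({u : Fin M → ℝ // ∑ i, u i ^ 2 = 1} × {v : Fin N → ℝ // ∑ i, v i ^ 2 = 1})
  set T := fun n : ℕ => {g : Fin M × Fin N → ℝ | ∃ σ : Fin (n + 1), a < bil g (q σ).1.1 (q σ).2.1}
  have hT : ∀ n, (gauss (Fin M × Fin N)).real (T n) ≤ 1 / t ^ 2 := fun n =>
    tail_finite hM hN (fun σ : Fin (n + 1) => (q σ).1.1) (fun σ => (q σ).2.1) (fun σ => (q σ).1.2)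
      (fun σ => (q σ).2.2) ht
  have hmono : Monotone T := by
    intro n m hnm g hg
    obtain ⟨σ, hσ⟩ := hg
    exact ⟨⟨σ, by omega⟩, hσ⟩
  have hsub : {g | ∃ v : Fin N → ℝ, ∑ i, v i ^ 2 = 1 ∧ a ^ 2 < ∑ m, (∑ i, g (m, i) * v i) ^ 2} ⊆ ⋃ n, T n := by
    rintro g ⟨v, hv, hg⟩
    set z := fun m => ∑ i, g (m, i) * v i
    set s := √(∑ m, z m ^ 2)
    have hs : a < s := (Real.lt_sqrt ha.le).2 hg
    have hs0 : 0 < s := ha.trans hs
    have hss : s * s = ∑ m, z m ^ 2 := Real.mul_self_sqrt (Finset.sum_nonneg fun m _ => sq_nonneg _)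
    have hu : ∑ m, (z m / s) ^ 2 = 1 := by
      simp only [div_pow, ← Finset.sum_div, ← hss]
      field_simp
    set x : {u : Fin M → ℝ // ∑ i, u i ^ 2 = 1} × {v : Fin N → ℝ // ∑ i, v i ^ 2 = 1} :=
      (⟨fun m => z m / s, hu⟩, ⟨v, hv⟩)
    have hbx : a < bil g x.1.1 x.2.1 := by
      have e : bil g (fun m => z m / s) v = s := by
        have : bil g (fun m => z m / s) v = ∑ m, z m / s * z m := by
          simp only [bil, z, Finset.mul_sum]
          exact Finset.sum_congr rfl fun m _ => Finset.sum_congr rfl fun i _ => by ring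
        rw [this, show ∑ m, z m / s * z m = (∑ m, z m ^ 2) / s by
          rw [Finset.sum_div]; exact Finset.sum_congr rfl fun m _ => by ring, ← hss]
        field_simp
      simpa [x, e] using hs
    have hopen : IsOpen {p : {u : Fin M → ℝ // ∑ i, u i ^ 2 = 1} × {v : Fin N → ℝ // ∑ i, v i ^ 2 = 1} | a < bil g p.1.1 p.2.1} := by
      refine isOpen_lt continuous_const ?_
      unfold bil
      exact continuous_finsetSum _ fun m _ => continuous_finsetSum _ fun i _ =>
        (((continuous_apply m).comp (continuous_subtype_val.comp continuous_fst)).mul continuous_const).mul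
          ((continuous_apply i).comp (continuous_subtype_val.comp continuous_snd))
    obtain ⟨n, hn⟩ := hq.exists_mem_open hopen ⟨x, hbx⟩
    exact Set.mem_iUnion.2 ⟨n, Fin.last n, by simpa using hn⟩
  refine le_trans (measureReal_mono hsub) ?_
  rw [measureReal_def]
  refine ENNReal.toReal_le_of_le_ofReal (by positivity) ?_
  rw [hmono.measure_iUnion]
  exact iSup_le fun n => by
    rw [← ofReal_measureReal]; exact ENNReal.ofReal_le_ofReal (hT n)

/-- diagonalisation of the Wishart matrix -/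
theorem exists_eig (g : Fin M × Fin N → ℝ) :
    ∃ (lam : Fin N → ℝ) (Q : Matrix (Fin N) (Fin N) ℝ), Q ∈ Matrix.orthogonalGroup (Fin N) ℝ ∧
      WM g = Qᵀ * Matrix.diagonal lam * Q ∧ (∀ k, tau k g = (∑ i, lam i ^ k) / N) ∧
      (∀ i, 0 ≤ lam i) ∧
      ∀ a : ℝ, (∀ v : Fin N → ℝ, ∑ i, v i ^ 2 = 1 → ∑ m, (∑ i, g (m, i) * v i) ^ 2 ≤ a) →
        ∀ i, lam i ≤ a / N := by
  have hh : (WM g).IsHermitian := by
    rw [Matrix.IsHermitian, Matrix.conjTranspose_eq_transpose_of_trivial, transpose_WM]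
  set U : Matrix (Fin N) (Fin N) ℝ := (hh.eigenvectorUnitary : Matrix (Fin N) (Fin N) ℝ)
  have hU1 : Uᵀ * U = 1 := by
    have := (Matrix.mem_unitaryGroup_iff').1 hh.eigenvectorUnitary.2
    simpa [U, Matrix.star_eq_conjTranspose] using this
  have hU2 : U * Uᵀ = 1 := mul_eq_one_comm.1 hU1
  set lam := hh.eigenvalues
  have hW : WM g = U * Matrix.diagonal lam * Uᵀ := by
    have := hh.spectral_theorem
    simp only [Unitary.conjStarAlgAut_apply] at this
    simpa [U, lam, Matrix.star_eq_conjTranspose, Function.comp_def] using this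
  have hpow : ∀ k, WM g ^ k = U * Matrix.diagonal (fun i => lam i ^ k) * Uᵀ := by
    intro k
    induction k with
    | zero => simp [hU2]
    | succ k ih =>
      rw [pow_succ, ih, hW]
      calc U * Matrix.diagonal (fun i => lam i ^ k) * Uᵀ * (U * Matrix.diagonal lam * Uᵀ)
          = U * Matrix.diagonal (fun i => lam i ^ k) * (Uᵀ * U) * Matrix.diagonal lam * Uᵀ := by
            simp only [Matrix.mul_assoc]
        _ = _ := by rw [hU1, Matrix.mul_one, Matrix.mul_assoc U, Matrix.diagonal_mul_diagonal]; simp [pow_succ]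
  have hquad : ∀ i, lam i * N = ∑ m, (∑ j, g (m, j) * U j i) ^ 2 := by
    intro i
    have e : (Uᵀ * WM g * U) i i = lam i := by
      rw [hW]
      calc (Uᵀ * (U * Matrix.diagonal lam * Uᵀ) * U) i i = ((Uᵀ * U) * Matrix.diagonal lam * (Uᵀ * U)) i i := by
            simp only [Matrix.mul_assoc]
        _ = lam i := by rw [hU1]; simp
    have e2 : (Uᵀ * WM g * U) i i = (N:ℝ)⁻¹ * ∑ m, (∑ j, g (m, j) * U j i) ^ 2 := by
      simp only [WM, Matrix.mul_smul, Matrix.smul_mul, Matrix.smul_apply, smul_eq_mul]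
      rw [show Uᵀ * ((XM g)ᵀ * XM g) * U = (XM g * U)ᵀ * (XM g * U) by
        rw [Matrix.transpose_mul]; simp only [Matrix.mul_assoc]]
      simp [Matrix.mul_apply, XM, sq, mul_comm]
    rw [← e, e2]
    have hN : (N:ℝ) ≠ 0 := by exact_mod_cast (i.pos).ne'
    field_simp
  refine ⟨lam, Uᵀ, ?_, by rw [Matrix.transpose_transpose]; exact hW, fun k => ?_, fun i => ?_, fun a ha i => ?_⟩
  · rw [Matrix.mem_orthogonalGroup_iff]; simpa using hU1
  · rw [tau, hpow, Matrix.trace_mul_comm, ← Matrix.mul_assoc, hU1, Matrix.one_mul, Matrix.trace_diagonal]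
  · have h := hquad i
    have hN : (0:ℝ) < N := by exact_mod_cast i.pos
    nlinarith [Finset.sum_nonneg fun m (_ : m ∈ Finset.univ) => sq_nonneg (∑ j, g (m, j) * U j i)]
  · rw [le_div_iff₀ (by exact_mod_cast i.pos), hquad i]
    refine ha _ ?_
    have := congrFun (congrFun hU1 i) i
    simpa [Matrix.mul_apply, sq] using this

/-- no law with these moments lives below `(1 + √α)²` -/
theorem mom_growth {α r : ℝ} (hα : 0 < α) (hr0 : 0 ≤ r) (hr : r < (1 + √α) ^ 2)
    (h0 : ∀ k, 0 ≤ mom α k) (hb : ∀ k, mom α k ≤ r ^ k) : False := by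
  set s := √α with hs
  have hs0 : 0 < s := Real.sqrt_pos.2 hα
  have hss : s * s = α := Real.mul_self_sqrt hα.le
  set u0 := 1 / (1 + s)
  have hu0 : 0 < u0 := by positivity
  have hu1 : (1 + s) * u0 = 1 := by simp only [u0]; field_simp
  have c1 : ∀ᶠ u in 𝓝 u0, r * u ^ 2 < 1 :=
    (show ContinuousAt (fun u : ℝ => r * u ^ 2) u0 by fun_prop).eventually_lt_const (by
      show r * u0 ^ 2 < 1
      have h : ((1 + s) * u0) ^ 2 = 1 := by rw [hu1, one_pow]
      nlinarith [pow_pos hu0 2])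
  have c2 : ∀ᶠ u in 𝓝 u0, 0 < (s - 1) * u + 1 :=
    (show ContinuousAt (fun u : ℝ => (s - 1) * u + 1) u0 by fun_prop).eventually_const_lt (by
      show 0 < (s - 1) * u0 + 1
      nlinarith)
  have c3 : ∀ᶠ u in 𝓝 u0, (s - 1) * u - 1 < 0 :=
    (show ContinuousAt (fun u : ℝ => (s - 1) * u - 1) u0 by fun_prop).eventually_lt_const (by
      show (s - 1) * u0 - 1 < 0
      nlinarith)
  obtain ⟨u, ⟨⟨hu2, hu3⟩, hu4⟩, hu⟩ :=
    ((((c1.and c2).and c3).filter_mono nhdsWithin_le_nhds).and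
      (self_mem_nhdsWithin : ∀ᶠ u in 𝓝[>] u0, u0 < u)).exists
  have hupos : 0 < u := hu0.trans hu
  set z := u ^ 2
  have hz : 0 < z := by positivity
  set f := fun n => mom α n * z ^ n
  have hf0 : ∀ n, 0 ≤ f n := fun n => mul_nonneg (h0 n) (by positivity)
  have hsum : Summable f := Summable.of_nonneg_of_le hf0
    (fun n => show f n ≤ (r * z) ^ n by
      rw [mul_pow]; exact mul_le_mul_of_nonneg_right (hb n) (by positivity))
    (summable_geometric_of_lt_one (by positivity) hu2)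
  have hnorm : Summable fun n => ‖f n‖ := by
    simpa [Real.norm_eq_abs, fun n => abs_of_nonneg (hf0 n)] using hsum
  set F := ∑' n, f n
  have hcauchy : F * F = ∑' n, ∑ j ∈ Finset.range (n + 1), f j * f (n - j) :=
    tsum_mul_tsum_eq_tsum_sum_range_of_summable_norm hnorm hnorm
  have hrec : ∀ n, f (n + 1) = z * ((α - 1) * f n + ∑ j ∈ Finset.range (n + 1), f j * f (n - j)) := by
    intro n
    have e : ∀ j ∈ Finset.range (n + 1), f j * f (n - j) = mom α j * mom α (n - j) * z ^ n := fun j hj => by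
      have := Finset.mem_range.1 hj
      simp only [f]
      rw [mul_mul_mul_comm, ← pow_add, show j + (n - j) = n by omega]
    rw [Finset.sum_congr rfl e, ← Finset.sum_mul, Finset.sum_range_succ']
    simp only [f, Nat.sub_zero]
    rw [show mom α (n + 1) = α * mom α n + ∑ j : Fin n, mom α (j.val + 1) * mom α (n - 1 - j.val) by rw [mom],
      show mom α 0 = 1 by rw [mom]]
    rw [Fin.sum_univ_eq_sum_range (fun j => mom α (j + 1) * mom α (n - 1 - j)) n]
    rw [Finset.sum_congr rfl fun j hj => show mom α (j + 1) * mom α (n - (j + 1)) =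
      mom α (j + 1) * mom α (n - 1 - j) by rw [show n - (j + 1) = n - 1 - j by omega]]
    ring
  have hFeq : F = 1 + z * ((α - 1) * F + F * F) := by
    have h := hsum.tsum_eq_zero_add
    have hs2 : Summable fun n => ∑ j ∈ Finset.range (n + 1), f j * f (n - j) :=
      (summable_norm_sum_mul_range_of_summable_norm hnorm hnorm).of_norm
    rw [show (∑' b, f (b + 1)) = ∑' b, z * ((α - 1) * f b + ∑ j ∈ Finset.range (b + 1), f j * f (b - j)) from
      tsum_congr hrec, tsum_mul_left, (hsum.mul_left _).tsum_add hs2, tsum_mul_left, ← hcauchy] at h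
    calc F = _ := h
      _ = _ := by simp [f, mom, F]
  have hdisc : ((α - 1) * z - 1) ^ 2 - 4 * z = (2 * z * F + ((α - 1) * z - 1)) ^ 2 := by
    linear_combination (4 * z) * hFeq
  have hneg : ((α - 1) * z - 1) ^ 2 - 4 * z < 0 := by
    have e : ((α - 1) * z - 1) ^ 2 - 4 * z =
        (((s - 1) * u - 1) * ((s + 1) * u + 1)) * (((s + 1) * u - 1) * ((s - 1) * u + 1)) := by
      rw [← hss]; simp only [z]; ring
    rw [e]
    have p1 : 0 < (s + 1) * u - 1 := by nlinarith
    exact mul_neg_of_neg_of_pos (mul_neg_of_neg_of_pos hu4 (by positivity)) (mul_pos p1 hu3)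
  nlinarith [sq_nonneg (2 * z * F + ((α - 1) * z - 1))]

end Vale.Agent.P166.Pattern
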